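import Crest.Agent.R245.Defs

/-! Row 245: linear algebra of curvature forms: solving, reduction to orthogonal pairs, perturbation. -/

open Complex Filter Topology Set Metric Matrix
open scoped ComplexConjugate ContDiff

namespace Crest.Agent.R245
noncomputable section

section General
variable {V : Type*} [AddCommGroup V] [Module ℂ V]
  {H H0 : V → V → ℂ} {T T0 : V → V → V → ℂ} {Q Q0 : V → V → V → V → ℂ}

theorem IsJet.H_add_right (h : IsJet H T Q) (X Y Y' : V) : H X (Y + Y') = H X Y + H X Y' := by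
  rw [h.H_symm (Y + Y') X, h.H_add, map_add, ← h.H_symm, ← h.H_symm]
theorem IsJet.H_smul_right (h : IsJet H T Q) (c : ℂ) (X Y : V) :
    H X (c • Y) = conj c * H X Y := by
  rw [h.H_symm (c • Y) X, h.H_smul, map_mul, ← h.H_symm]
theorem IsJet.H_im (h : IsJet H T Q) (X : V) : (H X X).im = 0 :=
  Complex.conj_eq_iff_im.1 (h.H_symm X X).symm

theorem IsJet.a0_H_zero (h : IsJet H T Q) (Y : V) : H 0 Y = 0 := by
  simpa using h.H_smul 0 0 Y
theorem IsJet.a0_H_sub (h : IsJet H T Q) (X X' Y : V) : H (X - X') Y = H X Y - H X' Y := by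
  rw [sub_eq_add_neg, ← neg_one_smul ℂ X', h.H_add, h.H_smul]; ring
theorem IsJet.a0_T_add2 (h : IsJet H T Q) (X Z Z' Y : V) :
    T X (Z + Z') Y = T X Z Y + T X Z' Y := by
  rw [h.T_symm X (Z + Z'), h.T_add1, h.T_symm Z, h.T_symm Z']
theorem IsJet.a0_T_smul2 (h : IsJet H T Q) (c : ℂ) (X Z Y : V) : T X (c • Z) Y = c * T X Z Y := by
  rw [h.T_symm X (c • Z), h.T_smul1, h.T_symm Z]
theorem IsJet.a0_T_sub3 (h : IsJet H T Q) (X Z Y Y' : V) :
    T X Z (Y - Y') = T X Z Y - T X Z Y' := by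
  rw [sub_eq_add_neg, ← neg_one_smul ℂ Y', h.T_add3, h.T_smul3]; simp [sub_eq_add_neg]
theorem IsJet.a0_Q_add2 (h : IsJet H T Q) (X Z Z' Y W : V) :
    Q X (Z + Z') Y W = Q X Z Y W + Q X Z' Y W := by
  rw [h.Q_symm X (Z + Z'), h.Q_add1, h.Q_symm Z, h.Q_symm Z']
theorem IsJet.a0_Q_smul2 (h : IsJet H T Q) (c : ℂ) (X Z Y W : V) :
    Q X (c • Z) Y W = c * Q X Z Y W := by
  rw [h.Q_symm X (c • Z), h.Q_smul1, h.Q_symm Z]
theorem IsJet.a0_Q_add4 (h : IsJet H T Q) (X Z Y W W' : V) :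
    Q X Z Y (W + W') = Q X Z Y W + Q X Z Y W' := by
  rw [h.Q_herm Y (W + W'), h.a0_Q_add2, map_add, ← h.Q_herm, ← h.Q_herm]
theorem IsJet.a0_Q_smul4 (h : IsJet H T Q) (c : ℂ) (X Z Y W : V) :
    Q X Z Y (c • W) = conj c * Q X Z Y W := by
  rw [h.Q_herm Y (c • W), h.a0_Q_smul2, map_mul, ← h.Q_herm]
theorem IsJet.a0_Q_symm' (h : IsJet H T Q) (X Z Y W : V) : Q X Z Y W = Q X Z W Y := by
  rw [h.Q_herm Y W, h.Q_symm Y W, ← h.Q_herm]
theorem PosF.a0_nonneg (hp : PosF H) (h : IsJet H T Q) (X : V) : 0 ≤ (H X X).re := by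
  by_cases hX : X = 0
  · rw [hX, h.a0_H_zero]; simp
  · exact (hp X hX).le

/-- Cauchy-Schwarz -/
theorem IsJet.norm_H_sq_le (h : IsJet H T Q) (hp : ∀ X, 0 ≤ (H X X).re) (X Y : V) :
    ‖H X Y‖ ^ 2 ≤ (H X X).re * (H Y Y).re := by
  set z := H X Y with hz
  have hn : ‖z‖ ^ 2 = z.re ^ 2 + z.im ^ 2 := by
    rw [Complex.sq_norm, Complex.normSq_apply]; ring
  have key : ∀ t : ℝ, 0 ≤ (‖z‖ ^ 2 * (H Y Y).re) * (t * t) + (2 * ‖z‖ ^ 2) * t + (H X X).re := by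
    intro t
    have h1 := hp (X + ((t : ℂ) * z) • Y)
    rw [h.H_add, h.H_add_right, h.H_add_right, h.H_smul, h.H_smul, h.H_smul_right, h.H_smul_right,
      h.H_symm X Y, ← hz] at h1
    have h2 := h.H_im Y
    simp only [Complex.add_re, Complex.mul_re, Complex.mul_im, map_mul, Complex.conj_re,
      Complex.conj_im, Complex.ofReal_re, Complex.ofReal_im, h2] at h1
    rw [hn]
    nlinarith
  have h3 := discrim_le_zero key
  rw [discrim] at h3
  rcases eq_or_lt_of_le (sq_nonneg ‖z‖) with h4 | h4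
  · rw [← h4]; exact mul_nonneg (hp X) (hp Y)
  · refine le_of_mul_le_mul_left ?_ h4
    nlinarith
theorem IsJet.den_nonneg (h : IsJet H T Q) (hp : PosF H) (X Y : V) : 0 ≤ den H X Y := by
  have h1 := h.norm_H_sq_le (hp.a0_nonneg h) X Y
  have h2 : (H X Y).re ^ 2 ≤ ‖H X Y‖ ^ 2 := by
    rw [← sq_abs]
    exact pow_le_pow_left₀ (abs_nonneg _) (Complex.abs_re_le_norm _) 2
  unfold den
  linarith

theorem IsJet.solve_unique (h : IsJet H T Q) (hp : PosF H) {G G' : V}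
    (hG : ∀ W, H G W = H G' W) : G = G' := by
  by_contra hne
  have := hp (G - G') (sub_ne_zero.2 hne)
  rw [h.a0_H_sub, hG, sub_self] at this
  simp at this

theorem a0_ext {ι : Type*} (b : Module.Basis ι ℂ V) {ℓ ℓ' : V → ℂ}
    (hadd : ∀ W W', ℓ (W + W') = ℓ W + ℓ W') (hsmul : ∀ (c : ℂ) W, ℓ (c • W) = conj c * ℓ W)
    (hadd' : ∀ W W', ℓ' (W + W') = ℓ' W + ℓ' W') (hsmul' : ∀ (c : ℂ) W, ℓ' (c • W) = conj c * ℓ' W)
    (e : ∀ i, ℓ (b i) = ℓ' (b i)) (W : V) : ℓ W = ℓ' W := by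
  let L : V →ₗ[ℂ] ℂ := ⟨⟨fun W => conj (ℓ W), fun W W' => by rw [hadd, map_add]⟩,
    fun c W => by simp [hsmul]⟩
  let L' : V →ₗ[ℂ] ℂ := ⟨⟨fun W => conj (ℓ' W), fun W W' => by rw [hadd', map_add]⟩,
    fun c W => by simp [hsmul']⟩
  have : L = L' := b.ext fun i => congrArg conj (e i)
  exact star_injective (LinearMap.congr_fun this W)

theorem IsJet.exists_solve [FiniteDimensional ℂ V] (h : IsJet H T Q) (hp : PosF H) (ℓ : V → ℂ)
    (hadd : ∀ W W', ℓ (W + W') = ℓ W + ℓ W') (hsmul : ∀ (c : ℂ) W, ℓ (c • W) = conj c * ℓ W) :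
    ∃ G, ∀ W, H G W = ℓ W := by
  let b := Module.finBasis ℂ V
  let Φ : V →ₗ[ℂ] (Fin (Module.finrank ℂ V) → ℂ) :=
    ⟨⟨fun G j => H G (b j), fun G G' => funext fun j => h.H_add _ _ _⟩,
      fun c G => funext fun j => h.H_smul _ _ _⟩
  have hinj : Function.Injective Φ := fun G G' e => h.solve_unique hp
    (a0_ext b (h.H_add_right G) (fun c => h.H_smul_right c G) (h.H_add_right G')
      (fun c => h.H_smul_right c G') fun i => congrFun e i)
  have hsurj := (LinearMap.injective_iff_surjective_of_finrank_eq_finrank (by simp)).1 hinj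
  obtain ⟨G, hG⟩ := hsurj fun j => ℓ (b j)
  exact ⟨G, a0_ext b (h.H_add_right G) (fun c => h.H_smul_right c G) hadd hsmul
    fun i => congrFun hG i⟩
theorem IsJet.exists_solves [FiniteDimensional ℂ V] (h : IsJet H T Q) (hp : PosF H) (X Y : V) :
    ∃ G1 G2 G3, Solves H T X Y G1 G2 G3 := by
  obtain ⟨G1, h1⟩ := h.exists_solve hp (T X Y) (h.T_add3 X Y) (fun c => h.T_smul3 c X Y)
  obtain ⟨G2, h2⟩ := h.exists_solve hp (T X X) (h.T_add3 X X) (fun c => h.T_smul3 c X X)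
  obtain ⟨G3, h3⟩ := h.exists_solve hp (T Y Y) (h.T_add3 Y Y) (fun c => h.T_smul3 c Y Y)
  exact ⟨G1, G2, G3, h1, h2, h3⟩

/-- shearing to an orthogonal pair -/
theorem IsJet.a0_shear (h : IsJet H T Q) (hp : PosF H) {X Y G1 G2 G3 : V}
    (hs : Solves H T X Y G1 G2 G3) : ∃ Y' G1' G3', (H X Y').re = 0 ∧ Solves H T X Y' G1' G2 G3' ∧
      num H Q X Y' G1' G2 G3' = num H Q X Y G1 G2 G3 ∧
      (H X X).re * (H Y' Y').re = den H X Y := by
  obtain ⟨c, hc⟩ : ∃ c : ℝ, c * (H X X).re = -(H X Y).re := by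
    by_cases hX : X = 0
    · exact ⟨0, by rw [hX, h.a0_H_zero, h.a0_H_zero]; simp⟩
    · exact ⟨-(H X Y).re / (H X X).re, div_mul_cancel₀ _ (hp X hX).ne'⟩
  obtain ⟨h1, h2, h3⟩ := hs
  refine ⟨Y + (c : ℂ) • X, G1 + (c : ℂ) • G2, G3 + ((2 * c : ℂ) • G1 + ((c : ℂ) ^ 2) • G2), ?_,
    ⟨fun W => ?_, h2, fun W => ?_⟩, ?_, ?_⟩
  · rw [h.H_add_right, h.H_smul_right]
    simp [hc]
  · rw [h.H_add, h.H_smul, h.a0_T_add2, h.a0_T_smul2, h1, h2]
  · simp only [h.H_add, h.H_smul, h.T_add1, h.T_smul1, h.a0_T_add2, h.a0_T_smul2, h1, h2, h3,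
      h.T_symm Y X]
    ring
  · unfold num
    simp only [h.H_add, h.H_smul, h.H_add_right, h.H_smul_right, h.Q_add1, h.Q_smul1, h.a0_Q_add2,
      h.a0_Q_smul2, h.a0_Q_add4, h.a0_Q_smul4, h.Q_symm Y X, h.Q_herm X Y X X, h.H_symm G1 G2,
      Complex.conj_ofReal, pow_two]
    simp only [Complex.add_re, Complex.sub_re, Complex.neg_re, Complex.mul_re, Complex.mul_im,
      Complex.add_im, Complex.conj_re, Complex.conj_im, Complex.ofReal_re, Complex.ofReal_im,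
      Complex.re_ofNat, Complex.im_ofNat]
    ring
  · unfold den
    simp only [h.H_add, h.H_smul, h.H_add_right, h.H_smul_right, h.H_symm X Y, Complex.conj_ofReal]
    simp only [Complex.add_re, Complex.mul_re, Complex.mul_im,
      Complex.add_im, Complex.conj_re, Complex.conj_im, Complex.ofReal_re, Complex.ofReal_im]
    linear_combination (c * (H X X).re + (H X Y).re) * hc

/-- it is enough to bound the curvature on orthogonal pairs -/
theorem IsJet.negF_of_orth (h : IsJet H T Q) (hp : PosF H) {c : ℝ}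
    (ho : ∀ X Y G1 G2 G3, (H X Y).re = 0 → Solves H T X Y G1 G2 G3 →
      num H Q X Y G1 G2 G3 ≤ -c * ((H X X).re * (H Y Y).re)) : NegF H T Q c := by
  intro X Y G1 G2 G3 hs
  obtain ⟨Y', G1', G3', a1, a2, a3, a4⟩ := h.a0_shear hp hs
  rw [← a3, ← a4]
  exact ho _ _ _ _ _ a1 a2
theorem IsJet.lowF_of_orth (h : IsJet H T Q) (hp : PosF H) {B : ℝ}
    (ho : ∀ X Y G1 G2 G3, (H X Y).re = 0 → Solves H T X Y G1 G2 G3 →
      -B * ((H X X).re * (H Y Y).re) ≤ num H Q X Y G1 G2 G3) : LowF H T Q B := by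
  intro X Y G1 G2 G3 hs
  obtain ⟨Y', G1', G3', a1, a2, a3, a4⟩ := h.a0_shear hp hs
  rw [← a3, ← a4]
  exact ho _ _ _ _ _ a1 a2

theorem a0_le_of_sq {a b : ℝ} (hb : 0 ≤ b) (ha : 0 ≤ a) (h : a ^ 2 ≤ b * a) : a ≤ b := by
  rcases eq_or_lt_of_le ha with h0 | h0
  · rw [← h0]; exact hb
  · nlinarith

/-- crude lower bound -/
theorem IsJet.lowF_of_bounds (h : IsJet H T Q) (hp : PosF H) (ν : V → ℝ) (hν : ∀ X, 0 ≤ ν X)
    (hH : ∀ X, ν X ^ 2 ≤ (H X X).re) {C : ℝ} (hC : 0 ≤ C)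
    (hT : ∀ X Z Y, ‖T X Z Y‖ ≤ C * (ν X * ν Z * ν Y))
    (hQ : ∀ X Z Y W, ‖Q X Z Y W‖ ≤ C * (ν X * ν Z * ν Y * ν W)) :
    LowF H T Q (2 * (C + C ^ 2)) := by
  refine h.lowF_of_orth hp ?_
  rintro X Y G1 G2 G3 - ⟨-, h2, h3⟩
  have hx := hν X
  have hy := hν Y
  have b1 : ν G2 ≤ C * (ν X * ν X) := by
    refine a0_le_of_sq (by positivity) (hν _) ((hH G2).trans ?_)
    rw [h2]
    exact (Complex.re_le_norm _).trans ((hT _ _ _).trans (le_of_eq (by ring)))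
  have b2 : (H G3 G2).re ≤ C ^ 2 * (ν X ^ 2 * ν Y ^ 2) := by
    rw [h3]
    refine (Complex.re_le_norm _).trans ((hT _ _ _).trans ?_)
    calc C * (ν Y * ν Y * ν G2) ≤ C * (ν Y * ν Y * (C * (ν X * ν X))) := by gcongr
      _ = _ := by ring
  have b3 : (Q X Y X Y).re ≤ C * (ν X ^ 2 * ν Y ^ 2) :=
    (Complex.re_le_norm _).trans ((hQ _ _ _ _).trans (le_of_eq (by ring)))
  have b4 : -(Q Y Y X X).re ≤ C * (ν X ^ 2 * ν Y ^ 2) :=
    (neg_le_abs _).trans ((Complex.abs_re_le_norm _).trans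
      ((hQ _ _ _ _).trans (le_of_eq (by ring))))
  have b5 := hp.a0_nonneg h G1
  have b6 : ν X ^ 2 * ν Y ^ 2 ≤ (H X X).re * (H Y Y).re :=
    mul_le_mul (hH X) (hH Y) (sq_nonneg _) (hp.a0_nonneg h X)
  have b7 : 2 * (C + C ^ 2) * (ν X ^ 2 * ν Y ^ 2) ≤ 2 * (C + C ^ 2) * ((H X X).re * (H Y Y).re) := by
    gcongr
  have b8 : 0 ≤ C ^ 2 * (ν X ^ 2 * ν Y ^ 2) := by positivity
  unfold num
  simp only [Complex.add_re, Complex.sub_re, Complex.neg_re]
  linarith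

/-- perturbation of a negatively curved model -/
theorem negF_perturb [FiniteDimensional ℂ V] (h : IsJet H T Q) (h0 : IsJet H0 T0 Q0)
    (hp0 : PosF H0) (ν : V → ℝ) (hν : ∀ X, 0 ≤ ν X) (hν0 : ∀ X, (H0 X X).re = ν X ^ 2)
    {c C ε : ℝ} (hc : 0 < c) (hc1 : c ≤ 1) (hC : 1 ≤ C) (hε : 0 ≤ ε) (hsmall : 1000 * ε * C ^ 2 ≤ c)
    (hneg : NegF H0 T0 Q0 c)
    (hT0 : ∀ X Z Y, ‖T0 X Z Y‖ ≤ C * (ν X * ν Z * ν Y))
    (hH : ∀ X Y, ‖H X Y - H0 X Y‖ ≤ ε * (ν X * ν Y))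
    (hT : ∀ X Z Y, ‖T X Z Y - T0 X Z Y‖ ≤ ε * (ν X * ν Z * ν Y))
    (hQ : ∀ X Z Y W, ‖Q X Z Y W - Q0 X Z Y W‖ ≤ ε * (ν X * ν Z * ν Y * ν W)) :
    PosF H ∧ NegF H T Q (c / 2) ∧ ∀ X, ν X ^ 2 / 2 ≤ (H X X).re := by
  have hC2 : 1 ≤ C ^ 2 := one_le_pow₀ hC
  have hε1 : ε ≤ 1 / 1000 := by nlinarith
  have hre : ∀ X Y, |(H X Y).re - (H0 X Y).re| ≤ ε * (ν X * ν Y) := fun X Y => by
    rw [← Complex.sub_re]
    exact (Complex.abs_re_le_norm _).trans (hH X Y)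
  have hlow : ∀ X, 999 / 1000 * ν X ^ 2 ≤ (H X X).re := fun X => by
    have h1 := (abs_le.1 (hre X X)).1
    rw [hν0] at h1
    nlinarith [sq_nonneg (ν X)]
  have hup : ∀ X, (H X X).re ≤ 1001 / 1000 * ν X ^ 2 := fun X => by
    have h1 := (abs_le.1 (hre X X)).2
    rw [hν0] at h1
    nlinarith [sq_nonneg (ν X)]
  have hp : PosF H := fun X hX => by
    have h1 := hp0 X hX
    rw [hν0] at h1
    have := hlow X
    linarith
  refine ⟨hp, h.negF_of_orth hp ?_, fun X => by have := hlow X; nlinarith [sq_nonneg (ν X)]⟩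
  have key : ∀ A B G G0, (∀ W, H G W = T A B W) → (∀ W, H0 G0 W = T0 A B W) → ∀ A' B',
      ‖T A' B' G - T0 A' B' G0‖ ≤ 4 * ε * C ^ 2 * (ν A * ν B * (ν A' * ν B')) := by
    intro A B G G0 e e0 A' B'
    set s := ν A * ν B with hs
    have hs0 : 0 ≤ s := mul_nonneg (hν A) (hν B)
    have hG := hν G
    have hD := hν (G - G0)
    have b1 : ν G ≤ 1003 / 1000 * C * s := by
      refine a0_le_of_sq (by positivity) hG ?_
      have c1 := hlow G
      have c2 : ‖T A B G‖ ≤ C * (s * ν G) + ε * (s * ν G) :=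
        (norm_le_norm_add_norm_sub' _ _).trans (add_le_add (hT0 A B G) (hT A B G))
      have c3 := Complex.re_le_norm (T A B G)
      rw [e] at c1
      have c4 : ε * (s * ν G) ≤ 1 / 1000 * C * (s * ν G) :=
        mul_le_mul_of_nonneg_right (by linarith) (by positivity)
      have c5 : 0 ≤ C * (s * ν G) := by positivity
      nlinarith
    have b2 : ν (G - G0) ≤ 2003 / 1000 * ε * C * s := by
      refine a0_le_of_sq (by positivity) hD ?_
      have c1 : H0 (G - G0) (G - G0) = (T A B (G - G0) - T0 A B (G - G0)) -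
          (H G (G - G0) - H0 G (G - G0)) := by
        rw [h0.a0_H_sub, e, e0]; ring
      have c2 : ‖H0 (G - G0) (G - G0)‖ ≤ ε * (s * ν (G - G0)) + ε * (ν G * ν (G - G0)) := by
        rw [c1]
        exact (norm_sub_le _ _).trans (add_le_add (hT _ _ _) (hH _ _))
      have c3 := Complex.re_le_norm (H0 (G - G0) (G - G0))
      rw [hν0] at c3
      have c4 : ε * (ν G * ν (G - G0)) ≤ ε * (1003 / 1000 * C * s * ν (G - G0)) := by gcongr
      have c5 : ε * (s * ν (G - G0)) ≤ C * (ε * (s * ν (G - G0))) :=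
        le_mul_of_one_le_left (by positivity) hC
      nlinarith
    have hs' : 0 ≤ ν A' * ν B' := mul_nonneg (hν _) (hν _)
    have c1 : T A' B' G - T0 A' B' G0 = (T A' B' G - T0 A' B' G) + T0 A' B' (G - G0) := by
      rw [h0.a0_T_sub3]; ring
    rw [c1]
    refine (norm_add_le _ _).trans ((add_le_add (hT _ _ _) (hT0 _ _ _)).trans ?_)
    have c2 : ε * (ν A' * ν B' * ν G) ≤ ε * (ν A' * ν B' * (1003 / 1000 * C * s)) := by gcongr
    have c3 : C * (ν A' * ν B' * ν (G - G0)) ≤ C * (ν A' * ν B' * (2003 / 1000 * ε * C * s)) := by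
      gcongr
    have c4 : ε * C * (s * (ν A' * ν B')) ≤ C * (ε * C * (s * (ν A' * ν B'))) :=
      le_mul_of_one_le_left (by positivity) hC
    have c5 : 0 ≤ ε * C * (s * (ν A' * ν B')) := by positivity
    nlinarith
  rintro X Y G1 G2 G3 horth ⟨e1, e2, e3⟩
  obtain ⟨K1, K2, K3, f1, f2, f3⟩ := h0.exists_solves hp0 X Y
  have hm := hneg X Y K1 K2 K3 ⟨f1, f2, f3⟩
  set P := ν X ^ 2 * ν Y ^ 2 with hP
  have hP0 : 0 ≤ P := by positivity
  have hre' : ∀ {a b : ℂ} {r : ℝ}, ‖a - b‖ ≤ r → a.re - b.re ≤ r ∧ b.re - a.re ≤ r := by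
    intro a b r hr
    have := abs_le.1 ((Complex.abs_re_le_norm _).trans hr)
    rw [Complex.sub_re] at this
    constructor <;> linarith [this.1, this.2]
  have d1 := (hre' (key X Y G1 K1 e1 f1 X Y)).1
  have d2 := (hre' (key X X G2 K2 e2 f2 Y Y)).2
  have d3 := (hre' (hQ X Y X Y)).2
  have d4 := (hre' (hQ Y Y X X)).1
  rw [← e1, ← f1, show ν X * ν Y * (ν X * ν Y) = P by rw [hP]; ring] at d1
  rw [← e3, ← f3, show ν X * ν X * (ν Y * ν Y) = P by rw [hP]; ring] at d2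
  rw [show ν X * ν Y * ν X * ν Y = P by rw [hP]; ring] at d3
  rw [show ν Y * ν Y * ν X * ν X = P by rw [hP]; ring] at d4
  have d5 : (H0 X Y).re ^ 2 ≤ 1 / 1000 * P := by
    have c1 := hre X Y
    rw [horth, zero_sub, abs_neg] at c1
    have c2 := pow_le_pow_left₀ (abs_nonneg _) c1 2
    rw [sq_abs, mul_pow, mul_pow, ← hP] at c2
    exact c2.trans (mul_le_mul_of_nonneg_right (by nlinarith) hP0)
  have d6 : (H X X).re * (H Y Y).re ≤ 1001 / 1000 * ν X ^ 2 * (1001 / 1000 * ν Y ^ 2) :=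
    mul_le_mul (hup X) (hup Y) (hp.a0_nonneg h Y) (by positivity)
  have d7 : ε * P ≤ ε * C ^ 2 * P :=
    mul_le_mul_of_nonneg_right (le_mul_of_one_le_right hε hC2) hP0
  have d8 : 1000 * ε * C ^ 2 * P ≤ c * P := mul_le_mul_of_nonneg_right hsmall hP0
  have d9 := mul_le_mul_of_nonneg_left d5 hc.le
  have d10 := mul_le_mul_of_nonneg_left d6 hc.le
  have d11 : 0 ≤ c * P := by positivity
  unfold num den at hm
  unfold num
  simp only [Complex.add_re, Complex.sub_re, Complex.neg_re, hν0] at hm ⊢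
  rw [← hP] at hm
  have d12 : c * (1001 / 1000 * ν X ^ 2 * (1001 / 1000 * ν Y ^ 2)) =
      1001 / 1000 * (1001 / 1000) * (c * P) := by rw [hP]; ring
  have d13 := hν0 K1
  linarith

end General

theorem nsq_nonneg {n : ℕ} (x : Fin n → ℂ) : 0 ≤ nsq x :=
  Finset.sum_nonneg fun _ _ => sq_nonneg _
theorem nr_nonneg {n : ℕ} (x : Fin n → ℂ) : 0 ≤ nr x := Real.sqrt_nonneg _
theorem nr_sq {n : ℕ} (x : Fin n → ℂ) : nr x ^ 2 = nsq x := Real.sq_sqrt (nsq_nonneg x)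
theorem norm_le_nr {n : ℕ} (x : Fin n → ℂ) : ‖x‖ ≤ nr x :=
  (pi_norm_le_iff_of_nonneg (nr_nonneg x)).2 fun i => Real.le_sqrt_of_sq_le
    (Finset.single_le_sum (f := fun i => ‖x i‖ ^ 2) (fun _ _ => sq_nonneg _) (Finset.mem_univ i))
theorem nsq_two (x : E2) : nsq x = ‖x 0‖ ^ 2 + ‖x 1‖ ^ 2 := Fin.sum_univ_two _
theorem nsq_three (x : E3) : nsq x = ‖x 0‖ ^ 2 + ‖x 1‖ ^ 2 + ‖x 2‖ ^ 2 := Fin.sum_univ_three _
theorem nsq_eq_zero {n : ℕ} {x : Fin n → ℂ} (h : nsq x = 0) : x = 0 := by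
  have := norm_le_nr x
  rw [nr, h, Real.sqrt_zero] at this
  exact norm_le_zero_iff.1 this
theorem ip_self (X : E2) : ip X X = (nsq X : ℝ) := by
  rw [ip, nsq_two, Complex.mul_conj', Complex.mul_conj']
  push_cast
  rfl
theorem norm_ip_le (X Y : E2) : ‖ip X Y‖ ≤ nr X * nr Y := by
  have h1 : ‖ip X Y‖ ≤ ‖X 0‖ * ‖Y 0‖ + ‖X 1‖ * ‖Y 1‖ := by
    refine (norm_add_le _ _).trans (le_of_eq ?_)
    simp
  refine h1.trans (le_of_sq_le_sq ?_ (mul_nonneg (nr_nonneg _) (nr_nonneg _)))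
  rw [mul_pow, nr_sq, nr_sq, nsq_two, nsq_two]
  nlinarith [sq_nonneg (‖X 0‖ * ‖Y 1‖ - ‖X 1‖ * ‖Y 0‖)]
theorem pr_add (X Y : E3) : pr (X + Y) = pr X + pr Y := by
  funext i; fin_cases i <;> rfl
theorem pr_smul (c : ℂ) (X : E3) : pr (c • X) = c • pr X := by
  funext i; fin_cases i <;> rfl
theorem pr_mk3 (z : E2) (w : ℂ) : pr (mk3 z w) = z := by
  funext i; fin_cases i <;> rfl
theorem mk3_pr (p : E3) : mk3 (pr p) (p 2) = p := by
  funext i; fin_cases i <;> rfl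
theorem isJet_std (μ : ℝ) : IsJet (std μ).H (std μ).T (std μ).Q := by
  constructor <;> intros <;>
    simp only [std, ip, Pi.add_apply, Pi.smul_apply, smul_eq_mul, map_add, map_mul,
      Complex.conj_ofReal, Complex.conj_conj] <;> ring
/-- for a constant factor the total forms are jets -/
theorem isJet_tot_const (w : ℂ) {b u : BJ} (δ : ℝ) (hb : IsJet b.H b.T b.Q) (hu : IsJet u.H u.T u.Q) :
    IsJet (totH w b u (DJ.const δ)) (totT w b u (DJ.const δ)) (totQ w b u (DJ.const δ)) := by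
  have eH : ∀ X Y, totH w b u (DJ.const δ) X Y = b.H (pr X) (pr Y) + δ * F11 w u X Y := by
    intros; simp [totH, DJ.const]
  have eT : ∀ X Z Y, totT w b u (DJ.const δ) X Z Y =
      b.T (pr X) (pr Z) (pr Y) + δ * F21 w u X Z Y := by
    intros; simp [totT, DJ.const]
  have eQ : ∀ X Z Y W, totQ w b u (DJ.const δ) X Z Y W =
      b.Q (pr X) (pr Z) (pr Y) (pr W) + δ * F22 w u X Z Y W := by
    intros; simp [totQ, DJ.const]
  constructor
  · intro X X' Y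
    simp only [eH, F11, pr_add, hb.H_add, hu.H_add, Pi.add_apply]; ring
  · intro c X Y
    simp only [eH, F11, pr_smul, hb.H_smul, hu.H_smul, Pi.smul_apply, smul_eq_mul]; ring
  · intro X Y
    rw [eH, eH, F11, F11, hb.H_symm (pr X) (pr Y), hu.H_symm (pr X) (pr Y)]
    simp only [map_add, map_mul, map_pow, Complex.conj_ofReal, Complex.conj_conj]; ring
  · intro X X' Z Y
    simp only [eT, F21, pr_add, hb.T_add1, hu.T_add1, hu.H_add, Pi.add_apply]; ring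
  · intro c X Z Y
    simp only [eT, F21, pr_smul, hb.T_smul1, hu.T_smul1, hu.H_smul, Pi.smul_apply, smul_eq_mul]
    ring
  · intro X Z Y
    rw [eT, eT, F21, F21, hb.T_symm (pr X) (pr Z), hu.T_symm (pr X) (pr Z)]; ring
  · intro X Z Y Y'
    simp only [eT, F21, pr_add, hb.T_add3, hu.T_add3, hu.H_add_right, Pi.add_apply, map_add]; ring
  · intro c X Z Y
    simp only [eT, F21, pr_smul, hb.T_smul3, hu.T_smul3, hu.H_smul_right, Pi.smul_apply,
      smul_eq_mul, map_mul]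
    ring
  · intro X X' Z Y W
    simp only [eQ, F22, pr_add, hb.Q_add1, hu.Q_add1, hu.T_add1, hu.T_add3, hu.H_add,
      Pi.add_apply, map_add]
    ring
  · intro c X Z Y W
    simp only [eQ, F22, pr_smul, hb.Q_smul1, hu.Q_smul1, hu.T_smul1, hu.T_smul3, hu.H_smul,
      Pi.smul_apply, smul_eq_mul, map_mul, Complex.conj_conj]
    ring
  · intro X Z Y W
    rw [eQ, eQ, F22, F22, hb.Q_symm (pr X) (pr Z), hu.Q_symm (pr X) (pr Z),
      hu.T_symm (pr X) (pr Z) (pr W), hu.T_symm (pr X) (pr Z) (pr Y)]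
    ring
  · intro X Z Y W
    rw [eQ, eQ, F22, F22, hb.Q_herm (pr X) (pr Z) (pr Y) (pr W),
      hu.Q_herm (pr X) (pr Z) (pr Y) (pr W), hu.H_symm (pr X) (pr Y), hu.H_symm (pr X) (pr W),
      hu.H_symm (pr Z) (pr Y), hu.H_symm (pr Z) (pr W)]
    simp only [map_add, map_mul, map_pow, map_one, map_ofNat, Complex.conj_ofReal,
      Complex.conj_conj]
    ring

end
end Crest.Agent.R245
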