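import Crest.Agent.R245.AlgTAux3

/-! Row 245: the tame model, its perturbation, and crude bounds. -/

open Complex Filter Topology Set Metric Matrix
open scoped ComplexConjugate ContDiff

namespace Crest.Agent.R245
noncomputable section

theorem nu2_nonneg {μ δ : ℝ} {w : ℂ} (hμ : 0 < μ) (hδ : 0 < δ) (hw : ‖w‖ < 1) (X : E3) :
    0 ≤ nu2 μ δ w X := by
  exact AT.nu2_nonneg' hμ hδ hw X
theorem nu2_pos {μ δ : ℝ} {w : ℂ} (hμ : 0 < μ) (hδ : 0 < δ) (hw : ‖w‖ < 1) {X : E3} (hX : X ≠ 0) :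
    0 < nu2 μ δ w X := by
  have ha := AT.ta_nonneg hw
  have ht := AT.th_pos hw
  have h1 := nsq_nonneg (pr X)
  unfold nu2
  rcases h1.lt_or_eq with h | h
  · positivity
  · have h2 : pr X = 0 := nsq_eq_zero h.symm
    have h3 : X 2 ≠ 0 := by
      intro h3
      apply hX
      rw [← mk3_pr X, h2, h3]
      ext i
      fin_cases i <;> simp [mk3]
    have h4 : 0 < ‖X 2‖ := norm_pos_iff.mpr h3
    positivity

theorem nu2_le_totH {μ δ : ℝ} {w : ℂ} {u : BJ} (hδ : 0 < δ) (hw : ‖w‖ < 1)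
    (hpos : ∀ X, μ * nsq X ≤ (u.H X X).re) (X : E3) :
    nu2 μ δ w X ≤ (totH w (std μ) u (DJ.const δ) X X).re := by
  have ha := AT.ta_nonneg hw
  have e : totH w (std μ) u (DJ.const δ) X X =
      ((μ * nsq (pr X) : ℝ) : ℂ) + ((δ * ta w : ℝ) : ℂ) * u.H (pr X) (pr X)
        + ((δ * th w ^ 2 * ‖X 2‖ ^ 2 : ℝ) : ℂ) := by
    have := AT.mul_conj_self (X 2)
    simp only [totH, F11, std, DJ.const, map_zero, ip_self]
    push_cast at this ⊢
    linear_combination (δ * (th w : ℂ) ^ 2) * this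
  rw [e, add_re, add_re, ofReal_re, ofReal_re, re_ofReal_mul, nu2]
  have h := mul_le_mul_of_nonneg_left (hpos (pr X)) (by positivity : 0 ≤ δ * ta w)
  nlinarith

/-- the unperturbed model -/
theorem algModel {μ δ : ℝ} {w : ℂ} (hμ : 0 < μ) (hμ1 : μ ≤ 1) (hδ : 0 < δ) (hδ1 : δ ≤ 1)
    (hw : ‖w‖ < 1) :
    NegF (totH w (std μ) (std μ) (DJ.const δ)) (totT w (std μ) (std μ) (DJ.const δ))
      (totQ w (std μ) (std μ) (DJ.const δ)) (1 / 32) := by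
  have hj := isJet_tot_const w δ (isJet_std μ) (isJet_std μ)
  have hp : PosF (totH w (std μ) (std μ) (DJ.const δ)) := fun X hX => by
    rw [AT.modH_self]; exact nu2_pos hμ hδ hw hX
  intro X Y G1 G2 G3 hs
  have hG := AT.Gam_solves μ hδ hw X Y
  have e1 : G1 = AT.Gam δ w X Y := hj.solve_unique hp fun W => by rw [hs.1, hG.1]
  have e2 : G2 = AT.Gam δ w X X := hj.solve_unique hp fun W => by rw [hs.2.1, hG.2.1]
  have e3 : G3 = AT.Gam δ w Y Y := hj.solve_unique hp fun W => by rw [hs.2.2, hG.2.2]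
  rw [e1, e2, e3]
  exact AT.model_ineq hμ hμ1 hδ hδ1 hw X Y

theorem algVery {μ δ : ℝ} {w : ℂ} (hδ : 0 < δ) (hw : ‖w‖ < 1) :
    VeryF (totH w (std μ) (std μ) (DJ.const δ)) (totT w (std μ) (std μ) (DJ.const δ))
      (totQ w (std μ) (std μ) (DJ.const δ)) (4 / δ) := by
  have ht := AT.th_pos hw
  refine ⟨![0, 0, 1], ![0, 0, I], _, _, _, AT.Gam_solves μ hδ hw _ _, ?_, ?_⟩
  · rw [AT.den_real]
    simp [pr, ip, nsq_two]
    positivity
  · rw [AT.num_real μ hδ hw, AT.den_real]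
    simp [pr, ip, nsq_two]
    apply le_of_eq
    field_simp

/-- slowly varying `μ` and `δ` -/
theorem algT : ∃ cT : ℝ, 0 < cT ∧ cT ≤ 1 ∧ ∀ (μ κ : ℝ) (w : ℂ) (u : BJ) (d : DJ), 0 < μ → μ ≤ 1 →
    0 < d.d0 → d.d0 ≤ 1 → 0 ≤ κ → κ ≤ cT * (μ * d.d0) ^ 5 → ‖w‖ < 1 →
    IsJet (totH w u u d) (totT w u u d) (totQ w u u d) → u.Near (std μ) κ → d.Small κ →
    NegF (totH w u u d) (totT w u u d) (totQ w u u d) (1 / 64) ∧
      ∀ X, nu2 μ d.d0 w X / 2 ≤ (totH w u u d X X).re := by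
  refine ⟨1 / 10 ^ 9, by norm_num, by norm_num, ?_⟩
  intro μ κ w u d hμ hμ1 hδ hδ1 hκ hκ1 hw hj hu hd
  have hj0 := isJet_tot_const w d.d0 (isJet_std μ) (isJet_std μ)
  have hp0 : PosF (totH w (std μ) (std μ) (DJ.const d.d0)) := fun X hX => by
    rw [AT.modH_self]; exact nu2_pos hμ hδ hw hX
  have hD := AT.dom_nu hμ hμ1 hδ hδ1 hw
  have hg1 := AT.one_le_gg hμ hμ1 hδ hδ1
  have hg2 := AT.gg_sq hμ hδ
  set g := AT.gg μ d.d0 with hg
  have hμδ : μ * d.d0 ≤ 1 := by nlinarith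
  have hμδ0 : 0 < μ * d.d0 := by positivity
  have hκ2 : κ ≤ 1 := by
    have : (μ * d.d0) ^ 5 ≤ 1 := pow_le_one₀ hμδ0.le hμδ
    linarith
  have hb0 : AT.Bd (std μ) 2 := AT.bd_std hμ.le hμ1
  have hb3 : AT.Bd (std μ) 3 := hb0.mono (by norm_num)
  have hb1 : AT.Bd u 3 := (AT.bd_of_near hu hb0).mono (by linarith)
  set ν : E3 → ℝ := fun X => Real.sqrt (nu2 μ d.d0 w X) with hν
  have hν0 : ∀ X, 0 ≤ ν X := fun X => Real.sqrt_nonneg _
  have hν2 : ∀ X, ν X ^ 2 = nu2 μ d.d0 w X := fun X => Real.sq_sqrt (nu2_nonneg hμ hδ hw X)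
  have hg3 : 1 ≤ g ^ 3 := one_le_pow₀ hg1
  have hg24 : g ^ 2 ≤ g ^ 4 := pow_le_pow_right₀ hg1 (by norm_num)
  have hg34 : g ^ 3 ≤ g ^ 4 := pow_le_pow_right₀ hg1 (by norm_num)
  have key := negF_perturb hj hj0 hp0 ν hν0 (fun X => by rw [AT.modH_self, hν2])
    (c := 1 / 32) (C := 11 * g ^ 3) (ε := 100 * κ * g ^ 4) (by norm_num) (by norm_num)
    (by linarith) (by positivity) ?_ (algModel hμ hμ1 hδ hδ1 hw) ?_ ?_ ?_ ?_
  · refine ⟨by simpa only [show (1 / 32 / 2 : ℝ) = 1 / 64 by norm_num] using key.2.1, fun X => ?_⟩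
    rw [← hν2]
    exact key.2.2 X
  · have h1 : κ * g ^ 10 ≤ 1 / 10 ^ 9 := by
      calc κ * g ^ 10 ≤ 1 / 10 ^ 9 * (μ * d.d0) ^ 5 * g ^ 10 := by gcongr
        _ = 1 / 10 ^ 9 * (g ^ 2 * (μ * d.d0)) ^ 5 := by ring
        _ = _ := by rw [hg2]; norm_num
    have h2 : 1000 * (100 * κ * g ^ 4) * (11 * g ^ 3) ^ 2 = 12100000 * (κ * g ^ 10) := by ring
    rw [h2]
    linarith
  · intro X Z Y
    refine (hD.cT hδ.le hδ1 (by norm_num) hb3 X Z Y).trans (le_of_eq ?_)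
    simp only [hν]; ring
  · intro X Y
    refine (hD.dH hκ hδ.le hδ1 hu hd X Y).trans ?_
    have h0 : 0 ≤ κ * (ν X * ν Y) := by have := hν0 X; have := hν0 Y; positivity
    have h1 := mul_le_mul_of_nonneg_left hg24 h0
    have h2 : 0 ≤ κ * (ν X * ν Y) * g ^ 4 := by positivity
    change 5 * κ * (g * ν X * (g * ν Y)) ≤ _
    nlinarith
  · intro X Z Y
    refine (hD.dT hκ hδ.le hδ1 hu hd hb1 X Z Y).trans ?_
    have h0 : 0 ≤ κ * (ν X * ν Z * ν Y) := by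
      have := hν0 X; have := hν0 Y; have := hν0 Z; positivity
    have h1 := mul_le_mul_of_nonneg_left hg34 h0
    have h2 : 0 ≤ κ * (ν X * ν Z * ν Y) * g ^ 4 := by positivity
    change 17 * κ * (g * ν X * (g * ν Z) * (g * ν Y)) ≤ _
    nlinarith
  · intro X Z Y W
    refine (hD.dQ hκ hδ.le hδ1 hu hd hb1 hb3 X Z Y W).trans ?_
    have h0 : 0 ≤ κ * (ν X * ν Z * ν Y * ν W) := by
      have := hν0 X; have := hν0 Y; have := hν0 Z; have := hν0 W; positivity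
    have h2 : 0 ≤ κ * (ν X * ν Z * ν Y * ν W) * g ^ 4 := by positivity
    change 93 * κ * (g * ν X * (g * ν Z) * (g * ν Y) * (g * ν W)) ≤ _
    nlinarith

/-- crude lower curvature bound -/
theorem algLow {μ δ M : ℝ} (hμ : 0 < μ) (hμ1 : μ ≤ 1) (hM : 0 ≤ M) (hδ : 0 < δ) (hδ1 : δ ≤ 1) :
    ∃ B : ℝ, 0 ≤ B ∧ ∀ (w : ℂ) (u : BJ), ‖w‖ < 1 → IsJet u.H u.T u.Q →
      (∀ X, μ * nsq X ≤ (u.H X X).re) → u.Near (std μ) M →
      LowF (totH w (std μ) u (DJ.const δ)) (totT w (std μ) u (DJ.const δ))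
        (totQ w (std μ) u (DJ.const δ)) B := by
  have hg1 := AT.one_le_gg hμ hμ1 hδ hδ1
  set g := AT.gg μ δ with hg
  set K := M + 2 with hK
  have hK0 : 0 ≤ K := by positivity
  set C := (2 * K ^ 2 + 13 * K + 8) * g ^ 4 with hC
  have hC0 : 0 ≤ C := by positivity
  refine ⟨2 * (C + C ^ 2), by positivity, ?_⟩
  intro w u hw hj hpos hu
  have hD := AT.dom_nu hμ hμ1 hδ hδ1 hw
  have hb : AT.Bd u K := AT.bd_of_near hu (AT.bd_std hμ.le hμ1)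
  set ν : E3 → ℝ := fun X => Real.sqrt (nu2 μ δ w X) with hν
  have hν0 : ∀ X, 0 ≤ ν X := fun X => Real.sqrt_nonneg _
  have hν2 : ∀ X, ν X ^ 2 = nu2 μ δ w X := fun X => Real.sq_sqrt (nu2_nonneg hμ hδ hw X)
  have hg34 : g ^ 3 ≤ g ^ 4 := pow_le_pow_right₀ hg1 (by norm_num)
  refine (isJet_tot_const w δ (isJet_std μ) hj).lowF_of_bounds
    (fun X hX => (nu2_pos hμ hδ hw hX).trans_le (nu2_le_totH hδ hw hpos X)) ν hν0
    (fun X => by rw [hν2]; exact nu2_le_totH hδ hw hpos X) hC0 ?_ ?_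
  · intro X Z Y
    refine (hD.cT hδ.le hδ1 hK0 hb X Z Y).trans ?_
    have h0 : 0 ≤ ν X * ν Z * ν Y := by
      have := hν0 X; have := hν0 Y; have := hν0 Z; positivity
    calc (3 * K + 2) * (g * ν X * (g * ν Z) * (g * ν Y))
        = (3 * K + 2) * g ^ 3 * (ν X * ν Z * ν Y) := by ring
      _ ≤ _ := by
        refine mul_le_mul_of_nonneg_right (mul_le_mul ?_ hg34 (by positivity) (by positivity)) h0
        nlinarith [sq_nonneg K]
  · intro X Z Y W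
    refine (hD.cQ hμ.le hμ1 hδ.le hδ1 hK0 hb X Z Y W).trans (le_of_eq ?_)
    simp only [hν, hC]; ring

/-- gradient bound -/
theorem algGrad {μ δ κ C : ℝ} {w : ℂ} (hμ : 0 < μ) (hμ1 : μ ≤ 1) (hδ : 0 < δ) (hδ1 : δ ≤ 1)
    (hκ : 0 ≤ κ) (hκ1 : κ ≤ μ * δ) (hC : 0 ≤ C) (hw : ‖w‖ < 1) (X : E3) {b1 d1 : ℂ}
    (hb : ‖b1‖ ≤ C * μ * nr (pr X)) (hd : ‖d1‖ ≤ κ * nr (pr X)) :
    ‖b1 + d1 * F0 w + δ * F1 w X‖ ≤ (C + 3) * Real.sqrt (nu2 μ δ w X) := by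
  have h0 := nu2_nonneg hμ hδ hw X
  have ht := AT.th_pos hw
  have ha := AT.ta_nonneg hw
  have hta := AT.th_eq hw
  have hn := nsq_nonneg (pr X)
  have hr := nr_nonneg (pr X)
  have hf : 0 ≤ δ * th w ^ 2 * ‖X 2‖ ^ 2 := by positivity
  have hbb : 0 ≤ μ * (1 + δ * ta w) * nsq (pr X) := by positivity
  have h1 : μ * nr (pr X) ≤ Real.sqrt (nu2 μ δ w X) := by
    apply Real.le_sqrt_of_sq_le
    rw [mul_pow, nr_sq, nu2]
    have : μ ^ 2 ≤ μ * (1 + δ * ta w) := by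
      have : 0 ≤ μ * (δ * ta w) := by positivity
      nlinarith
    have := mul_le_mul_of_nonneg_right this hn
    linarith
  have h2 : μ * δ * nr (pr X) * Real.sqrt (th w) ≤ Real.sqrt (nu2 μ δ w X) := by
    apply Real.le_sqrt_of_sq_le
    rw [mul_pow, mul_pow, nr_sq, Real.sq_sqrt ht.le, nu2]
    have h3 : δ * th w ≤ 1 + δ * ta w := by rw [hta]; nlinarith
    have h4 : μ * δ ≤ 1 := by nlinarith
    have h5 : (μ * δ) ^ 2 * nsq (pr X) * th w = (μ * δ) * (μ * (δ * th w) * nsq (pr X)) := by ring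
    have h6 : (μ * δ) * (μ * (δ * th w) * nsq (pr X)) ≤ 1 * (μ * (1 + δ * ta w) * nsq (pr X)) := by
      gcongr
    linarith
  have h3 : δ * (th w * ‖X 2‖) ≤ Real.sqrt (nu2 μ δ w X) := by
    apply Real.le_sqrt_of_sq_le
    rw [nu2]
    have : (δ * (th w * ‖X 2‖)) ^ 2 = δ * (δ * th w ^ 2 * ‖X 2‖ ^ 2) := by ring
    rw [this]
    nlinarith
  have hF1 : ‖F1 w X‖ ≤ th w * ‖X 2‖ := by
    have e : F1 w X = conj w * (th w * X 2) := by unfold F1; ring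
    rw [e]
    have : ‖(th w : ℂ) * X 2‖ ≤ th w * ‖X 2‖ := AT.nb_mul (AT.nb_real ht.le le_rfl) le_rfl
    simpa using AT.nb_mul (AT.nb_conj hw.le) this
  refine (AT.nb_add (AT.nb_add hb (AT.nb_mul hd (AT.nb_real (AT.F0_nonneg hw) (AT.F0_le_sqrt hw))))
    (AT.nb_mul (AT.nb_real hδ.le le_rfl) hF1)).trans ?_
  have h4 : C * μ * nr (pr X) ≤ C * Real.sqrt (nu2 μ δ w X) := by
    rw [mul_assoc]; gcongr
  have h5 : κ * nr (pr X) * (2 * Real.sqrt (th w)) ≤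
      2 * (μ * δ * nr (pr X) * Real.sqrt (th w)) := by
    have : κ * nr (pr X) * Real.sqrt (th w) ≤ μ * δ * nr (pr X) * Real.sqrt (th w) := by gcongr
    linarith
  linarith

end
end Crest.Agent.R245
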