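import Crest.Agent.R245.Alg0

/-! Row 245: the unperturbed model (helper file for `AlgT`). -/

open Complex Filter Topology Set Metric Matrix
open scoped ComplexConjugate ContDiff

namespace Crest.Agent.R245.AT
noncomputable section

theorem rho_lt {w : ℂ} (hw : ‖w‖ < 1) : ‖w‖ ^ 2 < 1 := by
  have := norm_nonneg w
  nlinarith

theorem th_pos {w : ℂ} (hw : ‖w‖ < 1) : 0 < th w := by
  have := rho_lt hw
  unfold th
  exact inv_pos.mpr (by linarith)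

theorem th_mul {w : ℂ} (hw : ‖w‖ < 1) : th w * (1 - ‖w‖ ^ 2) = 1 := by
  have := rho_lt hw
  unfold th
  exact inv_mul_cancel₀ (by linarith)

theorem th_eq {w : ℂ} (hw : ‖w‖ < 1) : th w = 1 + ta w := by
  have := th_mul hw
  unfold ta
  linarith

theorem ta_nonneg {w : ℂ} (hw : ‖w‖ < 1) : 0 ≤ ta w := by
  have := th_pos hw
  unfold ta
  positivity

theorem one_le_th {w : ℂ} (hw : ‖w‖ < 1) : 1 ≤ th w := by
  have := th_eq hw
  have := ta_nonneg hw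
  linarith

theorem modH (μ δ : ℝ) (w : ℂ) (X Y : E3) :
    totH w (std μ) (std μ) (DJ.const δ) X Y =
      μ * (1 + δ * ta w) * ip (pr X) (pr Y) + δ * (th w : ℂ) ^ 2 * X 2 * conj (Y 2) := by
  simp only [totH, F11, std, DJ.const, map_zero]
  ring

theorem modT (μ δ : ℝ) (w : ℂ) (X Z Y : E3) :
    totT w (std μ) (std μ) (DJ.const δ) X Z Y =
      δ * ((th w : ℂ) ^ 2 * conj w * μ * (X 2 * ip (pr Z) (pr Y) + Z 2 * ip (pr X) (pr Y))
        + 2 * (th w : ℂ) ^ 3 * conj w * X 2 * Z 2 * conj (Y 2)) := by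
  simp only [totT, F21, std, DJ.const, map_zero]
  ring

theorem modQ (μ δ : ℝ) (w : ℂ) (X Z Y W : E3) :
    totQ w (std μ) (std μ) (DJ.const δ) X Z Y W =
      (μ * (1 + δ * ta w) + δ * ta w * th w * μ ^ 2) *
          (ip (pr X) (pr Y) * ip (pr Z) (pr W) + ip (pr X) (pr W) * ip (pr Z) (pr Y))
        + δ * (1 + (‖w‖ : ℂ) ^ 2) * (th w : ℂ) ^ 3 * μ *
          (X 2 * conj (Y 2) * ip (pr Z) (pr W) + X 2 * conj (W 2) * ip (pr Z) (pr Y)
            + Z 2 * conj (Y 2) * ip (pr X) (pr W) + Z 2 * conj (W 2) * ip (pr X) (pr Y))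
        + δ * (th w : ℂ) ^ 4 * (2 + 4 * (‖w‖ : ℂ) ^ 2) * X 2 * Z 2 * conj (Y 2) * conj (W 2) := by
  simp only [totQ, F22, std, DJ.const, map_zero]
  ring

/-- Christoffel symbols of the model -/
def Gam (δ : ℝ) (w : ℂ) (A B : E3) : E3 :=
  ![δ * (th w : ℂ) ^ 2 * conj w / (1 + δ * ta w) * (A 2 * B 0 + B 2 * A 0),
    δ * (th w : ℂ) ^ 2 * conj w / (1 + δ * ta w) * (A 2 * B 1 + B 2 * A 1),
    2 * th w * conj w * A 2 * B 2]

theorem one_add_ne {δ : ℝ} {w : ℂ} (hδ : 0 < δ) (hw : ‖w‖ < 1) :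
    (1 + (δ : ℂ) * (ta w : ℂ)) ≠ 0 := by
  have h : 0 < 1 + δ * ta w := by
    have := ta_nonneg hw
    positivity
  have : (1 + (δ : ℂ) * (ta w : ℂ)) = ((1 + δ * ta w : ℝ) : ℂ) := by push_cast; ring
  rw [this]
  exact_mod_cast h.ne'

theorem Gam_solve (μ : ℝ) {δ : ℝ} {w : ℂ} (hδ : 0 < δ) (hw : ‖w‖ < 1) (A B W : E3) :
    totH w (std μ) (std μ) (DJ.const δ) (Gam δ w A B) W =
      totT w (std μ) (std μ) (DJ.const δ) A B W := by
  have h := one_add_ne hδ hw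
  rw [modH, modT]
  simp only [Gam, ip, pr, Matrix.cons_val_zero, Matrix.cons_val_one, Matrix.cons_val]
  field_simp
  ring

theorem Gam_solves (μ : ℝ) {δ : ℝ} {w : ℂ} (hδ : 0 < δ) (hw : ‖w‖ < 1) (X Y : E3) :
    Solves (totH w (std μ) (std μ) (DJ.const δ)) (totT w (std μ) (std μ) (DJ.const δ)) X Y
      (Gam δ w X Y) (Gam δ w X X) (Gam δ w Y Y) :=
  ⟨Gam_solve μ hδ hw X Y, Gam_solve μ hδ hw X X, Gam_solve μ hδ hw Y Y⟩

/-- the complex curvature numerator of the model -/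
theorem num_complex (μ : ℝ) {δ : ℝ} {w : ℂ} (hδ : 0 < δ) (hw : ‖w‖ < 1) (X Y : E3) :
    -totQ w (std μ) (std μ) (DJ.const δ) X Y X Y
        + totH w (std μ) (std μ) (DJ.const δ) (Gam δ w X Y) (Gam δ w X Y)
        - (-totQ w (std μ) (std μ) (DJ.const δ) Y Y X X
          + totH w (std μ) (std μ) (DJ.const δ) (Gam δ w Y Y) (Gam δ w X X)) =
      -(((μ * (1 + δ * ta w) + δ * ta w * th w * μ ^ 2 : ℝ) : ℂ) *
          (ip (pr X) (pr X) * ip (pr Y) (pr Y) + ip (pr X) (pr Y) * conj (ip (pr X) (pr Y))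
            - 2 * conj (ip (pr X) (pr Y)) ^ 2)
        + ((μ * (δ * th w ^ 2) * (ta w + th w - δ * ta w * th w / (1 + δ * ta w)) : ℝ) : ℂ) *
          (X 2 * conj (X 2) * ip (pr Y) (pr Y) + Y 2 * conj (Y 2) * ip (pr X) (pr X)
            + X 2 * conj (Y 2) * conj (ip (pr X) (pr Y))
            + conj (X 2 * conj (Y 2)) * ip (pr X) (pr Y)
            - 4 * (conj (X 2 * conj (Y 2)) * conj (ip (pr X) (pr Y))))
        + ((2 * δ * th w ^ 4 : ℝ) : ℂ) *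
          (X 2 * conj (Y 2) * conj (X 2 * conj (Y 2)) - conj (X 2 * conj (Y 2)) ^ 2)) := by
  have h := one_add_ne hδ hw
  have hρ : w * conj w = (‖w‖ : ℂ) ^ 2 := by rw [Complex.mul_conj, Complex.normSq_eq_norm_sq]; push_cast; rfl
  have hta : ((ta w : ℝ) : ℂ) = (‖w‖ : ℂ) ^ 2 * th w := by unfold ta; push_cast; rfl
  rw [Gam_solve μ hδ hw, Gam_solve μ hδ hw, modT, modT, modQ, modQ]
  simp only [Gam, ip, pr, Matrix.cons_val_zero, Matrix.cons_val_one, Matrix.cons_val, map_add,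
    map_mul, map_div₀, map_pow, conj_ofReal, conj_conj, map_one, map_ofNat]
  push_cast
  rw [← hρ] at hta ⊢
  generalize conj w = wb at *
  generalize (ta w : ℂ) = a at *
  generalize (th w : ℂ) = t at *
  subst hta
  field_simp
  ring

theorem mul_conj_self (z : ℂ) : z * conj z = ((‖z‖ ^ 2 : ℝ) : ℂ) := by
  rw [Complex.mul_conj, Complex.normSq_eq_norm_sq]

theorem num_real (μ : ℝ) {δ : ℝ} {w : ℂ} (hδ : 0 < δ) (hw : ‖w‖ < 1) (X Y : E3) :
    num (totH w (std μ) (std μ) (DJ.const δ)) (totQ w (std μ) (std μ) (DJ.const δ)) X Y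
        (Gam δ w X Y) (Gam δ w X X) (Gam δ w Y Y) =
      -((μ * (1 + δ * ta w) + δ * ta w * th w * μ ^ 2) *
          (nsq (pr X) * nsq (pr Y) - (ip (pr X) (pr Y)).re ^ 2 + 3 * (ip (pr X) (pr Y)).im ^ 2)
        + (μ * (δ * th w ^ 2) * (ta w + th w - δ * ta w * th w / (1 + δ * ta w))) *
          (‖X 2‖ ^ 2 * nsq (pr Y) + ‖Y 2‖ ^ 2 * nsq (pr X)
            - 2 * (X 2 * conj (Y 2)).re * (ip (pr X) (pr Y)).re
            + 6 * (X 2 * conj (Y 2)).im * (ip (pr X) (pr Y)).im)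
        + 4 * δ * th w ^ 4 * (X 2 * conj (Y 2)).im ^ 2) := by
  unfold num
  rw [num_complex μ hδ hw, ip_self, ip_self, mul_conj_self (X 2), mul_conj_self (Y 2)]
  generalize ip (pr X) (pr Y) = h
  generalize X 2 * conj (Y 2) = g
  generalize (μ * (1 + δ * ta w) + δ * ta w * th w * μ ^ 2) = c1
  generalize (μ * (δ * th w ^ 2) * (ta w + th w - δ * ta w * th w / (1 + δ * ta w))) = c2
  generalize ‖X 2‖ ^ 2 = a
  generalize ‖Y 2‖ ^ 2 = b
  have : 4 * δ * th w ^ 4 = 2 * (2 * δ * th w ^ 4) := by ring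
  rw [this]
  generalize (2 * δ * th w ^ 4) = c3
  simp [pow_two]
  ring

theorem modH_re (μ δ : ℝ) (w : ℂ) (X Y : E3) :
    (totH w (std μ) (std μ) (DJ.const δ) X Y).re =
      μ * (1 + δ * ta w) * (ip (pr X) (pr Y)).re + δ * th w ^ 2 * (X 2 * conj (Y 2)).re := by
  rw [modH]
  have : (μ : ℂ) * (1 + δ * ta w) * ip (pr X) (pr Y) + δ * (th w : ℂ) ^ 2 * X 2 * conj (Y 2) =
      ((μ * (1 + δ * ta w) : ℝ) : ℂ) * ip (pr X) (pr Y)
        + ((δ * th w ^ 2 : ℝ) : ℂ) * (X 2 * conj (Y 2)) := by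
    push_cast; ring
  rw [this, add_re, re_ofReal_mul, re_ofReal_mul]

theorem modH_self (μ δ : ℝ) (w : ℂ) (X : E3) :
    (totH w (std μ) (std μ) (DJ.const δ) X X).re = nu2 μ δ w X := by
  rw [modH_re, ip_self, mul_conj_self, ofReal_re, ofReal_re, nu2]

theorem den_real (μ δ : ℝ) (w : ℂ) (X Y : E3) :
    den (totH w (std μ) (std μ) (DJ.const δ)) X Y =
      (μ * (1 + δ * ta w)) ^ 2 * (nsq (pr X) * nsq (pr Y) - (ip (pr X) (pr Y)).re ^ 2)
        + μ * (1 + δ * ta w) * (δ * th w ^ 2) * (‖X 2‖ ^ 2 * nsq (pr Y) + ‖Y 2‖ ^ 2 * nsq (pr X)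
            - 2 * (X 2 * conj (Y 2)).re * (ip (pr X) (pr Y)).re)
        + (δ * th w ^ 2) ^ 2 * (X 2 * conj (Y 2)).im ^ 2 := by
  unfold den
  rw [modH_self, modH_self, modH_re, nu2, nu2]
  have h : ‖X 2‖ ^ 2 * ‖Y 2‖ ^ 2 = (X 2 * conj (Y 2)).re ^ 2 + (X 2 * conj (Y 2)).im ^ 2 := by
    have h1 : ‖X 2 * conj (Y 2)‖ ^ 2 = (X 2 * conj (Y 2)).re ^ 2 + (X 2 * conj (Y 2)).im ^ 2 := by
      rw [← Complex.normSq_eq_norm_sq, Complex.normSq_apply]; ring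
    rw [← h1, norm_mul, Complex.norm_conj, mul_pow]
  linear_combination (δ * th w ^ 2) ^ 2 * h

theorem cs_ip (X Y : E2) : (ip X Y).im ^ 2 ≤ nsq X * nsq Y - (ip X Y).re ^ 2 := by
  have h1 : ‖ip X Y‖ ^ 2 = (ip X Y).re ^ 2 + (ip X Y).im ^ 2 := by
    rw [← Complex.normSq_eq_norm_sq, Complex.normSq_apply]; ring
  have h2 : ‖ip X Y‖ ^ 2 ≤ (nr X * nr Y) ^ 2 :=
    pow_le_pow_left₀ (norm_nonneg _) (norm_ip_le X Y) 2
  rw [mul_pow, nr_sq, nr_sq] at h2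
  linarith

theorem alpha_nonneg (X Y : E2) (ξ η : ℂ) :
    0 ≤ ‖ξ‖ ^ 2 * nsq Y + ‖η‖ ^ 2 * nsq X - 2 * (ξ * conj η).re * (ip X Y).re
      + 2 * (ξ * conj η).im * (ip X Y).im := by
  have h : ‖ξ‖ ^ 2 * nsq Y + ‖η‖ ^ 2 * nsq X - 2 * (ξ * conj η).re * (ip X Y).re
      + 2 * (ξ * conj η).im * (ip X Y).im =
      ‖conj η * X 0 - conj ξ * Y 0‖ ^ 2 + ‖conj η * X 1 - conj ξ * Y 1‖ ^ 2 := by
    simp only [nsq_two, ← Complex.normSq_eq_norm_sq, Complex.normSq_apply, ip, add_re, add_im,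
      sub_re, sub_im, mul_re, mul_im, conj_re, conj_im]
    ring
  rw [h]
  positivity

/-- the determinant inequality -/
theorem det_ineq {δ a : ℝ} (hδ : 0 < δ) (hδ1 : δ ≤ 1) (ha : 0 ≤ a) :
    4 * δ * (a + (1 + a) - δ * a * (1 + a) / (1 + δ * a)) ^ 2 ≤
      (4 * (1 + δ * a + δ * a * (1 + a)) - (1 + δ * a) ^ 2 / 16) * (4 - δ / 16) := by
  set x := δ * a with hx
  have hx0 : 0 ≤ x := by positivity
  have h1x : 0 < 1 + x := by positivity
  set t := 1 / (1 + x) with ht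
  have ht0 : 0 < t := by positivity
  have ht1 : t * (1 + x) = 1 := by rw [ht]; field_simp
  have htle : t ≤ 1 := by nlinarith
  have hs : a + (1 + a) - x * (1 + a) / (1 + x) = a * (1 + t) + t := by
    rw [ht]; field_simp; ring
  rw [hs]
  set y := x * (1 + a) with hy
  have hxa : x ≤ a := by nlinarith
  have hyx : x * (1 + x) ≤ y := by nlinarith
  have hδy : δ * y ≤ x * (1 + x) := by
    have : δ * y = x * (δ + x) := by rw [hy, hx]; ring
    rw [this]; nlinarith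
  have e1 : δ * (a * (1 + t) + t) ^ 2 = y * (1 + t) ^ 2 - x * (1 + t) * (1 - t) + δ * t ^ 2 := by
    rw [hy, hx]; ring
  have e2 : δ * (a * (1 + t) + t) ^ 2 ≤ y * (1 + t) ^ 2 + 1 := by
    rw [e1]
    have : 0 ≤ x * (1 + t) * (1 - t) := by
      have : 0 ≤ 1 - t := by linarith
      positivity
    have : δ * t ^ 2 ≤ 1 := by nlinarith
    linarith
  have e3 : 3 * x ^ 2 ≤ y * (4 - (1 + t) ^ 2) := by
    have h4 : 4 - (1 + t) ^ 2 = (x * t) * (3 + t) := by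
      have : x * t = 1 - t := by linarith
      rw [this]; ring
    have h5 : 0 ≤ (x * t) * (3 + t) := by positivity
    calc 3 * x ^ 2 ≤ x ^ 2 * (3 + t) := by nlinarith [sq_nonneg x]
      _ = x * (1 + x) * ((x * t) * (3 + t)) := by
          have : x * (1 + x) * ((x * t) * (3 + t)) = x ^ 2 * (t * (1 + x)) * (3 + t) := by ring
          rw [this, ht1]; ring
      _ ≤ y * ((x * t) * (3 + t)) := mul_le_mul_of_nonneg_right hyx h5
      _ = _ := by rw [h4]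
  have e4 : 0 ≤ δ * (1 + x) ^ 2 := by positivity
  have e5 : δ * (1 + x) ≤ 1 + x := by nlinarith
  nlinarith

/-- the real inequality behind the negativity of the model -/
theorem real_ineq {μ δ a L q o α : ℝ} (hμ : 0 < μ) (hμ1 : μ ≤ 1) (hδ : 0 < δ) (hδ1 : δ ≤ 1)
    (ha : 0 ≤ a) (hL : q ^ 2 ≤ L) (hα : 0 ≤ α) :
    1 / 32 * ((μ * (1 + δ * a)) ^ 2 * L + μ * (1 + δ * a) * (δ * (1 + a) ^ 2) * (α - 2 * o * q)
        + (δ * (1 + a) ^ 2) ^ 2 * o ^ 2) ≤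
      (μ * (1 + δ * a) + δ * a * (1 + a) * μ ^ 2) * (L + 3 * q ^ 2)
        + (μ * (δ * (1 + a) ^ 2) * (a + (1 + a) - δ * a * (1 + a) / (1 + δ * a))) * (α + 4 * o * q)
        + 4 * δ * (1 + a) ^ 4 * o ^ 2 := by
  have hdet := det_ineq hδ hδ1 ha
  set x := δ * a with hx
  have hx0 : 0 ≤ x := by positivity
  have h1x : 0 < 1 + x := by positivity
  have hxa : x ≤ a := by nlinarith
  set s := a + (1 + a) - x * (1 + a) / (1 + x) with hs
  have hs1 : 1 + x ≤ s := by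
    have h1 : x * (1 + a) / (1 + x) ≤ a := by
      rw [div_le_iff₀ h1x]; nlinarith
    linarith
  set y := x * (1 + a) with hy
  have hyx : x * (1 + x) ≤ y := by nlinarith
  have hy0 : 0 ≤ y := by positivity
  set V := δ * (1 + a) ^ 2 with hV
  have hV0 : 0 < V := by positivity
  set A := V * o with hA
  set B := μ * q with hB
  set P := 4 * (1 + x + y) - (1 + x) ^ 2 / 16 with hP
  have hP0 : 0 < P := by nlinarith
  -- the quadratic form
  have hq : 0 ≤ P * B ^ 2 + 4 * s * A * B + (4 / δ - 1 / 16) * A ^ 2 := by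
    have hR : 4 * s ^ 2 ≤ P * (4 / δ - 1 / 16) := by
      have : 4 / δ - 1 / 16 = (4 - δ / 16) / δ := by field_simp
      rw [this, ← mul_div_assoc, le_div_iff₀ hδ]
      linarith
    have h1 : 0 ≤ P * (P * B ^ 2 + 4 * s * A * B + (4 / δ - 1 / 16) * A ^ 2) := by
      have : P * (P * B ^ 2 + 4 * s * A * B + (4 / δ - 1 / 16) * A ^ 2) =
          (P * B + 2 * s * A) ^ 2 + (P * (4 / δ - 1 / 16) - 4 * s ^ 2) * A ^ 2 := by ring
      rw [this]
      have : 0 ≤ P * (4 / δ - 1 / 16) - 4 * s ^ 2 := by linarith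
      positivity
    exact nonneg_of_mul_nonneg_right h1 hP0 |> fun h => h
  have hA2 : 4 * δ * (1 + a) ^ 4 * o ^ 2 = 4 / δ * A ^ 2 := by
    rw [hA, hV]; field_simp
  rw [hA2]
  have hL0 : 0 ≤ L + 3 * q ^ 2 := by nlinarith [sq_nonneg q]
  have h1 : (μ ^ 2 * (1 + x) + y * μ ^ 2) * (L + 3 * q ^ 2) ≤
      (μ * (1 + x) + y * μ ^ 2) * (L + 3 * q ^ 2) := by
    apply mul_le_mul_of_nonneg_right _ hL0
    have : μ ^ 2 ≤ μ := by nlinarith
    nlinarith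
  have h2 : 1 / 32 * (μ * (1 + x) * V * α) ≤ μ * V * s * α := by
    have : 0 ≤ μ * V * α := by positivity
    nlinarith
  have h3 : 0 ≤ ((1 + x + y) - (1 + x) ^ 2 / 32) * (μ ^ 2 * (L - q ^ 2)) := by
    apply mul_nonneg
    · nlinarith
    · have : 0 ≤ L - q ^ 2 := by linarith
      positivity
  have h4 : 0 ≤ ((1 + x) * B + A) ^ 2 := sq_nonneg _
  have e : (μ ^ 2 * (1 + x) + y * μ ^ 2) * (L + 3 * q ^ 2) + μ * V * s * (4 * o * q) + 4 / δ * A ^ 2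
      - 1 / 32 * ((μ * (1 + x)) ^ 2 * L + μ * (1 + x) * V * (- 2 * o * q) + V ^ 2 * o ^ 2) =
      ((1 + x + y) - (1 + x) ^ 2 / 32) * (μ ^ 2 * (L - q ^ 2))
        + (P * B ^ 2 + 4 * s * A * B + (4 / δ - 1 / 16) * A ^ 2)
        + 1 / 32 * ((1 + x) * B + A) ^ 2 := by
    rw [hP, hA, hB]; ring
  nlinarith

theorem model_ineq {μ δ : ℝ} {w : ℂ} (hμ : 0 < μ) (hμ1 : μ ≤ 1) (hδ : 0 < δ) (hδ1 : δ ≤ 1)
    (hw : ‖w‖ < 1) (X Y : E3) :
    num (totH w (std μ) (std μ) (DJ.const δ)) (totQ w (std μ) (std μ) (DJ.const δ)) X Y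
        (Gam δ w X Y) (Gam δ w X X) (Gam δ w Y Y) ≤
      -(1 / 32) * den (totH w (std μ) (std μ) (DJ.const δ)) X Y := by
  rw [num_real μ hδ hw, den_real, th_eq hw]
  have h := real_ineq (o := (X 2 * conj (Y 2)).im) hμ hμ1 hδ hδ1 (ta_nonneg hw)
    (cs_ip (pr X) (pr Y)) (alpha_nonneg (pr X) (pr Y) (X 2) (Y 2))
  linarith

end
end Crest.Agent.R245.AT
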