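import Crest.Agent.R245.AlgTAux1

/-! Row 245: crude bounds for the jets of the disc bundle potential (helper file for `AlgT`). -/

open Complex Filter Topology Set Metric Matrix
open scoped ComplexConjugate ContDiff

namespace Crest.Agent.R245.AT
noncomputable section

theorem nb_add {a b : ℂ} {A B : ℝ} (ha : ‖a‖ ≤ A) (hb : ‖b‖ ≤ B) : ‖a + b‖ ≤ A + B :=
  (norm_add_le a b).trans (add_le_add ha hb)
theorem nb_mul {a b : ℂ} {A B : ℝ} (ha : ‖a‖ ≤ A) (hb : ‖b‖ ≤ B) : ‖a * b‖ ≤ A * B := by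
  rw [norm_mul]
  exact mul_le_mul ha hb (norm_nonneg _) ((norm_nonneg _).trans ha)
theorem nb_conj {a : ℂ} {A : ℝ} (ha : ‖a‖ ≤ A) : ‖conj a‖ ≤ A := by rwa [Complex.norm_conj]
theorem nb_one : ‖(1 : ℂ)‖ ≤ 1 := by simp
theorem nb_two : ‖(2 : ℂ)‖ ≤ 2 := by simp
theorem nb_four : ‖(4 : ℂ)‖ ≤ 4 := by simp
theorem nb_real {x B : ℝ} (h0 : 0 ≤ x) (h : x ≤ B) : ‖(x : ℂ)‖ ≤ B := by
  rwa [Complex.norm_real, Real.norm_of_nonneg h0]

/-- plain bounds for the jets -/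
def Bd (u : BJ) (K : ℝ) : Prop :=
  (∀ X Y, ‖u.H X Y‖ ≤ K * (nr X * nr Y)) ∧
  (∀ X Z Y, ‖u.T X Z Y‖ ≤ K * (nr X * nr Z * nr Y)) ∧
  (∀ X Z Y W, ‖u.Q X Z Y W‖ ≤ K * (nr X * nr Z * nr Y * nr W))

def dif (u u0 : BJ) : BJ :=
  ⟨fun X Y => u.H X Y - u0.H X Y, fun X Z Y => u.T X Z Y - u0.T X Z Y,
    fun X Z Y W => u.Q X Z Y W - u0.Q X Z Y W⟩

theorem bd_dif {u u0 : BJ} {κ : ℝ} (h : u.Near u0 κ) : Bd (dif u u0) κ := h

theorem bd_std {μ : ℝ} (hμ : 0 ≤ μ) (hμ1 : μ ≤ 1) : Bd (std μ) 2 := by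
  have hm : ‖(μ : ℂ)‖ ≤ 1 := nb_real hμ hμ1
  refine ⟨fun X Y => ?_, fun X Z Y => ?_, fun X Z Y W => ?_⟩
  · refine (nb_mul hm (norm_ip_le X Y)).trans ?_
    have := nr_nonneg X
    have := nr_nonneg Y
    have : 0 ≤ nr X * nr Y := by positivity
    linarith
  · have := nr_nonneg X
    have := nr_nonneg Y
    have := nr_nonneg Z
    simp only [std, norm_zero]
    positivity
  · refine (nb_mul hm (nb_add (nb_mul (norm_ip_le X Y) (norm_ip_le Z W))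
      (nb_mul (norm_ip_le X W) (norm_ip_le Z Y)))).trans (le_of_eq ?_)
    ring

theorem bd_of_near {u u0 : BJ} {κ K : ℝ} (h : u.Near u0 κ) (h0 : Bd u0 K) : Bd u (κ + K) := by
  refine ⟨fun X Y => ?_, fun X Z Y => ?_, fun X Z Y W => ?_⟩
  · have := nb_add (h.1 X Y) (h0.1 X Y)
    rw [sub_add_cancel] at this
    linarith
  · have := nb_add (h.2.1 X Z Y) (h0.2.1 X Z Y)
    rw [sub_add_cancel] at this
    linarith
  · have := nb_add (h.2.2 X Z Y W) (h0.2.2 X Z Y W)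
    rw [sub_add_cancel] at this
    linarith

theorem bd_of_near_zero {u : BJ} {κ : ℝ} (h : u.Near (std 0) κ) : Bd u κ := by
  refine ⟨fun X Y => ?_, fun X Z Y => ?_, fun X Z Y W => ?_⟩
  · simpa [std] using h.1 X Y
  · simpa [std] using h.2.1 X Z Y
  · simpa [std] using h.2.2 X Z Y W

theorem Bd.mono {u : BJ} {K K' : ℝ} (h : Bd u K) (hK : K ≤ K') : Bd u K' := by
  refine ⟨fun X Y => (h.1 X Y).trans ?_, fun X Z Y => (h.2.1 X Z Y).trans ?_,
    fun X Z Y W => (h.2.2 X Z Y W).trans ?_⟩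
  · have := nr_nonneg X
    have := nr_nonneg Y
    gcongr
  · have := nr_nonneg X
    have := nr_nonneg Y
    have := nr_nonneg Z
    gcongr
  · have := nr_nonneg X
    have := nr_nonneg Y
    have := nr_nonneg Z
    have := nr_nonneg W
    gcongr

/-- `n` dominates the natural size of tangent vectors at `(0,w)` -/
structure Dom (w : ℂ) (n : E3 → ℝ) : Prop where
  hw : ‖w‖ < 1
  base : ∀ X, Real.sqrt (th w) * nr (pr X) ≤ n X
  fib : ∀ X, th w * ‖X 2‖ ≤ n X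

section Dom
variable {w : ℂ} {n : E3 → ℝ}

theorem Dom.one_le (h : Dom w n) : 1 ≤ Real.sqrt (th w) := by
  rw [Real.one_le_sqrt]; exact one_le_th h.hw

theorem Dom.nr_le (h : Dom w n) (X : E3) : nr (pr X) ≤ n X := by
  have h1 := h.base X
  have h2 := h.one_le
  have h3 := nr_nonneg (pr X)
  nlinarith

theorem Dom.nonneg (h : Dom w n) (X : E3) : 0 ≤ n X := (nr_nonneg _).trans (h.nr_le X)

theorem Dom.two (h : Dom w n) (X Y : E3) : th w * (nr (pr X) * nr (pr Y)) ≤ n X * n Y := by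
  have h1 := h.base X
  have h2 := h.base Y
  have h3 := nr_nonneg (pr X)
  have h4 := nr_nonneg (pr Y)
  have h5 : Real.sqrt (th w) * Real.sqrt (th w) = th w := Real.mul_self_sqrt (th_pos h.hw).le
  calc th w * (nr (pr X) * nr (pr Y))
      = (Real.sqrt (th w) * nr (pr X)) * (Real.sqrt (th w) * nr (pr Y)) := by
        conv_lhs => rw [← h5]
        ring
    _ ≤ _ := mul_le_mul h1 h2 (by positivity) (h.nonneg X)

theorem Dom.nv (h : Dom w n) (X : E3) : ‖(th w : ℂ) * X 2‖ ≤ n X := by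
  rw [norm_mul, Complex.norm_real, Real.norm_of_nonneg (th_pos h.hw).le]
  exact h.fib X

theorem Dom.nw (h : Dom w n) : ‖w‖ ≤ 1 := h.hw.le
theorem Dom.nrho (h : Dom w n) : ‖(‖w‖ : ℂ) ^ 2‖ ≤ 1 := by
  rw [norm_pow, Complex.norm_real, Real.norm_of_nonneg (norm_nonneg _)]
  exact (rho_lt h.hw).le

theorem Dom.sH (h : Dom w n) {u : BJ} {K : ℝ} (hK : 0 ≤ K) (hu : Bd u K) {c : ℝ} (hc0 : 0 ≤ c)
    (hc : c ≤ th w) (X Y : E3) : ‖(c : ℂ) * u.H (pr X) (pr Y)‖ ≤ K * (n X * n Y) := by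
  refine (nb_mul (nb_real hc0 hc) (hu.1 _ _)).trans ?_
  calc th w * (K * (nr (pr X) * nr (pr Y))) = K * (th w * (nr (pr X) * nr (pr Y))) := by ring
    _ ≤ _ := mul_le_mul_of_nonneg_left (h.two X Y) hK

theorem Dom.sT (h : Dom w n) {u : BJ} {K : ℝ} (hK : 0 ≤ K) (hu : Bd u K) {c : ℝ} (hc0 : 0 ≤ c)
    (hc : c ≤ th w) (X Z Y : E3) :
    ‖(c : ℂ) * u.T (pr X) (pr Z) (pr Y)‖ ≤ K * (n X * n Z * n Y) := by
  refine (nb_mul (nb_real hc0 hc) (hu.2.1 _ _ _)).trans ?_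
  calc th w * (K * (nr (pr X) * nr (pr Z) * nr (pr Y)))
      = K * (th w * (nr (pr X) * nr (pr Z)) * nr (pr Y)) := by ring
    _ ≤ _ := by
      refine mul_le_mul_of_nonneg_left (mul_le_mul (h.two X Z) (h.nr_le Y) (nr_nonneg _) ?_) hK
      exact mul_nonneg (h.nonneg X) (h.nonneg Z)

theorem Dom.sQ (h : Dom w n) {u : BJ} {K : ℝ} (hK : 0 ≤ K) (hu : Bd u K) {c : ℝ} (hc0 : 0 ≤ c)
    (hc : c ≤ th w) (X Z Y W : E3) :
    ‖(c : ℂ) * u.Q (pr X) (pr Z) (pr Y) (pr W)‖ ≤ K * (n X * n Z * n Y * n W) := by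
  refine (nb_mul (nb_real hc0 hc) (hu.2.2 _ _ _ _)).trans ?_
  have h0 : 0 ≤ n X * n Z := mul_nonneg (h.nonneg X) (h.nonneg Z)
  calc th w * (K * (nr (pr X) * nr (pr Z) * nr (pr Y) * nr (pr W)))
      = K * (th w * (nr (pr X) * nr (pr Z)) * nr (pr Y) * nr (pr W)) := by ring
    _ ≤ _ := by
      refine mul_le_mul_of_nonneg_left (mul_le_mul (mul_le_mul (h.two X Z) (h.nr_le Y)
        (nr_nonneg _) h0) (h.nr_le W) (nr_nonneg _) ?_) hK
      exact mul_nonneg h0 (h.nonneg Y)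

theorem Dom.pH (h : Dom w n) {u : BJ} {K : ℝ} (hK : 0 ≤ K) (hu : Bd u K) (X Y : E3) :
    ‖u.H (pr X) (pr Y)‖ ≤ K * (n X * n Y) := by
  simpa using h.sH hK hu zero_le_one (one_le_th h.hw) X Y
theorem Dom.pT (h : Dom w n) {u : BJ} {K : ℝ} (hK : 0 ≤ K) (hu : Bd u K) (X Z Y : E3) :
    ‖u.T (pr X) (pr Z) (pr Y)‖ ≤ K * (n X * n Z * n Y) := by
  simpa using h.sT hK hu zero_le_one (one_le_th h.hw) X Z Y
theorem Dom.pQ (h : Dom w n) {u : BJ} {K : ℝ} (hK : 0 ≤ K) (hu : Bd u K) (X Z Y W : E3) :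
    ‖u.Q (pr X) (pr Z) (pr Y) (pr W)‖ ≤ K * (n X * n Z * n Y * n W) := by
  simpa using h.sQ hK hu zero_le_one (one_le_th h.hw) X Z Y W

theorem F0_eq (w : ℂ) : F0 w = Real.log (th w) := by
  unfold F0 th
  rw [Real.log_inv]

theorem F0_nonneg (hw : ‖w‖ < 1) : 0 ≤ F0 w := by
  rw [F0_eq]; exact Real.log_nonneg (one_le_th hw)

theorem F0_le (hw : ‖w‖ < 1) : F0 w ≤ th w := by
  rw [F0_eq]
  have := Real.log_le_sub_one_of_pos (th_pos hw)
  linarith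

theorem F0_le_sqrt (hw : ‖w‖ < 1) : F0 w ≤ 2 * Real.sqrt (th w) := by
  rw [F0_eq]
  have h0 := th_pos hw
  have h1 := Real.log_le_sub_one_of_pos (Real.sqrt_pos.mpr h0)
  rw [Real.log_sqrt h0.le] at h1
  linarith

theorem ta_cast (w : ℂ) : ((ta w : ℝ) : ℂ) = (‖w‖ : ℂ) ^ 2 * th w := by
  unfold ta; push_cast; rfl

theorem Dom.nF1 (h : Dom w n) (X : E3) : ‖F1 w X‖ ≤ n X := by
  have e : F1 w X = conj w * (th w * X 2) := by unfold F1; ring
  rw [e]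
  simpa using nb_mul (nb_conj h.nw) (h.nv X)

theorem Dom.nF20 (h : Dom w n) (X Z : E3) : ‖F20 w X Z‖ ≤ n X * n Z := by
  have e : F20 w X Z = F1 w X * F1 w Z := by unfold F20 F1; ring
  rw [e]
  exact nb_mul (h.nF1 X) (h.nF1 Z)

theorem Dom.nF11 (h : Dom w n) {u : BJ} {K : ℝ} (hK : 0 ≤ K) (hu : Bd u K) (X Y : E3) :
    ‖F11 w u X Y‖ ≤ (K + 1) * (n X * n Y) := by
  have e : F11 w u X Y = (‖w‖ : ℂ) ^ 2 * (th w * u.H (pr X) (pr Y))
      + (th w * X 2) * conj (th w * Y 2) := by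
    unfold F11; rw [ta_cast, map_mul, conj_ofReal]; ring
  rw [e]
  refine (nb_add (nb_mul h.nrho (h.sH hK hu (th_pos h.hw).le le_rfl X Y))
    (nb_mul (h.nv X) (nb_conj (h.nv Y)))).trans (le_of_eq ?_)
  ring

theorem Dom.nF21 (h : Dom w n) {u : BJ} {K : ℝ} (hK : 0 ≤ K) (hu : Bd u K) (X Z Y : E3) :
    ‖F21 w u X Z Y‖ ≤ (3 * K + 2) * (n X * n Z * n Y) := by
  have e : F21 w u X Z Y = (‖w‖ : ℂ) ^ 2 * (th w * u.T (pr X) (pr Z) (pr Y))
      + conj w * ((th w * X 2) * (th w * u.H (pr Z) (pr Y)) + (th w * Z 2) * (th w * u.H (pr X) (pr Y)))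
      + 2 * conj w * (th w * X 2) * (th w * Z 2) * conj (th w * Y 2) := by
    unfold F21; rw [ta_cast, map_mul, conj_ofReal]; ring
  rw [e]
  have hH := h.sH hK hu (th_pos h.hw).le le_rfl
  have hT := h.sT hK hu (th_pos h.hw).le le_rfl
  refine (nb_add (nb_add (nb_mul h.nrho (hT X Z Y))
    (nb_mul (nb_conj h.nw) (nb_add (nb_mul (h.nv X) (hH Z Y)) (nb_mul (h.nv Z) (hH X Y)))))
    (nb_mul (nb_mul (nb_mul (nb_mul nb_two (nb_conj h.nw)) (h.nv X)) (h.nv Z))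
      (nb_conj (h.nv Y)))).trans (le_of_eq ?_)
  ring

theorem Dom.nF22 (h : Dom w n) {u : BJ} {K : ℝ} (hK : 0 ≤ K) (hu : Bd u K) (X Z Y W : E3) :
    ‖F22 w u X Z Y W‖ ≤ (2 * K ^ 2 + 13 * K + 6) * (n X * n Z * n Y * n W) := by
  have e : F22 w u X Z Y W = (‖w‖ : ℂ) ^ 2 * (th w * u.Q (pr X) (pr Z) (pr Y) (pr W))
      + (‖w‖ : ℂ) ^ 2 * ((th w * u.H (pr X) (pr Y)) * (th w * u.H (pr Z) (pr W))
        + (th w * u.H (pr X) (pr W)) * (th w * u.H (pr Z) (pr Y)))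
      + w * (conj (th w * Y 2) * (th w * u.T (pr X) (pr Z) (pr W))
        + conj (th w * W 2) * (th w * u.T (pr X) (pr Z) (pr Y)))
      + conj w * ((th w * X 2) * conj (th w * u.T (pr Y) (pr W) (pr Z))
        + (th w * Z 2) * conj (th w * u.T (pr Y) (pr W) (pr X)))
      + (1 + (‖w‖ : ℂ) ^ 2) *
        ((th w * X 2) * conj (th w * Y 2) * (th w * u.H (pr Z) (pr W))
          + (th w * X 2) * conj (th w * W 2) * (th w * u.H (pr Z) (pr Y))
          + (th w * Z 2) * conj (th w * Y 2) * (th w * u.H (pr X) (pr W))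
          + (th w * Z 2) * conj (th w * W 2) * (th w * u.H (pr X) (pr Y)))
      + (2 + 4 * (‖w‖ : ℂ) ^ 2) * (th w * X 2) * (th w * Z 2) * conj (th w * Y 2)
        * conj (th w * W 2) := by
    unfold F22; rw [ta_cast]; simp only [map_mul, conj_ofReal]; ring
  rw [e]
  have hH := h.sH hK hu (th_pos h.hw).le le_rfl
  have hT := h.sT hK hu (th_pos h.hw).le le_rfl
  have hQ := h.sQ hK hu (th_pos h.hw).le le_rfl
  have hv := h.nv
  have hw := h.nw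
  have hρ := h.nrho
  apply le_trans
  · repeat' first
      | exact hρ
      | exact hw
      | exact hv _
      | exact hH _ _
      | exact hT _ _ _
      | exact hQ _ _ _ _
      | exact nb_one
      | exact nb_two
      | exact nb_four
      | apply nb_add
      | apply nb_conj
      | apply nb_mul
  · exact le_of_eq (by ring)

end Dom

end
end Crest.Agent.R245.AT
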