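import Crest.Agent.R245.AlgTAux2

/-! Row 245: differences to the model (helper file for `AlgT`). -/

open Complex Filter Topology Set Metric Matrix
open scoped ComplexConjugate ContDiff

namespace Crest.Agent.R245.AT
noncomputable section

section Dom
variable {w : ℂ} {n : E3 → ℝ}

theorem Dom.dF11 (h : Dom w n) {u u0 : BJ} {κ : ℝ} (hκ : 0 ≤ κ) (hu : u.Near u0 κ) (X Y : E3) :
    ‖F11 w u X Y - F11 w u0 X Y‖ ≤ κ * (n X * n Y) := by
  have e : F11 w u X Y - F11 w u0 X Y = (‖w‖ : ℂ) ^ 2 * (th w * (dif u u0).H (pr X) (pr Y)) := by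
    unfold F11 dif; rw [ta_cast]; ring
  rw [e]
  simpa using nb_mul h.nrho (h.sH hκ (bd_dif hu) (th_pos h.hw).le le_rfl X Y)

theorem Dom.dF21 (h : Dom w n) {u u0 : BJ} {κ : ℝ} (hκ : 0 ≤ κ) (hu : u.Near u0 κ) (X Z Y : E3) :
    ‖F21 w u X Z Y - F21 w u0 X Z Y‖ ≤ 3 * κ * (n X * n Z * n Y) := by
  have e : F21 w u X Z Y - F21 w u0 X Z Y =
      (‖w‖ : ℂ) ^ 2 * (th w * (dif u u0).T (pr X) (pr Z) (pr Y))
      + conj w * ((th w * X 2) * (th w * (dif u u0).H (pr Z) (pr Y))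
        + (th w * Z 2) * (th w * (dif u u0).H (pr X) (pr Y))) := by
    unfold F21 dif; rw [ta_cast]; ring
  rw [e]
  have hH := h.sH hκ (bd_dif hu) (th_pos h.hw).le le_rfl
  have hT := h.sT hκ (bd_dif hu) (th_pos h.hw).le le_rfl
  refine (nb_add (nb_mul h.nrho (hT X Z Y))
    (nb_mul (nb_conj h.nw) (nb_add (nb_mul (h.nv X) (hH Z Y)) (nb_mul (h.nv Z) (hH X Y))))).trans
      (le_of_eq ?_)
  ring

theorem Dom.dF22 (h : Dom w n) {u u0 : BJ} {κ K : ℝ} (hκ : 0 ≤ κ) (hu : u.Near u0 κ) (hK : 0 ≤ K)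
    (h1 : Bd u K) (h0 : Bd u0 K) (X Z Y W : E3) :
    ‖F22 w u X Z Y W - F22 w u0 X Z Y W‖ ≤ (13 + 4 * K) * κ * (n X * n Z * n Y * n W) := by
  have e : F22 w u X Z Y W - F22 w u0 X Z Y W =
      (‖w‖ : ℂ) ^ 2 * (th w * (dif u u0).Q (pr X) (pr Z) (pr Y) (pr W))
      + (‖w‖ : ℂ) ^ 2 * ((th w * (dif u u0).H (pr X) (pr Y)) * (th w * u.H (pr Z) (pr W))
        + (th w * u0.H (pr X) (pr Y)) * (th w * (dif u u0).H (pr Z) (pr W))
        + (th w * (dif u u0).H (pr X) (pr W)) * (th w * u.H (pr Z) (pr Y))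
        + (th w * u0.H (pr X) (pr W)) * (th w * (dif u u0).H (pr Z) (pr Y)))
      + w * (conj (th w * Y 2) * (th w * (dif u u0).T (pr X) (pr Z) (pr W))
        + conj (th w * W 2) * (th w * (dif u u0).T (pr X) (pr Z) (pr Y)))
      + conj w * ((th w * X 2) * conj (th w * (dif u u0).T (pr Y) (pr W) (pr Z))
        + (th w * Z 2) * conj (th w * (dif u u0).T (pr Y) (pr W) (pr X)))
      + (1 + (‖w‖ : ℂ) ^ 2) *
        ((th w * X 2) * conj (th w * Y 2) * (th w * (dif u u0).H (pr Z) (pr W))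
          + (th w * X 2) * conj (th w * W 2) * (th w * (dif u u0).H (pr Z) (pr Y))
          + (th w * Z 2) * conj (th w * Y 2) * (th w * (dif u u0).H (pr X) (pr W))
          + (th w * Z 2) * conj (th w * W 2) * (th w * (dif u u0).H (pr X) (pr Y))) := by
    unfold F22 dif; rw [ta_cast]; simp only [map_mul, map_sub, conj_ofReal]; ring
  rw [e]
  have eH := h.sH hκ (bd_dif hu) (th_pos h.hw).le le_rfl
  have eT := h.sT hκ (bd_dif hu) (th_pos h.hw).le le_rfl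
  have eQ := h.sQ hκ (bd_dif hu) (th_pos h.hw).le le_rfl
  have hH := h.sH hK h1 (th_pos h.hw).le le_rfl
  have hH0 := h.sH hK h0 (th_pos h.hw).le le_rfl
  have hv := h.nv
  have hw := h.nw
  have hρ := h.nrho
  apply le_trans
  · repeat' first
      | with_reducible exact hρ
      | with_reducible exact hw
      | with_reducible exact hv _
      | with_reducible exact eH _ _
      | with_reducible exact eT _ _ _
      | with_reducible exact eQ _ _ _ _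
      | with_reducible exact hH _ _
      | with_reducible exact hH0 _ _
      | exact nb_one
      | apply nb_add
      | apply nb_conj
      | apply nb_mul
  · exact le_of_eq (by ring)

variable {μ κ : ℝ} {u : BJ} {d : DJ}

theorem Dom.nd1 (h : Dom w n) (hκ : 0 ≤ κ) (hd : d.Small κ) (X : E3) :
    ‖d.d1 (pr X)‖ ≤ κ * n X :=
  (hd.1 _).trans (mul_le_mul_of_nonneg_left (h.nr_le X) hκ)

theorem Dom.nd20 (h : Dom w n) (hκ : 0 ≤ κ) (hd : d.Small κ) (X Z : E3) :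
    ‖d.d20 (pr X) (pr Z)‖ ≤ κ * (n X * n Z) :=
  (hd.2.1 _ _).trans (mul_le_mul_of_nonneg_left
    (mul_le_mul (h.nr_le X) (h.nr_le Z) (nr_nonneg _) (h.nonneg X)) hκ)

theorem Dom.dH (h : Dom w n) (hκ : 0 ≤ κ) (hδ : 0 ≤ d.d0) (hδ1 : d.d0 ≤ 1)
    (hu : u.Near (std μ) κ) (hd : d.Small κ) (X Y : E3) :
    ‖totH w u u d X Y - totH w (std μ) (std μ) (DJ.const d.d0) X Y‖ ≤ 5 * κ * (n X * n Y) := by
  have e : totH w u u d X Y - totH w (std μ) (std μ) (DJ.const d.d0) X Y =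
      (dif u (std μ)).H (pr X) (pr Y) + d.d0 * (F11 w u X Y - F11 w (std μ) X Y)
        + d.d1 (pr X) * conj (F1 w Y) + conj (d.d1 (pr Y)) * F1 w X
        + F0 w * d.m.H (pr X) (pr Y) := by
    simp only [totH, dif, DJ.const, map_zero]; ring
  rw [e]
  refine (nb_add (nb_add (nb_add (nb_add (h.pH hκ (bd_dif hu) X Y)
    (nb_mul (nb_real hδ hδ1) (h.dF11 hκ hu X Y))) (nb_mul (h.nd1 hκ hd X) (nb_conj (h.nF1 Y))))
    (nb_mul (nb_conj (h.nd1 hκ hd Y)) (h.nF1 X)))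
    (h.sH hκ (bd_of_near_zero hd.2.2) (F0_nonneg h.hw) (F0_le h.hw) X Y)).trans (le_of_eq ?_)
  ring

theorem Dom.dT (h : Dom w n) (hκ : 0 ≤ κ) (hδ : 0 ≤ d.d0) (hδ1 : d.d0 ≤ 1)
    (hu : u.Near (std μ) κ) (hd : d.Small κ) (h1 : Bd u 3) (X Z Y : E3) :
    ‖totT w u u d X Z Y - totT w (std μ) (std μ) (DJ.const d.d0) X Z Y‖ ≤
      17 * κ * (n X * n Z * n Y) := by
  have e : totT w u u d X Z Y - totT w (std μ) (std μ) (DJ.const d.d0) X Z Y =
      (dif u (std μ)).T (pr X) (pr Z) (pr Y) + d.d0 * (F21 w u X Z Y - F21 w (std μ) X Z Y)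
        + d.d1 (pr X) * F11 w u Z Y + d.d1 (pr Z) * F11 w u X Y + conj (d.d1 (pr Y)) * F20 w X Z
        + d.d20 (pr X) (pr Z) * conj (F1 w Y) + d.m.H (pr X) (pr Y) * F1 w Z
        + d.m.H (pr Z) (pr Y) * F1 w X + F0 w * d.m.T (pr X) (pr Z) (pr Y) := by
    simp only [totT, dif, DJ.const, map_zero]; ring
  rw [e]
  have a1 := h.pT hκ (bd_dif hu)
  have a2 : ‖(d.d0 : ℂ)‖ ≤ 1 := nb_real hδ hδ1
  have a3 := h.dF21 hκ hu
  have a4 := h.nd1 hκ hd
  have a5 := h.nd20 hκ hd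
  have a6 := h.nF11 (by norm_num) h1
  have a7 := h.nF20
  have a8 := h.nF1
  have a9 := h.pH hκ (bd_of_near_zero hd.2.2)
  have a10 := h.sT hκ (bd_of_near_zero hd.2.2) (F0_nonneg h.hw) (F0_le h.hw)
  apply le_trans
  · repeat' first
      | with_reducible exact a1 _ _ _
      | with_reducible exact a2
      | with_reducible exact a3 _ _ _
      | with_reducible exact a4 _
      | with_reducible exact a5 _ _
      | with_reducible exact a6 _ _
      | with_reducible exact a7 _ _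
      | with_reducible exact a8 _
      | with_reducible exact a9 _ _
      | with_reducible exact a10 _ _ _
      | apply nb_add
      | apply nb_conj
      | apply nb_mul
  · exact le_of_eq (by ring)

theorem Dom.dQ (h : Dom w n) (hκ : 0 ≤ κ) (hδ : 0 ≤ d.d0) (hδ1 : d.d0 ≤ 1)
    (hu : u.Near (std μ) κ) (hd : d.Small κ) (h1 : Bd u 3) (h0 : Bd (std μ) 3) (X Z Y W : E3) :
    ‖totQ w u u d X Z Y W - totQ w (std μ) (std μ) (DJ.const d.d0) X Z Y W‖ ≤
      93 * κ * (n X * n Z * n Y * n W) := by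
  have e : totQ w u u d X Z Y W - totQ w (std μ) (std μ) (DJ.const d.d0) X Z Y W =
      (dif u (std μ)).Q (pr X) (pr Z) (pr Y) (pr W)
        + d.d0 * (F22 w u X Z Y W - F22 w (std μ) X Z Y W)
        + d.d1 (pr X) * conj (F21 w u Y W Z) + d.d1 (pr Z) * conj (F21 w u Y W X)
        + conj (d.d1 (pr Y)) * F21 w u X Z W + conj (d.d1 (pr W)) * F21 w u X Z Y
        + d.d20 (pr X) (pr Z) * conj (F20 w Y W) + conj (d.d20 (pr Y) (pr W)) * F20 w X Z
        + d.m.H (pr X) (pr Y) * F11 w u Z W + d.m.H (pr X) (pr W) * F11 w u Z Y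
        + d.m.H (pr Z) (pr Y) * F11 w u X W + d.m.H (pr Z) (pr W) * F11 w u X Y
        + d.m.T (pr X) (pr Z) (pr Y) * conj (F1 w W) + d.m.T (pr X) (pr Z) (pr W) * conj (F1 w Y)
        + conj (d.m.T (pr Y) (pr W) (pr X)) * F1 w Z + conj (d.m.T (pr Y) (pr W) (pr Z)) * F1 w X
        + F0 w * d.m.Q (pr X) (pr Z) (pr Y) (pr W) := by
    simp only [totQ, dif, DJ.const, map_zero]; ring
  rw [e]
  have a1 := h.pQ hκ (bd_dif hu)
  have a2 : ‖(d.d0 : ℂ)‖ ≤ 1 := nb_real hδ hδ1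
  have a3 := h.dF22 hκ hu (by norm_num) h1 h0
  have a4 := h.nd1 hκ hd
  have a5 := h.nd20 hκ hd
  have a6 := h.nF11 (by norm_num) h1
  have a7 := h.nF20
  have a8 := h.nF1
  have a9 := h.pH hκ (bd_of_near_zero hd.2.2)
  have a10 := h.sQ hκ (bd_of_near_zero hd.2.2) (F0_nonneg h.hw) (F0_le h.hw)
  have a11 := h.nF21 (by norm_num) h1
  have a12 := h.pT hκ (bd_of_near_zero hd.2.2)
  apply le_trans
  · repeat' first
      | with_reducible exact a1 _ _ _ _
      | with_reducible exact a2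
      | with_reducible exact a3 _ _ _ _
      | with_reducible exact a4 _
      | with_reducible exact a5 _ _
      | with_reducible exact a6 _ _
      | with_reducible exact a7 _ _
      | with_reducible exact a8 _
      | with_reducible exact a9 _ _
      | with_reducible exact a10 _ _ _ _
      | with_reducible exact a11 _ _ _
      | with_reducible exact a12 _ _ _
      | apply nb_add
      | apply nb_conj
      | apply nb_mul
  · exact le_of_eq (by ring)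

theorem Dom.cT (h : Dom w n) {δ K : ℝ} (hδ : 0 ≤ δ) (hδ1 : δ ≤ 1) (hK : 0 ≤ K) (hu : Bd u K)
    (X Z Y : E3) :
    ‖totT w (std μ) u (DJ.const δ) X Z Y‖ ≤ (3 * K + 2) * (n X * n Z * n Y) := by
  have e : totT w (std μ) u (DJ.const δ) X Z Y = δ * F21 w u X Z Y := by
    simp only [totT, std, DJ.const, map_zero]; ring
  rw [e]
  simpa using nb_mul (nb_real hδ hδ1) (h.nF21 hK hu X Z Y)

theorem Dom.cQ (h : Dom w n) {δ K : ℝ} (hμ : 0 ≤ μ) (hμ1 : μ ≤ 1) (hδ : 0 ≤ δ) (hδ1 : δ ≤ 1)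
    (hK : 0 ≤ K) (hu : Bd u K) (X Z Y W : E3) :
    ‖totQ w (std μ) u (DJ.const δ) X Z Y W‖ ≤
      (2 * K ^ 2 + 13 * K + 8) * (n X * n Z * n Y * n W) := by
  have e : totQ w (std μ) u (DJ.const δ) X Z Y W =
      (std μ).Q (pr X) (pr Z) (pr Y) (pr W) + δ * F22 w u X Z Y W := by
    simp only [totQ, DJ.const, map_zero]; ring
  rw [e]
  refine (nb_add (h.pQ (by norm_num) (bd_std hμ hμ1) X Z Y W)
    (nb_mul (nb_real hδ hδ1) (h.nF22 hK hu X Z Y W))).trans (le_of_eq ?_)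
  ring

end Dom

theorem nu2_nonneg' {μ δ : ℝ} {w : ℂ} (hμ : 0 < μ) (hδ : 0 < δ) (hw : ‖w‖ < 1) (X : E3) :
    0 ≤ nu2 μ δ w X := by
  have := ta_nonneg hw
  have := nsq_nonneg (pr X)
  unfold nu2
  positivity

/-- the scale factor `1 / √(μ δ)` -/
def gg (μ δ : ℝ) : ℝ := (Real.sqrt (μ * δ))⁻¹

theorem gg_pos {μ δ : ℝ} (hμ : 0 < μ) (hδ : 0 < δ) : 0 < gg μ δ := by
  unfold gg; positivity

theorem gg_sq {μ δ : ℝ} (hμ : 0 < μ) (hδ : 0 < δ) : gg μ δ ^ 2 * (μ * δ) = 1 := by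
  have : 0 < μ * δ := by positivity
  unfold gg
  rw [inv_pow, Real.sq_sqrt this.le, inv_mul_cancel₀ this.ne']

theorem one_le_gg {μ δ : ℝ} (hμ : 0 < μ) (hμ1 : μ ≤ 1) (hδ : 0 < δ) (hδ1 : δ ≤ 1) :
    1 ≤ gg μ δ := by
  have h1 := gg_sq hμ hδ
  have h2 := gg_pos hμ hδ
  have h3 : μ * δ ≤ 1 := by nlinarith
  by_contra hc
  push Not at hc
  have : gg μ δ ^ 2 < 1 := by nlinarith
  have : 0 < μ * δ := by positivity
  nlinarith

theorem dom_nu {μ δ : ℝ} {w : ℂ} (hμ : 0 < μ) (hμ1 : μ ≤ 1) (hδ : 0 < δ) (hδ1 : δ ≤ 1)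
    (hw : ‖w‖ < 1) : Dom w (fun X => gg μ δ * Real.sqrt (nu2 μ δ w X)) := by
  have hg := gg_pos hμ hδ
  have hg2 := gg_sq hμ hδ
  have ht := th_pos hw
  have ha := ta_nonneg hw
  have hta := th_eq hw
  have hμδ : 0 < μ * δ := by positivity
  refine ⟨hw, fun X => ?_, fun X => ?_⟩
  · have h0 := nu2_nonneg' hμ hδ hw X
    have hn := nsq_nonneg (pr X)
    refine le_of_sq_le_sq ?_ (by positivity)
    rw [mul_pow, mul_pow, Real.sq_sqrt ht.le, Real.sq_sqrt h0, nr_sq]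
    have h1 : μ * δ * (th w * nsq (pr X)) ≤ nu2 μ δ w X := by
      unfold nu2
      have h2 : δ * th w ≤ 1 + δ * ta w := by rw [hta]; nlinarith
      have h3 : 0 ≤ δ * th w ^ 2 * ‖X 2‖ ^ 2 := by positivity
      have h4 : μ * (δ * th w) * nsq (pr X) ≤ μ * (1 + δ * ta w) * nsq (pr X) := by gcongr
      nlinarith
    calc th w * nsq (pr X) = gg μ δ ^ 2 * (μ * δ * (th w * nsq (pr X))) := by
          rw [← mul_assoc, hg2, one_mul]
      _ ≤ _ := by gcongr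
  · have h0 := nu2_nonneg' hμ hδ hw X
    have hn := nsq_nonneg (pr X)
    refine le_of_sq_le_sq ?_ (by positivity)
    rw [mul_pow, mul_pow, Real.sq_sqrt h0]
    have h1 : μ * δ * (th w ^ 2 * ‖X 2‖ ^ 2) ≤ nu2 μ δ w X := by
      unfold nu2
      have h3 : 0 ≤ δ * th w ^ 2 * ‖X 2‖ ^ 2 := by positivity
      have h4 : 0 ≤ μ * (1 + δ * ta w) * nsq (pr X) := by positivity
      nlinarith
    calc th w ^ 2 * ‖X 2‖ ^ 2 = gg μ δ ^ 2 * (μ * δ * (th w ^ 2 * ‖X 2‖ ^ 2)) := by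
          rw [← mul_assoc, hg2, one_mul]
      _ ≤ _ := by gcongr

end
end Crest.Agent.R245.AT
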