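import Crest.Agent.R245.AlgWAux3

/-! Row 245: the sectional curvature numerator for a constant factor. -/

open Complex
open scoped ComplexConjugate

namespace Crest.Agent.R245
noncomputable section

variable {μ δ : ℝ} {w : ℂ} {u : BJ} {sh : E2 → E2} {cs : E2 → E2 → E2}

/-- the mixed component of `X ∧ Y` -/
def av (X Y : E3) : E2 := conj (Y 2) • pr X + (-conj (X 2)) • pr Y

theorem herm_av {S : E2 → E2 → ℂ} (h : Herm S) (X Y : E3) :
    S (av X Y) (av X Y) = conj (Y 2) * Y 2 * S (pr X) (pr X) - conj (Y 2) * X 2 * S (pr X) (pr Y)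
      - conj (X 2) * Y 2 * S (pr Y) (pr X) + conj (X 2) * X 2 * S (pr Y) (pr Y) := by
  simp only [av, h.H_add, h.H_smul, h.H_add_right, h.H_smul_right, map_neg, conj_conj]
  ring

theorem mixed_re {S : E2 → E2 → ℂ} (h : Herm S) (X Y : E3) :
    (X 2 * conj (X 2) * S (pr Y) (pr Y) + X 2 * conj (Y 2) * S (pr Y) (pr X)
      + Y 2 * conj (X 2) * S (pr X) (pr Y) + Y 2 * conj (Y 2) * S (pr X) (pr X)
      - (Y 2 * conj (X 2) * S (pr Y) (pr X) + Y 2 * conj (X 2) * S (pr Y) (pr X)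
        + Y 2 * conj (X 2) * S (pr Y) (pr X) + Y 2 * conj (X 2) * S (pr Y) (pr X))).re
      = (S (av X Y) (av X Y)).re + 4 * (X 2 * conj (Y 2)).im * (S (pr X) (pr Y)).im := by
  rw [herm_av h, h.H_symm (pr X) (pr Y)]
  simp [h.H_im]
  ring

theorem den_const (hu : IsJet u.H u.T u.Q) (X Y : E3) :
    den (totH w (std μ) u (DJ.const δ)) X Y =
      den (hh μ (δ * ta w) u) (pr X) (pr Y)
        + δ * th w ^ 2 * (hh μ (δ * ta w) u (av X Y) (av X Y)).re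
        - 2 * (δ * th w ^ 2 * (X 2 * conj (Y 2)).im) * (hh μ (δ * ta w) u (pr X) (pr Y)).im
        + (δ * th w ^ 2 * (X 2 * conj (Y 2)).im) ^ 2 := by
  have h := herm_hh μ (δ * ta w) hu
  have e : ((th w : ℂ)) ^ 2 = ((th w ^ 2 : ℝ) : ℂ) := by push_cast; ring
  unfold den
  rw [herm_av h, h.H_symm (pr X) (pr Y)]
  simp only [totH_const, e]
  generalize th w ^ 2 = t2
  simp [h.H_im]
  ring

theorem num_const (hu : IsJet u.H u.T u.Q) (hw : ‖w‖ < 1) (hδ : δ ≠ 0)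
    (hsh : ∀ A W, hh μ (δ * ta w) u (sh A) W = u.H A W)
    (hcs : ∀ A B W, hh μ (δ * ta w) u (cs A B) W = u.T A B W)
    (hS : Herm (SS δ w u sh)) (X Y : E3) :
    (-totQ w (std μ) u (DJ.const δ) X Y X Y + totT w (std μ) u (DJ.const δ) X Y (GG δ w sh cs X Y)
      - (-totQ w (std μ) u (DJ.const δ) Y Y X X
        + totT w (std μ) u (DJ.const δ) Y Y (GG δ w sh cs X X))).re =
      -(μ * (1 + δ * ta w)) * (den ip (pr X) (pr Y) + 3 * (ip (pr X) (pr Y)).im ^ 2)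
      - δ * ta w * ((u.Q (pr X) (pr Y) (pr X) (pr Y) - (std μ).Q (pr X) (pr Y) (pr X) (pr Y))
          - (u.Q (pr Y) (pr Y) (pr X) (pr X) - (std μ).Q (pr Y) (pr Y) (pr X) (pr X))).re
      - δ * ta w * th w * (den u.H (pr X) (pr Y) + 3 * (u.H (pr X) (pr Y)).im ^ 2)
      + (δ * ta w) ^ 2 * (u.T (pr X) (pr Y) (cs (pr X) (pr Y)) - u.T (pr Y) (pr Y) (cs (pr X) (pr X))).re
      + 2 * (δ * th w ^ 2) * (w * (u.T (pr X) (av X Y) (RR (δ * ta w) sh (pr Y))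
          - u.T (pr Y) (av X Y) (RR (δ * ta w) sh (pr X)))).re
      - δ * th w ^ 2 * (SS δ w u sh (av X Y) (av X Y)).re
      - 4 * (δ * th w ^ 2 * (X 2 * conj (Y 2)).im) * (SS δ w u sh (pr X) (pr Y)).im
      - 4 / δ * (δ * th w ^ 2 * (X 2 * conj (Y 2)).im) ^ 2 := by
  rw [rk_formula hu hw hsh hcs, rk_formula hu hw hsh hcs, ← ch_re herm_ip, ← ch_re hu.herm]
  have hm := mixed_re hS X Y
  have hT2 : ∀ P W, u.T P (av X Y) W = conj (Y 2) * u.T P (pr X) W - conj (X 2) * u.T P (pr Y) W := by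
    intro P W
    rw [hu.T_symm, av, hu.T_add1, hu.T_smul1, hu.T_smul1, hu.T_symm (pr X), hu.T_symm (pr Y)]
    ring
  have hv : (X 2 * Y 2 * conj (X 2) * conj (Y 2) - Y 2 * Y 2 * conj (X 2) * conj (X 2)).re
      = 2 * (X 2 * conj (Y 2)).im ^ 2 := by
    simp; ring
  have hv2 : 4 / δ * (δ * th w ^ 2 * (X 2 * conj (Y 2)).im) ^ 2
      = 2 * δ * th w ^ 4 * (2 * (X 2 * conj (Y 2)).im ^ 2) := by
    field_simp; ring
  rw [hv2, ← hv, hT2, hT2, hu.T_symm (pr Y) (pr X)]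
  simp only [sub_re, add_re, neg_re, re_ofReal_mul, neg_mul, conj_re] at hm ⊢
  simp only [mul_add, mul_sub, sub_re, add_re]
  linear_combination (-(δ * th w ^ 2)) * hm

end
end Crest.Agent.R245
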