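import Crest.Agent.R245.AlgWAux1
import Crest.Agent.R245.AlgWAux4

/-! Row 245: curvature of the disc bundle for a small constant factor and a wild weight. -/

open Complex Filter Topology Set Metric Matrix
open scoped ComplexConjugate ContDiff

namespace Crest.Agent.R245
noncomputable section

section Theta
variable {μ x : ℝ} {u : BJ} {sh : E2 → E2}

theorem re_le_nr (A B : E2) : (ip A B).re ≤ nr A * nr B :=
  (Complex.re_le_norm _).trans (norm_ip_le A B)

theorem le_of_sq_le {a b k : ℝ} (ha : 0 ≤ a) (hb : 0 ≤ b) (hk : 0 < k) (h : k * a ^ 2 ≤ b * a) :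
    a ≤ b / k := by
  rw [le_div_iff₀ hk]
  rcases ha.eq_or_lt with h0 | h0
  · rw [← h0]; simpa using hb
  · nlinarith

theorem hh_lower (hx : 0 ≤ x) (hpos : ∀ X, μ * nsq X ≤ (u.H X X).re) (A : E2) :
    μ * (1 + x) * nsq A ≤ (hh μ x u A A).re := by
  rw [hh_re]; nlinarith [mul_le_mul_of_nonneg_left (hpos A) hx]

theorem gam_RR (hu : IsJet u.H u.T u.Q) (hsh : ∀ A W, hh μ x u (sh A) W = u.H A W) (A W : E2) :
    u.H (RR x sh A) W = μ * ip (sh A) W := by
  have := hsh A W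
  rw [RR, hu.H_add, hu.H_smul, ← this, hh]; ring

theorem eq_RR (A : E2) : A = RR x sh A + (x : ℂ) • sh A := by
  simp [RR]

theorem nr_RR_le (hμ : 0 < μ) (hx : 0 ≤ x) (hu : IsJet u.H u.T u.Q)
    (hpos : ∀ X, μ * nsq X ≤ (u.H X X).re) (hsh : ∀ A W, hh μ x u (sh A) W = u.H A W) (A : E2) :
    nr (RR x sh A) ≤ nr A / (1 + x) := by
  have h := herm_hh μ x hu
  have h0 : ∀ W, hh μ x u (RR x sh A) W = μ * ip A W := fun W => by
    rw [RR, h.H_add, h.H_smul, hsh, hh]; ring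
  have h1 := h0 (RR x sh A)
  have h2 := hh_lower hx hpos (RR x sh A)
  rw [h1, re_ofReal_mul, ← nr_sq] at h2
  have h3 := re_le_nr A (RR x sh A)
  apply le_of_sq_le (nr_nonneg _) (nr_nonneg _) (by linarith)
  nlinarith

theorem theta_bounds (hμ : 0 < μ) (hx : 0 ≤ x) (hu : IsJet u.H u.T u.Q)
    (hpos : ∀ X, μ * nsq X ≤ (u.H X X).re) (hsh : ∀ A W, hh μ x u (sh A) W = u.H A W) (A : E2) :
    μ * nsq A ≤ (1 + x) * (u.H A (RR x sh A)).re ∧
      (1 + x) * (u.H A (RR x sh A)).re ≤ (u.H A A).re := by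
  set B := RR x sh A with hB
  set s := sh A with hs
  have hA : A = B + (x : ℂ) • s := eq_RR A
  have hg : ∀ W, u.H B W = μ * ip s W := gam_RR hu hsh A
  have hBs : (u.H B s).re = μ * nsq s := by rw [hg, re_ofReal_mul, ip_self_re]
  have hsB : (u.H s B).re = μ * nsq s := by rw [hu.herm.re_symm, hBs]
  have hΘ : (u.H A B).re = (u.H B B).re + x * (μ * nsq s) := by
    conv_lhs => rw [hA]
    rw [hu.herm.shear_left, add_re, re_ofReal_mul, hsB]
  have hAA : (u.H A A).re = (u.H B B).re + 2 * x * (μ * nsq s) + x ^ 2 * (u.H s s).re := by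
    conv_lhs => rw [hA]
    rw [hu.herm.shear_left, hu.herm.shear_right, hu.herm.shear_right]
    simp only [add_re, re_ofReal_mul, hsB, hBs]; ring
  have hn : nsq A = nsq B + 2 * x * (ip s B).re + x ^ 2 * nsq s := by
    rw [← ip_self_re]
    conv_lhs => rw [hA]
    rw [herm_ip.shear_left, herm_ip.shear_right, herm_ip.shear_right]
    simp only [add_re, re_ofReal_mul, ip_self_re, herm_ip.re_symm s B]; ring
  have h1 := re_le_nr s B
  have hBB : (u.H B B).re = μ * (ip s B).re := by rw [hg, re_ofReal_mul]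
  have h2 := hpos B
  have h3 := hpos s
  have hnB := nr_sq B
  have hns := nr_sq s
  have hBle : nr B ≤ nr s / 1 := by
    apply le_of_sq_le (nr_nonneg _) (nr_nonneg _) one_pos
    have : μ * nsq B ≤ μ * (nr s * nr B) := by
      rw [hBB] at h2; nlinarith
    have := le_of_mul_le_mul_left this hμ
    linarith
  have h4 : (ip s B).re ≤ nsq s := by nlinarith [nr_nonneg s]
  have h5 : 2 * (ip s B).re ≤ nsq B + nsq s := by nlinarith [sq_nonneg (nr s - nr B)]
  have h6 : 0 ≤ nsq s := nsq_nonneg s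
  constructor
  · rw [hΘ]
    have : nsq A ≤ (1 + x) * (nsq B + x * nsq s) := by
      rw [hn]; nlinarith [mul_le_mul_of_nonneg_left h5 hx]
    have h7 := mul_le_mul_of_nonneg_left this hμ.le
    have h8 := mul_le_mul_of_nonneg_left h2 (by linarith : 0 ≤ 1 + x)
    nlinarith
  · rw [hΘ, hAA]
    have h7 : x * (u.H B B).re ≤ x * (μ * nsq s) := by
      apply mul_le_mul_of_nonneg_left _ hx
      rw [hBB]; exact mul_le_mul_of_nonneg_left h4 hμ.le
    have h8 := mul_le_mul_of_nonneg_left h3 (sq_nonneg x)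
    nlinarith

theorem herm_theta (hu : IsJet u.H u.T u.Q) (hsh : ∀ A W, hh μ x u (sh A) W = u.H A W) :
    Herm (fun A B => u.H A (RR x sh B)) := by
  have h := herm_hh μ x hu
  refine herm_mk (fun X X' Y => hu.H_add _ _ _) (fun c X Y => hu.H_smul _ _ _) (fun X Y => ?_)
  simp only [RR, hu.H_add_right, hu.H_smul_right]
  rw [← hsh Y (sh X), ← hsh X (sh Y), h.H_symm (sh X) (sh Y), hu.H_symm X Y]
  simp

/-- the imaginary part of the mixed form -/
theorem omegaS_bound {τ : ℝ} (hτ : 0 ≤ τ) (hμ : 0 < μ) (hx : 0 ≤ x) (hu : IsJet u.H u.T u.Q)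
    (hpos : ∀ X, μ * nsq X ≤ (u.H X X).re) (hsh : ∀ A W, hh μ x u (sh A) W = u.H A W) (X Y : E2) :
    ((τ : ℂ) * u.H X Y + (1 + τ : ℝ) * u.H X (RR x sh Y)).im ^ 2 ≤
      (τ ^ 2 * (1 - 2 * x / (3 * (1 + x))) + 2 * τ + 1) * (den u.H X Y + 3 * (u.H X Y).im ^ 2) := by
  have hΘ := herm_theta hu hsh
  have hγ := hu.herm
  have hpγ : PosF u.H := fun A hA =>
    lt_of_lt_of_le (mul_pos hμ (by rw [← ip_self_re]; exact posF_ip A hA)) (hpos A)
  have hγ0 := fun A => PosF.nonneg hγ hpγ A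
  obtain ⟨t, ht⟩ : ∃ t : ℝ, t * (1 + x) = 1 := ⟨1 / (1 + x), by field_simp⟩
  have ht0 : 0 < t := by
    by_contra h
    push Not at h
    nlinarith
  have ht1 : t ≤ 1 := by nlinarith
  have hΘ0 : ∀ A, 0 ≤ (u.H A (RR x sh A)).re := fun A => by
    have := (theta_bounds hμ hx hu hpos hsh A).1
    have h2 : 0 ≤ μ * nsq A := mul_nonneg hμ.le (nsq_nonneg A)
    exact nonneg_of_mul_nonneg_right (h2.trans this) (by linarith) |> fun h => by
      by_contra h3
      push Not at h3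
      nlinarith
  have hΘ1 : ∀ A, (u.H A (RR x sh A)).re ≤ t * (u.H A A).re := fun A => by
    have := mul_le_mul_of_nonneg_left (theta_bounds hμ hx hu hpos hsh A).2 ht0.le
    rwa [← mul_assoc, ht, one_mul] at this
  have hsq : ∀ A B, Real.sqrt (t * (u.H A A).re) * Real.sqrt (t * (u.H B B).re)
      = t * (Real.sqrt (u.H A A).re * Real.sqrt (u.H B B).re) := fun A B => by
    rw [Real.sqrt_mul ht0.le, Real.sqrt_mul ht0.le]
    linear_combination (Real.sqrt (u.H A A).re * Real.sqrt (u.H B B).re) * Real.mul_self_sqrt ht0.le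
  have hC : Herm (fun A B => (t : ℂ) * u.H A B - u.H A (RR x sh B)) :=
    herm_mk (fun X X' Y => by simp only [hu.H_add]; ring) (fun c X Y => by simp only [hu.H_smul]; ring)
      (fun X Y => by rw [hΘ.H_symm X Y, hu.H_symm X Y]; simp)
  have hS' : Herm (fun A B => u.H A (RR x sh B) - ((t / 2 : ℝ) : ℂ) * u.H A B) :=
    herm_mk (fun X X' Y => by simp only [hu.H_add]; ring) (fun c X Y => by simp only [hu.H_smul]; ring)
      (fun X Y => by rw [hΘ.H_symm X Y, hu.H_symm X Y]; simp only [map_sub, map_mul, conj_ofReal])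
  have h1 : |(u.H X (RR x sh Y)).im| ≤ t * Real.sqrt (den u.H X Y) := by
    refine hΘ.abs_im_le hγ hpγ (fun A B => ?_) X Y
    rw [← hsq]
    refine (hΘ.norm_le hΘ0 A B).trans ?_
    gcongr <;> exact hΘ1 _
  have h2 : |(u.H X (RR x sh Y) - ((t / 2 : ℝ) : ℂ) * u.H X Y).im|
      ≤ t / 2 * Real.sqrt (den u.H X Y) := by
    refine hS'.abs_im_le hγ hpγ (fun A B => ?_) X Y
    have e : u.H A (RR x sh B) - ((t / 2 : ℝ) : ℂ) * u.H A B
        = (u.H A (RR x sh B) - ((t : ℂ) * u.H A B - u.H A (RR x sh B))) / 2 := by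
      push_cast; ring
    have h3 := hΘ.norm_le hΘ0 A B
    have h4 := hC.norm_le (fun A => by simp only [sub_re, re_ofReal_mul]; linarith [hΘ1 A]) A B
    simp only [sub_re, re_ofReal_mul] at h4
    have h5 := sqrt_split (hΘ0 A) (hΘ0 B) (hΘ1 A) (hΘ1 B)
    rw [hsq] at h5
    rw [e, norm_div]
    have h6 := norm_sub_le (u.H A (RR x sh B)) ((t : ℂ) * u.H A B - u.H A (RR x sh B))
    simp only [Complex.norm_ofNat]
    linarith
  have hd : 0 ≤ den u.H X Y := IsJet.den_nonneg hγ hpγ X Y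
  set L := Real.sqrt (den u.H X Y) with hL
  have hL0 : 0 ≤ L := Real.sqrt_nonneg _
  have hL2 : den u.H X Y = L ^ 2 := (Real.sq_sqrt hd).symm
  simp only [sub_im, add_im, im_ofReal_mul] at h1 h2 ⊢
  set a := (u.H X (RR x sh Y)).im
  set b := (u.H X Y).im
  rw [hL2]
  have hk : 1 - 2 * x / (3 * (1 + x)) = (1 + 2 * t) / 3 := by
    have : t = 1 / (1 + x) := by field_simp; linarith
    rw [this]; field_simp; ring
  rw [hk]
  -- `p = a + b`
  have hp : (a + b) ^ 2 ≤ (1 + 2 * t) / 3 * (L ^ 2 + 3 * b ^ 2) := by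
    have h3 : |a + b| ≤ (1 + t / 2) * |b| + t / 2 * L := by
      have : a + b = (a - t / 2 * b) + (1 + t / 2) * b := by ring
      rw [this]
      refine (abs_add_le _ _).trans ?_
      rw [abs_mul, abs_of_pos (by linarith : 0 < 1 + t / 2)]
      linarith
    have h4 : (a + b) ^ 2 ≤ ((1 + t / 2) * |b| + t / 2 * L) ^ 2 := by
      rw [← sq_abs]; exact pow_le_pow_left₀ (abs_nonneg _) h3 2
    have h5 : ((1 + t / 2) * |b| + t / 2 * L) ^ 2
        ≤ (1 + t + t ^ 2) / 3 * (L ^ 2 + 3 * |b| ^ 2) := by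
      nlinarith [sq_nonneg ((1 + t / 2) * L - 3 * (t / 2) * |b|)]
    rw [sq_abs] at h5
    have h6 : (1 + t + t ^ 2) / 3 ≤ (1 + 2 * t) / 3 := by nlinarith
    have h7 := mul_le_mul_of_nonneg_right h6 (by positivity : 0 ≤ L ^ 2 + 3 * b ^ 2)
    linarith
  have ha : a ^ 2 ≤ L ^ 2 + 3 * b ^ 2 := by
    have h3 : |a| ≤ L := h1.trans (by nlinarith)
    have h4 : a ^ 2 ≤ L ^ 2 := by rw [← sq_abs]; exact pow_le_pow_left₀ (abs_nonneg _) h3 2
    nlinarith [sq_nonneg b]
  have hp1 : (a + b) ^ 2 ≤ L ^ 2 + 3 * b ^ 2 := by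
    have h6 : (1 + 2 * t) / 3 ≤ 1 := by linarith
    have h7 := mul_le_mul_of_nonneg_right h6 (by positivity : 0 ≤ L ^ 2 + 3 * b ^ 2)
    linarith
  have e : (τ * b + (1 + τ) * a) ^ 2 = τ ^ 2 * (a + b) ^ 2 + τ * (2 * (a + b) * a) + a ^ 2 := by
    ring
  have h8 : 2 * (a + b) * a ≤ 2 * (L ^ 2 + 3 * b ^ 2) := by nlinarith [sq_nonneg b]
  have h9 := mul_le_mul_of_nonneg_left hp (sq_nonneg τ)
  have h10 := mul_le_mul_of_nonneg_left h8 hτ
  rw [e]
  nlinarith

end Theta

theorem params {μ δ Λ : ℝ} (hμ : 0 < μ) (hμ1 : μ ≤ 1) (hΛ : 1 ≤ Λ)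
    (hδ1 : δ ≤ μ ^ 7 / (10 ^ 12 * Λ ^ 6)) :
    ∃ x0 : ℝ, 0 < x0 ∧ x0 * (1000 * Λ ^ 2) = μ ^ 2 ∧ x0 ≤ 1 ∧ δ ≤ x0 ∧ δ * 72 ≤ x0 ^ 2 ∧
      δ * 3 ≤ x0 ^ 3 ∧ δ * (192 * Λ ^ 2) ≤ x0 ^ 2 * μ ^ 3 := by
  have hμΛ : μ / Λ ≤ 1 := (div_le_one (by linarith)).2 (by linarith)
  have hδ' : δ ≤ μ * (μ / Λ) ^ 6 / 10 ^ 12 := hδ1.trans_eq (by field_simp)
  have hΛ0 : 0 < Λ := by linarith
  obtain ⟨r, hr⟩ : ∃ r, r = μ / Λ := ⟨_, rfl⟩
  rw [← hr] at hμΛ hδ'
  have hr0 : 0 < r := by rw [hr]; positivity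
  have hr2 : r ^ 2 ≤ 1 := pow_le_one₀ hr0.le hμΛ
  have hδ'' : δ ≤ r ^ 6 / 10 ^ 12 := hδ'.trans (by
    have := mul_le_mul_of_nonneg_right hμ1 (by positivity : 0 ≤ r ^ 6)
    linarith)
  have hr4 : r ^ 6 ≤ r ^ 4 := pow_le_pow_of_le_one hr0.le hμΛ (by norm_num)
  have hr6 : r ^ 6 ≤ r ^ 2 := pow_le_pow_of_le_one hr0.le hμΛ (by norm_num)
  have h2 : 0 ≤ r ^ 2 := by positivity
  have h4 : 0 ≤ r ^ 4 := by positivity
  have h6 : 0 ≤ r ^ 6 := by positivity
  refine ⟨r ^ 2 / 1000, by positivity, by rw [hr]; field_simp, by linarith, by linarith, ?_, ?_, ?_⟩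
  · have : (r ^ 2 / 1000) ^ 2 = r ^ 4 / 10 ^ 6 := by ring
    rw [this]; linarith
  · have : (r ^ 2 / 1000) ^ 3 = r ^ 6 / 10 ^ 9 := by ring
    rw [this]; linarith
  · have h1 := mul_le_mul_of_nonneg_right hδ' (by positivity : 0 ≤ 192 * Λ ^ 2)
    have e : μ * r ^ 6 / 10 ^ 12 * (192 * Λ ^ 2) = 192 / 10 ^ 6 * ((r ^ 2 / 1000) ^ 2 * μ ^ 3) := by
      rw [hr]; field_simp; ring
    have h2 : 0 ≤ (r ^ 2 / 1000) ^ 2 * μ ^ 3 := by positivity
    linarith

set_option maxHeartbeats 2000000 in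
theorem algW {μ δ M : ℝ} {w : ℂ} {u : BJ} (hμ : 0 < μ) (hμ1 : μ ≤ 1) (hM : 0 ≤ M) (hδ : 0 < δ)
    (hδ1 : δ ≤ μ ^ 7 / (10 ^ 12 * (1 + M) ^ 6)) (hw : ‖w‖ < 1) (hu : IsJet u.H u.T u.Q)
    (hpos : ∀ X, μ * nsq X ≤ (u.H X X).re) (hnear : u.Near (std μ) M) :
    NegF (totH w (std μ) u (DJ.const δ)) (totT w (std μ) u (DJ.const δ))
      (totQ w (std μ) u (DJ.const δ)) (1 / 32) := by
  have hτ := ta_nonneg hw
  have hθ := th_eq hw
  have hθ0 := th_pos hw
  set τ := ta w with hτdef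
  set x := δ * τ with hxdef
  have hx : 0 ≤ x := mul_nonneg hδ.le hτ
  set Λ := 1 + M with hΛdef
  have hΛ : 1 ≤ Λ := by linarith
  have h := herm_hh μ x hu
  have hγ := hu.herm
  have hnsq : ∀ A : E2, A ≠ 0 → 0 < nsq A := fun A hA => by
    rw [← ip_self_re]; exact posF_ip A hA
  have hph : PosF (hh μ x u) := fun A hA =>
    lt_of_lt_of_le (by have := hnsq A hA; positivity) (hh_lower hx hpos A)
  have hpγ : PosF u.H := fun A hA => lt_of_lt_of_le (mul_pos hμ (hnsq A hA)) (hpos A)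
  have hγ0 := fun A => PosF.nonneg hγ hpγ A
  choose sh hsh using fun A => IsJet.exists_solve h hph (u.H A) (hu.H_add_right A)
    (fun c W => hu.H_smul_right c A W)
  choose cs hcs using fun A B => IsJet.exists_solve h hph (u.T A B) (hu.T_add3 A B)
    (fun c W => hu.T_smul3 c A B W)
  have hJ := isJet_tot_const w δ (isJet_std μ) hu
  have hP : PosF (totH w (std μ) u (DJ.const δ)) := by
    intro X hX
    rw [totH_const]
    have e : ((δ : ℂ) * (th w : ℂ) ^ 2 * X 2 * conj (X 2)) = ((δ * th w ^ 2 * ‖X 2‖ ^ 2 : ℝ) : ℂ) := by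
      rw [mul_assoc, Complex.mul_conj, Complex.normSq_eq_norm_sq]; push_cast; ring
    rw [add_re, e, ofReal_re]
    by_cases h0 : pr X = 0
    · have h2 : X 2 ≠ 0 := by
        intro h2
        apply hX
        rw [← mk3_pr X, h0, h2]
        ext i; fin_cases i <;> rfl
      have := PosF.nonneg h hph (pr X)
      have h3 : 0 < ‖X 2‖ := norm_pos_iff.2 h2
      have : 0 < δ * th w ^ 2 * ‖X 2‖ ^ 2 := by positivity
      linarith
    · have := hph _ h0
      have : 0 ≤ δ * th w ^ 2 * ‖X 2‖ ^ 2 := by positivity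
      linarith
  have hΘ := herm_theta hu hsh
  have hS : Herm (SS δ w u sh) :=
    herm_mk (fun X X' Y => by simp only [SS, hu.H_add]; ring)
      (fun c X Y => by simp only [SS, hu.H_smul]; ring)
      (fun X Y => by
        simp only [SS, ← hτdef, ← hxdef]; rw [hΘ.H_symm X Y, hu.H_symm X Y]; simp)
  intro X Y G1 G2 G3 hsol
  have hG1 : G1 = GG δ w sh cs X Y :=
    hJ.solve_unique hP fun W => by rw [hsol.1, GG_solves hu hsh hcs]
  have hG2 : G2 = GG δ w sh cs X X :=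
    hJ.solve_unique hP fun W => by rw [hsol.2.1, GG_solves hu hsh hcs]
  unfold num
  rw [hsol.1, hsol.2.2, hG1, hG2, num_const hu hw hδ.ne' hsh hcs hS, den_const hu]
  simp only [← hτdef, ← hxdef]
  -- bounds on the jets
  have hγΛ : ∀ A, (u.H A A).re ≤ Λ * nsq A := fun A => by
    have h1 := (Complex.re_le_norm _).trans (hnear.1 A A)
    simp only [std, sub_re, re_ofReal_mul, ip_self_re] at h1
    have h2 := nr_sq A
    have h3 := nsq_nonneg A
    nlinarith
  have hT : ∀ A B C, ‖u.T A B C‖ ≤ M * (nr A * nr B * nr C) := fun A B C => by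
    simpa [std] using hnear.2.1 A B C
  have hcsb : ∀ A B, nr (cs A B) ≤ M * (nr A * nr B) / (μ * (1 + x)) := fun A B => by
    apply le_of_sq_le (nr_nonneg _) (by have := nr_nonneg A; have := nr_nonneg B; positivity)
      (by positivity)
    have h1 := hh_lower hx hpos (cs A B)
    rw [hcs, ← nr_sq] at h1
    have h2 := (Complex.re_le_norm _).trans (hT A B (cs A B))
    linarith
  set P := pr X
  set R := pr Y
  set a := av X Y
  have hd0 : 0 ≤ den ip P R := IsJet.den_nonneg herm_ip posF_ip P R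
  set L0 := Real.sqrt (den ip P R) with hL0
  have hL02 : den ip P R = L0 ^ 2 := (Real.sq_sqrt hd0).symm
  have hL00 : 0 ≤ L0 := Real.sqrt_nonneg _
  -- error terms
  have hE1 : |((u.Q P R P R - (std μ).Q P R P R) - (u.Q R R P P - (std μ).Q R R P P)).re|
      ≤ 2 * M * den ip P R := by
    have hs := isJet_std μ
    have hj : IsJet (fun _ _ : E2 => (0 : ℂ)) (fun _ _ _ => 0)
        (fun A B C D => u.Q A B C D - (std μ).Q A B C D) :=
      ⟨by simp, by simp, by simp, by simp, by simp, by simp, by simp, by simp,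
        fun _ _ _ _ _ => by rw [hu.Q_add1, hs.Q_add1]; ring,
        fun _ _ _ _ _ => by rw [hu.Q_smul1, hs.Q_smul1]; ring,
        fun A B C D => by rw [hu.Q_symm A, hs.Q_symm A],
        fun A B C D => by rw [hu.Q_herm A B C D, hs.Q_herm A B C D, map_sub]⟩
    exact hj.alt4 herm_ip posF_ip hM (fun A B C D => by
      simp only [sqrt_ip]; exact hnear.2.2 A B C D) P R
  have hE2 : |(u.T P R (cs P R) - u.T R R (cs P P)).re|
      ≤ 2 * (M ^ 2 / (μ * (1 + x))) * den ip P R := by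
    have hj : IsJet (fun _ _ : E2 => (0 : ℂ)) (fun _ _ _ => 0)
        (fun A B C D => u.T A B (cs C D)) :=
      ⟨by simp, by simp, by simp, by simp, by simp, by simp, by simp, by simp,
        fun _ _ _ _ _ => hu.T_add1 _ _ _ _, fun _ _ _ _ _ => hu.T_smul1 _ _ _ _,
        fun A B C D => hu.T_symm _ _ _,
        fun A B C D => by rw [← hcs C D, ← hcs A B, h.H_symm]⟩
    refine hj.alt4 herm_ip posF_ip (by positivity) (fun A B C D => ?_) P R
    simp only [sqrt_ip]
    refine (hT _ _ _).trans ?_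
    have h1 := hcsb C D
    have h2 := nr_nonneg A
    have h3 := nr_nonneg B
    calc M * (nr A * nr B * nr (cs C D))
        ≤ M * (nr A * nr B * (M * (nr C * nr D) / (μ * (1 + x)))) := by gcongr
      _ = _ := by ring
  have hE3 : ‖u.T P a (RR x sh R) - u.T R a (RR x sh P)‖ ≤ 2 * (M * nr a) * L0 := by
    have hshear : ∀ (A B : E2) (t : ℝ), RR x sh (B + (t : ℂ) • A) = RR x sh B + (t : ℂ) • RR x sh A := by
      intro A B t
      have : sh (B + (t : ℂ) • A) = sh B + (t : ℂ) • sh A :=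
        IsJet.solve_unique h hph fun W => by rw [hsh, h.shear_left, hsh, hsh, hγ.shear_left]
      rw [RR, RR, RR, this]; module
    refine herm_ip.alt posF_ip (fun A B => u.T A a (RR x sh B)) P R (fun t => ?_) (fun A B => ?_)
    · simp only [hshear, hu.T_add3, hu.T_smul3, hu.T_add1, hu.T_smul1, conj_ofReal]; ring
    · simp only [sqrt_ip]
      refine (hT _ _ _).trans ?_
      have h1 : nr (RR x sh B) ≤ nr B :=
        (nr_RR_le hμ hx hu hpos hsh B).trans (div_le_self (nr_nonneg _) (by linarith))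
      have h2 := nr_nonneg A
      have h3 := nr_nonneg a
      calc M * (nr A * nr a * nr (RR x sh B)) ≤ M * (nr A * nr a * nr B) := by gcongr
        _ = _ := by ring
  -- main quantities
  set V := δ * th w ^ 2 with hV
  have hV0 : 0 < V := by positivity
  set Ω := V * (X 2 * conj (Y 2)).im
  set Z2 := den u.H P R + 3 * (u.H P R).im ^ 2 with hZ2
  have hdγ : 0 ≤ den u.H P R := IsJet.den_nonneg hγ hpγ P R
  have hZ0 : 0 ≤ Z2 := by positivity
  have hδle : δ ≤ 1 := by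
    refine hδ1.trans ((div_le_one (by positivity)).2 ?_)
    have h1 : μ ^ 7 ≤ 1 := pow_le_one₀ hμ.le hμ1
    have h2 : 1 ≤ Λ ^ 6 := one_le_pow₀ hΛ
    nlinarith
  have hωS : (SS δ w u sh P R).im ^ 2 ≤ (τ ^ 2 * (1 - 2 * x / (3 * (1 + x))) + 2 * τ + 1) * Z2 := by
    have := omegaS_bound hτ hμ hx hu hpos hsh P R
    rwa [← hθ] at this
  have hA := @stepA δ Ω (SS δ w u sh P R).im hδ hδle
  set gain := δ * τ ^ 2 * (2 * x / (3 * (1 + x))) with hgain
  have hgain0 : 0 ≤ gain := by positivity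
  have hmain : Ω ^ 2 / 16 + (gain - (x + δ) - (x + δ) ^ 2) * Z2
      ≤ x * th w * Z2 + 4 * Ω * (SS δ w u sh P R).im + 4 / δ * Ω ^ 2 := by
    have h1 := mul_le_mul_of_nonneg_left hωS hδ.le
    have h2 : (SS δ w u sh P R).im ^ 2 ≤ (τ + 1) ^ 2 * Z2 := by
      refine hωS.trans (mul_le_mul_of_nonneg_right ?_ hZ0)
      have : 0 ≤ τ ^ 2 * (2 * x / (3 * (1 + x))) := by positivity
      nlinarith
    have h3 := mul_le_mul_of_nonneg_left h2 (sq_nonneg δ)
    have e1 : δ ^ 2 * ((τ + 1) ^ 2 * Z2) = (x + δ) ^ 2 * Z2 := by rw [hxdef]; ring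
    have e2 : δ * ((τ ^ 2 * (1 - 2 * x / (3 * (1 + x))) + 2 * τ + 1) * Z2)
        = x * th w * Z2 - (gain - (x + δ)) * Z2 := by
      rw [hθ, hgain]
      have : x * (1 + τ) = δ * τ * (1 + τ) := by rw [hxdef]
      linear_combination (-Z2) * this + (2 * Z2) * hxdef.symm - Z2 * hxdef.symm
    rw [e1] at h3
    rw [e2] at h1
    linarith
  set α := Real.sqrt V * nr a with hα
  have hα2 : α ^ 2 = V * nsq a := by rw [hα, mul_pow, Real.sq_sqrt hV0.le, nr_sq]
  set e2 := 4 * M * ‖w‖ * Real.sqrt V with he2def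
  have he2 : e2 ^ 2 ≤ 16 * Λ ^ 2 * x * (1 + τ) := by
    have e : e2 ^ 2 = 16 * M ^ 2 * (x * (1 + τ)) := by
      rw [he2def, mul_pow, Real.sq_sqrt hV0.le, hV, hxdef, ← hθ, hτdef, ta]; ring
    rw [e]
    have : M ^ 2 ≤ Λ ^ 2 := pow_le_pow_left₀ hM (by linarith) 2
    have h2 : 0 ≤ x * (1 + τ) := by positivity
    nlinarith
  have hcross : 2 * V * (w * (u.T P a (RR x sh R) - u.T R a (RR x sh P))).re ≤ e2 * α * L0 := by
    have h1 : (w * (u.T P a (RR x sh R) - u.T R a (RR x sh P))).re ≤ ‖w‖ * (2 * (M * nr a) * L0) := by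
      refine (Complex.re_le_norm _).trans ?_
      rw [norm_mul]; gcongr
    have e : e2 * α * L0 = 2 * V * (‖w‖ * (2 * (M * nr a) * L0)) := by
      rw [he2def, hα]
      linear_combination (4 * M * ‖w‖ * nr a * L0) * Real.mul_self_sqrt hV0.le
    rw [e]; gcongr
  set e1 := 2 * x * M + 2 * x ^ 2 * (M ^ 2 / (μ * (1 + x))) with he1def
  have he1 : e1 ≤ 2 * x * Λ + 2 * x * Λ ^ 2 / μ := by
    have h1 : 2 * x * M ≤ 2 * x * Λ := by gcongr; linarith
    have h2 : 2 * x ^ 2 * (M ^ 2 / (μ * (1 + x))) ≤ 2 * x * Λ ^ 2 / μ := by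
      have h3 : M ^ 2 ≤ Λ ^ 2 := pow_le_pow_left₀ hM (by linarith) 2
      have h4 : x / (1 + x) ≤ 1 := (div_le_one (by linarith)).2 (by linarith)
      calc 2 * x ^ 2 * (M ^ 2 / (μ * (1 + x))) = 2 * x * M ^ 2 / μ * (x / (1 + x)) := by
            field_simp
        _ ≤ 2 * x * Λ ^ 2 / μ * 1 := by gcongr
        _ = _ := by ring
    linarith
  have hSa : (SS δ w u sh a a).re = τ * (u.H a a).re + th w * (u.H a (RR x sh a)).re := by
    simp only [SS, add_re, re_ofReal_mul]; rfl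
  have hΘa := theta_bounds hμ hx hu hpos hsh a
  have hΘa0 : 0 ≤ (u.H a (RR x sh a)).re := by
    have h2 : 0 ≤ μ * nsq a := mul_nonneg hμ.le (nsq_nonneg a)
    by_contra h3
    push Not at h3
    nlinarith [hΘa.1]
  have hkey : den (hh μ x u) P R / 16 + V * (hh μ x u a a).re / 32 ≤ μ * L0 ^ 2
      + (gain - (x + δ) - (x + δ) ^ 2) * Z2 + V * (SS δ w u sh a a).re - e1 * L0 ^ 2
      - e2 * α * L0 := by
    have hh0 := fun A => PosF.nonneg h hph A
    obtain ⟨x0, hx0p, hx0, hx01, hδx0, hd1, hd2, hd3⟩ := params hμ hμ1 hΛ hδ1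
    rcases le_total x x0 with hxx | hxx
    · obtain ⟨t, ht⟩ : ∃ t : ℝ, t * (1 + x) = 1 := ⟨1 / (1 + x), by field_simp⟩
      have ht0 : 0 < t := by
        by_contra h
        push Not at h
        nlinarith only [h, ht, hx]
      refine regimeI (θ := th w) (t := t) hμ hμ1 hΛ hδ hx hx0 hxx hδx0 (by linarith) ht hgain0 hZ0
        ?_ ?_ ?_ ?_ he1 (by rw [hθ]; exact he2)
      · have h1 := den_mono hγ herm_ip posF_ip hγ0 (k := Λ)
          (fun A => by rw [ip_self_re]; exact hγΛ A) P R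
        have h2 := hγ.im_sq_le_den hγ0 P R
        rw [hL02] at h1
        linarith only [h1, h2, hZ2]
      · rw [← hL02]
        refine den_mono h herm_ip posF_ip hh0 (fun A => ?_) P R
        rw [ip_self_re, hh_re]
        linarith only [mul_le_mul_of_nonneg_left (hγΛ A) hx]
      · rw [hα2, hSa]
        have h1 : μ * nsq a * t ≤ (u.H a (RR x sh a)).re := by
          have := mul_le_mul_of_nonneg_left hΘa.1 ht0.le
          rw [← mul_assoc t (1 + x), ht] at this
          linarith only [this]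
        have h2 := mul_le_mul_of_nonneg_left h1 (by positivity : 0 ≤ V * th w)
        have h3 : 0 ≤ V * (τ * (u.H a a).re) := by have := hγ0 a; positivity
        linarith only [h2, h3]
      · rw [hα2, hh_re]
        have := mul_le_mul_of_nonneg_left (hγΛ a) (by positivity : 0 ≤ V * x)
        linarith only [this]
    · refine regimeII (τ := τ) (Gaa := V * (u.H a a).re) hμ hμ1 hΛ hδ hx0p hx01
        hxx hxdef hd1 hd2 hd3 ?_ ?_ ?_ ?_ ?_ ?_ he1 he2
      · have h1 : x0 / 3 ≤ 2 * x / (3 * (1 + x)) := by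
          rw [div_le_div_iff₀ (by norm_num) (by positivity)]
          nlinarith only [hxx, hx01, hx, hx0p]
        have e : x ^ 2 * x0 / (3 * δ) = δ * τ ^ 2 * (x0 / 3) := by
          rw [hxdef]; field_simp
        rw [e, hgain]; gcongr
      · have h1 := den_mono herm_ip hγ hpγ (fun A => by rw [ip_self_re]; exact nsq_nonneg A)
          (k := 1 / μ) (fun A => by
            rw [ip_self_re, one_div, ← div_eq_inv_mul, le_div_iff₀ hμ]; linarith only [hpos A]) P R
        rw [hL02] at h1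
        have h2 := mul_le_mul_of_nonneg_left h1 (sq_nonneg μ)
        have e : μ ^ 2 * ((1 / μ) ^ 2 * den u.H P R) = den u.H P R := by field_simp
        have h3 : 0 ≤ 3 * (u.H P R).im ^ 2 := by positivity
        linarith only [h2, e, h3, hZ2]
      · have h1 := den_mono h hγ hpγ hh0 (k := 1 + x)
          (fun A => by rw [hh_re]; linarith only [hpos A]) P R
        have h3 : 0 ≤ (1 + x) ^ 2 * (3 * (u.H P R).im ^ 2) := by positivity
        rw [hZ2]
        linarith only [h1, h3]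
      · rw [hSa]
        have : 0 ≤ V * (th w * (u.H a (RR x sh a)).re) := by positivity
        linarith only [this]
      · rw [hα2]
        have := mul_le_mul_of_nonneg_left (hpos a) hV0.le
        linarith only [this]
      · rw [hh_re]
        have := mul_le_mul_of_nonneg_left (hpos a) hV0.le
        linarith only [this]
  have hωh := h.im_sq_le_den (fun A => PosF.nonneg h hph A) P R
  have h1 : μ * L0 ^ 2 ≤ μ * (1 + x) * (den ip P R + 3 * (ip P R).im ^ 2) := by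
    rw [hL02]
    have : 0 ≤ μ * (x * L0 ^ 2 + (1 + x) * (3 * (ip P R).im ^ 2)) := by positivity
    linarith only [this]
  have h2 := mul_le_mul_of_nonneg_left (neg_le_of_abs_le hE1) hx
  have h3 := mul_le_mul_of_nonneg_left (le_of_abs_le hE2) (sq_nonneg x)
  rw [hL02] at h2 h3
  have h4 : -2 * Ω * (hh μ x u P R).im ≤ Ω ^ 2 + (hh μ x u P R).im ^ 2 := by
    nlinarith only [sq_nonneg (Ω + (hh μ x u P R).im)]
  have e5 : e1 * L0 ^ 2 = x * (2 * M * L0 ^ 2) + x ^ 2 * (2 * (M ^ 2 / (μ * (1 + x))) * L0 ^ 2) := by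
    rw [he1def]; ring
  linarith only [hkey, hmain, hcross, hωh, h1, h2, h3, h4, e5]

end
end Crest.Agent.R245
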