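import Crest.Agent.R245.Alg0

/-! Row 245: real inequalities for `algW`. -/

namespace Crest.Agent.R245

theorem stepA {δ Ω ω : ℝ} (hδ : 0 < δ) (hδ1 : δ ≤ 1) :
    Ω ^ 2 / 16 - δ * (1 + δ) * ω ^ 2 ≤ 4 * Ω * ω + 4 / δ * Ω ^ 2 := by
  have h1 : 4 / δ * Ω ^ 2 = 4 * (Ω / δ) ^ 2 * δ := by field_simp
  set y := Ω / δ with hy
  have hΩ : Ω = δ * y := by rw [hy]; field_simp
  rw [h1, hΩ]
  have : 0 ≤ δ * ((4 - δ / 16) * y ^ 2 + 4 * y * ω + (1 + δ) * ω ^ 2) := by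
    apply mul_nonneg hδ.le
    have h2 : 0 < 4 - δ / 16 := by linarith
    have h3 : 4 ≤ (4 - δ / 16) * (1 + δ) := by nlinarith
    have h4 : 0 ≤ (4 - δ / 16) * ((4 - δ / 16) * y ^ 2 + 4 * y * ω + (1 + δ) * ω ^ 2) := by
      nlinarith [sq_nonneg ((4 - δ / 16) * y + 2 * ω), mul_nonneg (sub_nonneg.2 h3) (sq_nonneg ω)]
    exact nonneg_of_mul_nonneg_right h4 h2 |> fun h => by
      rcases le_or_gt 0 ((4 - δ / 16) * y ^ 2 + 4 * y * ω + (1 + δ) * ω ^ 2) with h5 | h5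
      · exact h5
      · nlinarith
  nlinarith

theorem amgm {e α L p : ℝ} (hp : 0 < p) : e * α * L ≤ p * α ^ 2 + e ^ 2 / (4 * p) * L ^ 2 := by
  have : p * α ^ 2 + e ^ 2 / (4 * p) * L ^ 2 - e * α * L = (2 * p * α - e * L) ^ 2 / (4 * p) := by
    field_simp; ring
  have h2 : 0 ≤ (2 * p * α - e * L) ^ 2 / (4 * p) := by positivity
  linarith

set_option maxHeartbeats 4000000 in
/-- regime of small `x` -/
theorem regimeI {μ δ Λ x x0 θ t L0 Z2 Lh2 α Saa Haa e1 e2 gain : ℝ} (hμ : 0 < μ) (hμ1 : μ ≤ 1)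
    (hΛ : 1 ≤ Λ) (hδ : 0 < δ) (hx : 0 ≤ x) (hx0 : x0 * (1000 * Λ ^ 2) = μ ^ 2) (hxx : x ≤ x0)
    (hδx : δ ≤ x0) (hθ : 1 ≤ θ) (ht : t * (1 + x) = 1) (hgain : 0 ≤ gain) (hZ0 : 0 ≤ Z2)
    (hZ : Z2 ≤ 4 * Λ ^ 2 * L0 ^ 2) (hLh : Lh2 ≤ (μ + x * Λ) ^ 2 * L0 ^ 2)
    (hS : μ * θ * t * α ^ 2 ≤ Saa) (hH : Haa ≤ (μ + x * Λ) * α ^ 2)
    (he1 : e1 ≤ 2 * x * Λ + 2 * x * Λ ^ 2 / μ) (he2 : e2 ^ 2 ≤ 16 * Λ ^ 2 * x * θ) :
    Lh2 / 16 + Haa / 32 ≤ μ * L0 ^ 2 + (gain - (x + δ) - (x + δ) ^ 2) * Z2 + Saa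
      - e1 * L0 ^ 2 - e2 * α * L0 := by
  have hΛ2 : 1 ≤ Λ ^ 2 := by nlinarith
  have hΛΛ : Λ ≤ Λ ^ 2 := by nlinarith
  have hμ2 : μ ^ 2 ≤ μ := by nlinarith
  have hx0p : 0 ≤ x0 := hx.trans hxx
  have hxΛ2 : x * Λ ^ 2 ≤ μ ^ 2 / 1000 := by nlinarith [mul_le_mul_of_nonneg_right hxx (by positivity : 0 ≤ Λ ^ 2)]
  have hxΛ : x * Λ ≤ μ / 1000 := by nlinarith [mul_le_mul_of_nonneg_left hΛΛ hx]
  have hx01 : x0 ≤ 1 / 1000 := by nlinarith [mul_le_mul_of_nonneg_left hΛ2 hx0p]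
  have hL2 : 0 ≤ L0 ^ 2 := sq_nonneg _
  have hα2 : 0 ≤ α ^ 2 := sq_nonneg _
  have ht2 : 1 / 2 ≤ t := by
    have : 0 < t := by
      by_contra h
      push Not at h
      nlinarith
    nlinarith
  -- loss
  have hl : (x + δ) + (x + δ) ^ 2 ≤ 3 * x0 := by nlinarith
  have hloss : ((x + δ) + (x + δ) ^ 2) * Z2 ≤ 12 / 1000 * μ * L0 ^ 2 := by
    calc ((x + δ) + (x + δ) ^ 2) * Z2 ≤ (3 * x0) * (4 * Λ ^ 2 * L0 ^ 2) :=
          mul_le_mul hl hZ hZ0 (by positivity)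
      _ = 12 / 1000 * (x0 * (1000 * Λ ^ 2)) * L0 ^ 2 := by ring
      _ ≤ 12 / 1000 * μ * L0 ^ 2 := by rw [hx0]; nlinarith
  have he1' : e1 ≤ 4 / 1000 * μ := by
    have : 2 * x * Λ ^ 2 / μ ≤ 2 / 1000 * μ := by
      rw [div_le_iff₀ hμ]; nlinarith
    nlinarith
  have hLh' : Lh2 ≤ 4 * μ * L0 ^ 2 := by
    have : (μ + x * Λ) ^ 2 ≤ 4 * μ := by
      have h1 : μ + x * Λ ≤ 2 * μ := by linarith
      have h2 : 0 ≤ μ + x * Λ := by positivity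
      nlinarith
    nlinarith
  have hH' : Haa ≤ 2 * μ * α ^ 2 :=
    hH.trans (mul_le_mul_of_nonneg_right (by linarith) hα2)
  have hμθ : 0 < μ * θ / 4 := by positivity
  have hc := amgm (e := e2) (α := α) (L := L0) hμθ
  have hc2 : e2 ^ 2 / (4 * (μ * θ / 4)) ≤ 16 / 1000 * μ := by
    rw [div_le_iff₀ (by positivity)]
    have : 16 * Λ ^ 2 * x * θ ≤ 16 * (μ ^ 2 / 1000) * θ := by
      have := mul_le_mul_of_nonneg_right hxΛ2 (by linarith : 0 ≤ θ)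
      nlinarith
    nlinarith
  have hS' : μ * θ / 2 * α ^ 2 ≤ Saa := by
    have : μ * θ / 2 * α ^ 2 ≤ μ * θ * t * α ^ 2 := by
      have h1 : 0 ≤ μ * θ * α ^ 2 := by positivity
      nlinarith
    linarith
  have h5 : μ * α ^ 2 ≤ μ * θ * α ^ 2 := by
    have : 0 ≤ μ * α ^ 2 := by positivity
    nlinarith
  have h6 := mul_le_mul_of_nonneg_right hc2 hL2
  have h7 := mul_le_mul_of_nonneg_right he1' hL2
  have h8 := mul_nonneg hgain hZ0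
  have h9 : 0 ≤ μ * L0 ^ 2 := by positivity
  have h10 : 0 ≤ μ * α ^ 2 := by positivity
  linarith

set_option maxHeartbeats 4000000 in
/-- regime of large `x` -/
theorem regimeII {μ δ Λ x x0 τ L0 Z2 Lh2 α Saa Gaa Haa e1 e2 gain : ℝ} (hμ : 0 < μ) (hμ1 : μ ≤ 1)
    (hΛ : 1 ≤ Λ) (hδ : 0 < δ) (hx0 : 0 < x0) (hx01 : x0 ≤ 1) (hxx : x0 ≤ x) (hτ : x = δ * τ)
    (hd1 : δ * 72 ≤ x0 ^ 2) (hd2 : δ * 3 ≤ x0 ^ 3) (hd3 : δ * (192 * Λ ^ 2) ≤ x0 ^ 2 * μ ^ 3)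
    (hgain : x ^ 2 * x0 / (3 * δ) ≤ gain) (hZ : μ ^ 2 * L0 ^ 2 ≤ Z2) (hLh : Lh2 ≤ (1 + x) ^ 2 * Z2)
    (hS : τ * Gaa ≤ Saa) (hG : μ * α ^ 2 ≤ Gaa) (hH : Haa ≤ (1 + x) * Gaa)
    (he1 : e1 ≤ 2 * x * Λ + 2 * x * Λ ^ 2 / μ) (he2 : e2 ^ 2 ≤ 16 * Λ ^ 2 * x * (1 + τ)) :
    Lh2 / 16 + Haa / 32 ≤ μ * L0 ^ 2 + (gain - (x + δ) - (x + δ) ^ 2) * Z2 + Saa
      - e1 * L0 ^ 2 - e2 * α * L0 := by
  have hx : 0 < x := hx0.trans_le hxx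
  have hΛΛ : Λ ≤ Λ ^ 2 := by nlinarith
  have hL2 : 0 ≤ L0 ^ 2 := sq_nonneg _
  have hZ0 : 0 ≤ Z2 := le_trans (by positivity) hZ
  have hG0 : 0 ≤ Gaa := le_trans (by positivity) hG
  have hδx0 : δ ≤ x0 := by nlinarith
  have hτ1 : 1 ≤ τ := by
    by_contra h
    push Not at h
    nlinarith
  set g := x ^ 2 * x0 / (3 * δ) with hg
  have hg3 : g * (3 * δ) = x ^ 2 * x0 := by rw [hg]; field_simp
  have hg0 : 0 < g := by positivity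
  -- `y = x / x0 ≥ 1`
  obtain ⟨y, hy⟩ : ∃ y, x = y * x0 := ⟨x / x0, by field_simp⟩
  have hy1 : 1 ≤ y := by
    by_contra h
    push Not at h
    nlinarith
  have hxy : x ≤ y := by nlinarith
  have hA : 6 * (x * y) ≤ g / 4 := by
    have : 6 * (x * y) * (3 * δ) ≤ g / 4 * (3 * δ) := by
      have h1 : g / 4 * (3 * δ) = x * y * x0 ^ 2 / 4 := by
        calc g / 4 * (3 * δ) = g * (3 * δ) / 4 := by ring
          _ = x * y * x0 ^ 2 / 4 := by rw [hg3]; rw [hy]; ring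
      rw [h1]
      have : 0 ≤ x * y := by positivity
      nlinarith
    exact le_of_mul_le_mul_right this (by positivity)
  have hB : y ^ 2 ≤ g := by
    have : y ^ 2 * (3 * δ) ≤ g * (3 * δ) := by
      rw [hg3, hy]
      have : 0 ≤ y ^ 2 := by positivity
      nlinarith
    exact le_of_mul_le_mul_right this (by positivity)
  have hC : 16 * Λ ^ 2 * (x * y) / μ ≤ g * μ ^ 2 / 4 := by
    rw [div_le_iff₀ hμ]
    have : 16 * Λ ^ 2 * (x * y) * (3 * δ) ≤ g * μ ^ 2 / 4 * μ * (3 * δ) := by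
      have h1 : g * μ ^ 2 / 4 * μ * (3 * δ) = x * y * (x0 ^ 2 * μ ^ 3) / 4 := by
        calc g * μ ^ 2 / 4 * μ * (3 * δ) = g * (3 * δ) * μ ^ 3 / 4 := by ring
          _ = x * y * (x0 ^ 2 * μ ^ 3) / 4 := by rw [hg3]; rw [hy]; ring
      rw [h1]
      have : 0 ≤ x * y := by positivity
      nlinarith
    exact le_of_mul_le_mul_right this (by positivity)
  have hxxy : x ≤ x * y := le_mul_of_one_le_right hx.le hy1
  have hxxy2 : x ^ 2 ≤ x * y := by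
    rw [sq]; exact mul_le_mul_of_nonneg_left hxy hx.le
  have hl : (x + δ) + (x + δ) ^ 2 ≤ g / 4 := by
    have h1 : x + δ ≤ 2 * x := by linarith
    have h2 : (x + δ) ^ 2 ≤ (2 * x) ^ 2 := pow_le_pow_left₀ (by positivity) h1 2
    linarith
  have hLh' : Lh2 / 16 ≤ g / 4 * Z2 := by
    have h1 : (1 + x) ^ 2 ≤ (2 * y) ^ 2 := pow_le_pow_left₀ (by positivity) (by linarith) 2
    have h2 : (1 + x) ^ 2 * Z2 ≤ 4 * g * Z2 := mul_le_mul_of_nonneg_right (by linarith) hZ0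
    linarith
  have hΛx : Λ ^ 2 * x / μ ≤ Λ ^ 2 * (x * y) / μ := by gcongr
  have he1' : e1 ≤ g * μ ^ 2 / 4 := by
    have h1 : 2 * x * Λ ≤ 2 * x * Λ ^ 2 / μ := by
      rw [le_div_iff₀ hμ]
      have : 0 ≤ x * Λ := by positivity
      nlinarith
    have h2 : 2 * x * Λ ^ 2 / μ = 2 * (Λ ^ 2 * x / μ) := by ring
    have h3 : 16 * Λ ^ 2 * (x * y) / μ = 16 * (Λ ^ 2 * (x * y) / μ) := by ring
    have h4 : 0 ≤ Λ ^ 2 * x / μ := by positivity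
    linarith
  have hyτ : y ≤ τ := by
    have : y * x0 ≤ τ * x0 := by rw [← hy, hτ]; nlinarith
    exact le_of_mul_le_mul_right this hx0
  have hH' : Haa / 32 ≤ τ / 2 * Gaa := by
    have h1 : (1 + x) * Gaa ≤ 2 * τ * Gaa := mul_le_mul_of_nonneg_right (by linarith) hG0
    have : 0 ≤ τ * Gaa := by positivity
    linarith
  have hp : 0 < τ * μ / 2 := by positivity
  have hc := amgm (e := e2) (α := α) (L := L0) hp
  have hc2 : e2 ^ 2 / (4 * (τ * μ / 2)) ≤ g * μ ^ 2 / 4 := by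
    have h1 : e2 ^ 2 / (4 * (τ * μ / 2)) ≤ 16 * (Λ ^ 2 * x / μ) := by
      rw [div_le_iff₀ (by positivity)]
      have h2 : 16 * (Λ ^ 2 * x / μ) * (4 * (τ * μ / 2)) = 32 * Λ ^ 2 * x * τ := by
        field_simp; ring
      rw [h2]
      have : 0 ≤ Λ ^ 2 * x := by positivity
      nlinarith
    have h3 : 16 * Λ ^ 2 * (x * y) / μ = 16 * (Λ ^ 2 * (x * y) / μ) := by ring
    linarith
  have h6 := mul_le_mul_of_nonneg_right hc2 hL2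
  have h7 := mul_le_mul_of_nonneg_right he1' hL2
  have h8 : (g - g / 4) * Z2 ≤ (gain - (x + δ) - (x + δ) ^ 2) * Z2 :=
    mul_le_mul_of_nonneg_right (by linarith) hZ0
  have h9 : g / 2 * (μ ^ 2 * L0 ^ 2) ≤ g / 2 * Z2 := mul_le_mul_of_nonneg_left hZ (by positivity)
  have h10 : τ / 2 * (μ * α ^ 2) ≤ τ / 2 * Gaa := mul_le_mul_of_nonneg_left hG (by positivity)
  have h11 : 0 ≤ μ * L0 ^ 2 := by positivity
  linarith

end Crest.Agent.R245
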