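import Crest.Agent.R245.Alg0

/-! Row 245: Hermitian forms and alternation lemmas for `algW`. -/

open Complex
open scoped ComplexConjugate

namespace Crest.Agent.R245

variable {V : Type*} [AddCommGroup V] [Module ℂ V]

abbrev Herm (g : V → V → ℂ) : Prop := IsJet g (fun _ _ _ => 0) (fun _ _ _ _ => 0)

theorem herm_mk {g : V → V → ℂ} (h1 : ∀ X X' Y, g (X + X') Y = g X Y + g X' Y)
    (h2 : ∀ (c : ℂ) X Y, g (c • X) Y = c * g X Y) (h3 : ∀ X Y, g Y X = conj (g X Y)) : Herm g :=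
  ⟨h1, h2, h3, by simp, by simp, by simp, by simp, by simp, by simp, by simp, by simp, by simp⟩

theorem IsJet.herm {H : V → V → ℂ} {T : V → V → V → ℂ} {Q : V → V → V → V → ℂ}
    (h : IsJet H T Q) : Herm H := herm_mk h.H_add h.H_smul h.H_symm

variable {g g' : V → V → ℂ}

theorem Herm.zero_left (h : Herm g) (Y : V) : g 0 Y = 0 := by
  have := h.H_smul 0 0 Y
  simpa using this

theorem Herm.shear_right (h : Herm g) (A B X : V) (t : ℝ) :
    g A (B + (t : ℂ) • X) = g A B + t * g A X := by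
  rw [h.H_add_right, h.H_smul_right]; simp

theorem Herm.shear_left (h : Herm g) (A B X : V) (t : ℝ) :
    g (B + (t : ℂ) • X) A = g B A + t * g X A := by
  rw [h.H_add, h.H_smul]

theorem Herm.re_symm (h : Herm g) (X Y : V) : (g Y X).re = (g X Y).re := by
  rw [h.H_symm X Y]; simp

theorem Herm.den_shear (h : Herm g) (X Y : V) (t : ℝ) :
    den g X (Y + (t : ℂ) • X) = den g X Y := by
  unfold den
  rw [h.shear_left, h.shear_right, h.shear_right]
  simp only [add_re, mul_re, ofReal_re, ofReal_im, zero_mul, sub_zero, h.re_symm X Y]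
  ring

theorem Herm.im_shear (h : Herm g) (X Y : V) (t : ℝ) :
    (g X (Y + (t : ℂ) • X)).im = (g X Y).im := by
  rw [h.shear_right]; simp [h.H_im]

theorem Herm.exists_orth (h : Herm g) (hp : PosF g) {X : V} (hX : X ≠ 0) (Y : V) :
    ∃ t : ℝ, den g X Y = (g X X).re * (g (Y + (t : ℂ) • X) (Y + (t : ℂ) • X)).re := by
  have h0 := hp X hX
  refine ⟨-(g X Y).re / (g X X).re, ?_⟩
  rw [← h.den_shear X Y (-(g X Y).re / (g X X).re)]
  unfold den
  have : (g X (Y + ((-(g X Y).re / (g X X).re : ℝ) : ℂ) • X)).re = 0 := by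
    rw [h.shear_right]
    simp only [add_re, mul_re, ofReal_re, ofReal_im, zero_mul, sub_zero]
    field_simp
    ring
  rw [this]; ring

theorem PosF.nonneg (h : Herm g) (hp : PosF g) (X : V) : 0 ≤ (g X X).re := by
  by_cases hX : X = 0
  · subst hX; rw [h.zero_left]; simp
  · exact (hp X hX).le

theorem Herm.den_zero (h : Herm g) (Y : V) : den g 0 Y = 0 := by
  unfold den; rw [h.zero_left, h.zero_left]; simp

theorem Herm.alt (h : Herm g) (hp : PosF g) (β : V → V → ℂ) {C : ℝ} (X Y : V)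
    (hs : ∀ t : ℝ, β X (Y + (t : ℂ) • X) - β (Y + (t : ℂ) • X) X = β X Y - β Y X)
    (hb : ∀ A B, ‖β A B‖ ≤ C * (Real.sqrt (g A A).re * Real.sqrt (g B B).re)) :
    ‖β X Y - β Y X‖ ≤ 2 * C * Real.sqrt (den g X Y) := by
  by_cases hX : X = 0
  · subst hX
    have h1 := hb 0 Y
    have h2 := hb Y 0
    rw [h.zero_left] at h1 h2
    simp only [zero_re, Real.sqrt_zero, zero_mul, mul_zero, norm_le_zero_iff] at h1 h2
    rw [h1, h2, h.den_zero]; simp
  · obtain ⟨t, ht⟩ := h.exists_orth hp hX Y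
    rw [← hs t, ht, Real.sqrt_mul (hp X hX).le]
    have h1 := hb X (Y + (t : ℂ) • X)
    have h2 := hb (Y + (t : ℂ) • X) X
    refine (norm_sub_le _ _).trans ?_
    nlinarith

theorem den_mono (h : Herm g) (h' : Herm g') (hp' : PosF g') (h0 : ∀ A, 0 ≤ (g A A).re) {k : ℝ}
    (hk : ∀ A, (g A A).re ≤ k * (g' A A).re) (X Y : V) : den g X Y ≤ k ^ 2 * den g' X Y := by
  by_cases hX : X = 0
  · subst hX; rw [h.den_zero, h'.den_zero]; simp
  · obtain ⟨t, ht⟩ := h'.exists_orth hp' hX Y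
    rw [ht, ← h.den_shear X Y t]
    unfold den
    have h1 := mul_le_mul (hk X) (hk (Y + (t : ℂ) • X)) (h0 _) ((h0 X).trans (hk X))
    nlinarith [sq_nonneg (g X (Y + (t : ℂ) • X)).re]

theorem Herm.im_sq_le_den (h : Herm g) (h0 : ∀ A, 0 ≤ (g A A).re) (X Y : V) :
    (g X Y).im ^ 2 ≤ den g X Y := by
  have := h.norm_H_sq_le h0 X Y
  rw [Complex.sq_norm, Complex.normSq_apply] at this
  unfold den; nlinarith

theorem Herm.norm_le (h : Herm g) (h0 : ∀ A, 0 ≤ (g A A).re) (X Y : V) :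
    ‖g X Y‖ ≤ Real.sqrt (g X X).re * Real.sqrt (g Y Y).re := by
  rw [← Real.sqrt_mul (h0 X)]
  exact Real.le_sqrt_of_sq_le (h.norm_H_sq_le h0 X Y)

theorem Herm.sub_swap (h : Herm g) (X Y : V) : ‖g X Y - g Y X‖ = 2 * |(g X Y).im| := by
  rw [h.H_symm X Y, Complex.sub_conj]
  simp

/-- imaginary part of a form dominated by `g'` -/
theorem Herm.abs_im_le (h : Herm g) (h' : Herm g') (hp' : PosF g') {k : ℝ}
    (hb : ∀ A B, ‖g A B‖ ≤ k * (Real.sqrt (g' A A).re * Real.sqrt (g' B B).re)) (X Y : V) :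
    |(g X Y).im| ≤ k * Real.sqrt (den g' X Y) := by
  have := h'.alt hp' g X Y (fun t => by rw [h.shear_right, h.shear_left]; ring) hb
  rw [h.sub_swap] at this
  linarith

theorem ch_re (h : Herm g) (X Y : V) :
    (g X X * g Y Y + g X Y * g Y X - (g Y X * g Y X + g Y X * g Y X)).re
      = den g X Y + 3 * (g X Y).im ^ 2 := by
  rw [h.H_symm X Y]
  unfold den
  simp [h.H_im]
  ring

section Four
variable {H : V → V → ℂ} {T : V → V → V → ℂ} {E : V → V → V → V → ℂ}

theorem IsJet.Q_shear1 (h : IsJet H T E) (A X B C D : V) (t : ℝ) :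
    E (A + (t : ℂ) • X) B C D = E A B C D + t * E X B C D := by
  rw [h.Q_add1, h.Q_smul1]

theorem IsJet.Q_shear2 (h : IsJet H T E) (A X B C D : V) (t : ℝ) :
    E B (A + (t : ℂ) • X) C D = E B A C D + t * E B X C D := by
  rw [h.Q_symm, h.Q_shear1, h.Q_symm A, h.Q_symm X]

theorem IsJet.Q_shear3 (h : IsJet H T E) (A X B C D : V) (t : ℝ) :
    E C D (A + (t : ℂ) • X) B = E C D A B + t * E C D X B := by
  rw [h.Q_herm (A + (t : ℂ) • X) B C D, h.Q_shear1, h.Q_herm A B C D, h.Q_herm X B C D]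
  simp

theorem IsJet.Q_shear4 (h : IsJet H T E) (A X B C D : V) (t : ℝ) :
    E C D B (A + (t : ℂ) • X) = E C D B A + t * E C D B X := by
  rw [h.Q_herm B (A + (t : ℂ) • X) C D, h.Q_shear2, h.Q_herm B A C D, h.Q_herm B X C D]
  simp

theorem IsJet.Q_symm34 (h : IsJet H T E) (A B C D : V) : E A B C D = E A B D C := by
  rw [h.Q_herm C D A B, h.Q_herm D C A B, h.Q_symm C]

theorem IsJet.alt4 (h : IsJet H T E) (hg : Herm g) (hp : PosF g) {C : ℝ} (hC : 0 ≤ C)
    (hb : ∀ A B A' B', ‖E A B A' B'‖ ≤ C * (Real.sqrt (g A A).re * Real.sqrt (g B B).re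
      * Real.sqrt (g A' A').re * Real.sqrt (g B' B').re)) (X Y : V) :
    |(E X Y X Y - E Y Y X X).re| ≤ 2 * C * den g X Y := by
  have hd : 0 ≤ den g X Y := IsJet.den_nonneg hg hp X Y
  have h1 : ∀ A B, ‖E A X B Y - E A Y B X‖ ≤ (2 * C * Real.sqrt (den g X Y)) *
      (Real.sqrt (g A A).re * Real.sqrt (g B B).re) := by
    intro A B
    have := hg.alt hp (fun P R => E A P B R)
      (C := C * (Real.sqrt (g A A).re * Real.sqrt (g B B).re)) X Y
      (fun t => by simp only [h.Q_shear2, h.Q_shear4]; ring)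
      (fun P R => (hb A P B R).trans_eq (by ring))
    exact this.trans_eq (by ring)
  have h2 := hg.alt hp (fun A B => E A X B Y - E A Y B X) X Y
    (fun t => by simp only [h.Q_shear1, h.Q_shear3]; ring) h1
  have h3 : (E X X Y Y - E X Y Y X - (E Y X X Y - E Y Y X X)).re
      = -2 * (E X Y X Y - E Y Y X X).re := by
    rw [h.Q_symm34 X Y Y X, h.Q_symm Y X X Y, h.Q_herm Y Y X X]
    simp
    ring
  have h4 := (Complex.abs_re_le_norm _).trans h2
  rw [h3, abs_mul] at h4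
  have h5 : Real.sqrt (den g X Y) * Real.sqrt (den g X Y) = den g X Y := Real.mul_self_sqrt hd
  have h6 : 2 * (2 * C * Real.sqrt (den g X Y)) * Real.sqrt (den g X Y) = 4 * C * den g X Y := by
    linear_combination (4 * C) * h5
  rw [h6, show |(-2 : ℝ)| = 2 by norm_num] at h4
  linarith

end Four

theorem sqrt_split {a b A B : ℝ} (ha : 0 ≤ a) (hb : 0 ≤ b) (hA : a ≤ A) (hB : b ≤ B) :
    Real.sqrt a * Real.sqrt b + Real.sqrt (A - a) * Real.sqrt (B - b)
      ≤ Real.sqrt A * Real.sqrt B := by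
  rw [← Real.sqrt_mul (ha.trans hA)]
  apply Real.le_sqrt_of_sq_le
  have h1 := Real.mul_self_sqrt ha
  have h2 := Real.mul_self_sqrt hb
  have h3 := Real.mul_self_sqrt (sub_nonneg.2 hA)
  have h4 := Real.mul_self_sqrt (sub_nonneg.2 hB)
  set p := Real.sqrt a
  set q := Real.sqrt b
  set r := Real.sqrt (A - a)
  set s := Real.sqrt (B - b)
  have hA' : A = p * p + r * r := by linarith
  have hB' : B = q * q + s * s := by linarith
  rw [hA', hB']
  nlinarith [sq_nonneg (p * s - r * q)]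

end Crest.Agent.R245
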