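import Crest.Agent.R245.AlgWAux2

/-! Row 245: the curvature tensor of the disc bundle for a constant factor. -/

open Complex
open scoped ComplexConjugate

namespace Crest.Agent.R245
noncomputable section

theorem herm_ip : Herm ip :=
  herm_mk (fun X X' Y => by simp [ip]; ring) (fun c X Y => by simp [ip]; ring)
    (fun X Y => by simp [ip]; ring)

theorem ip_self_re (X : E2) : (ip X X).re = nsq X := by rw [ip_self]; simp

theorem posF_ip : PosF ip := fun X hX => by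
  rw [ip_self_re]
  exact lt_of_le_of_ne (nsq_nonneg X) fun h => hX (nsq_eq_zero h.symm)

theorem sqrt_ip (X : E2) : Real.sqrt (ip X X).re = nr X := by rw [ip_self_re]; rfl

/-- the horizontal metric -/
def hh (μ x : ℝ) (u : BJ) (A B : E2) : ℂ := μ * ip A B + x * u.H A B

theorem herm_hh (μ x : ℝ) {u : BJ} (hu : IsJet u.H u.T u.Q) : Herm (hh μ x u) :=
  herm_mk (fun X X' Y => by simp only [hh, herm_ip.H_add, hu.H_add]; ring)
    (fun c X Y => by simp only [hh, herm_ip.H_smul, hu.H_smul]; ring)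
    (fun X Y => by simp only [hh, herm_ip.H_symm X Y, hu.H_symm X Y]; simp)

theorem hh_re (μ x : ℝ) (u : BJ) (A : E2) :
    (hh μ x u A A).re = μ * nsq A + x * (u.H A A).re := by
  simp [hh, ip_self_re]

theorem th_eq {w : ℂ} (hw : ‖w‖ < 1) : th w = 1 + ta w := by
  have : 1 - ‖w‖ ^ 2 ≠ 0 := by nlinarith [norm_nonneg w]
  unfold ta th; field_simp; ring

theorem th_pos {w : ℂ} (hw : ‖w‖ < 1) : 0 < th w := by
  have : 0 < 1 - ‖w‖ ^ 2 := by nlinarith [norm_nonneg w]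
  unfold th; positivity

theorem ta_nonneg {w : ℂ} (hw : ‖w‖ < 1) : 0 ≤ ta w := by
  have := th_pos hw
  unfold ta; positivity

/-- Christoffel vectors -/
def GG (δ : ℝ) (w : ℂ) (sh : E2 → E2) (cs : E2 → E2 → E2) (A B : E3) : E3 :=
  mk3 (((δ * ta w : ℝ) : ℂ) • cs (pr A) (pr B)
      + ((δ : ℂ) * (th w : ℂ) ^ 2 * conj w) • (A 2 • sh (pr B) + B 2 • sh (pr A)))
    (2 * th w * conj w * A 2 * B 2)

theorem mk3_two (z : E2) (w : ℂ) : mk3 z w 2 = w := rfl

theorem totH_const (μ δ : ℝ) (w : ℂ) (u : BJ) (X Y : E3) :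
    totH w (std μ) u (DJ.const δ) X Y
      = hh μ (δ * ta w) u (pr X) (pr Y) + δ * (th w : ℂ) ^ 2 * X 2 * conj (Y 2) := by
  simp only [totH, DJ.const, std, F11, hh]
  push_cast
  simp
  ring

variable {μ δ : ℝ} {w : ℂ} {u : BJ} {sh : E2 → E2} {cs : E2 → E2 → E2}

theorem GG_solves (hu : IsJet u.H u.T u.Q)
    (hsh : ∀ A W, hh μ (δ * ta w) u (sh A) W = u.H A W)
    (hcs : ∀ A B W, hh μ (δ * ta w) u (cs A B) W = u.T A B W) (A B W : E3) :
    totH w (std μ) u (DJ.const δ) (GG δ w sh cs A B) W = totT w (std μ) u (DJ.const δ) A B W := by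
  have h := herm_hh μ (δ * ta w) hu
  rw [totH_const]
  simp only [GG, pr_mk3, mk3_two, h.H_add, h.H_smul, hsh, hcs, totT, DJ.const, std, F21]
  push_cast
  simp
  ring

/-- `R B = B - x B♯` -/
def RR (x : ℝ) (sh : E2 → E2) (B : E2) : E2 := B + (-(x : ℂ)) • sh B

/-- the mixed curvature form -/
def SS (δ : ℝ) (w : ℂ) (u : BJ) (sh : E2 → E2) (B D : E2) : ℂ :=
  ta w * u.H B D + th w * u.H B (RR (δ * ta w) sh D)

theorem rk_formula (hu : IsJet u.H u.T u.Q) (hw : ‖w‖ < 1)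
    (hsh : ∀ A W, hh μ (δ * ta w) u (sh A) W = u.H A W)
    (hcs : ∀ A B W, hh μ (δ * ta w) u (cs A B) W = u.T A B W) (A B C D : E3) :
    -totQ w (std μ) u (DJ.const δ) A B C D + totT w (std μ) u (DJ.const δ) A B (GG δ w sh cs C D) =
      -(μ * (1 + δ * ta w) : ℝ) * (ip (pr A) (pr C) * ip (pr B) (pr D) + ip (pr A) (pr D) * ip (pr B) (pr C))
      - (δ * ta w : ℝ) * (u.Q (pr A) (pr B) (pr C) (pr D) - (std μ).Q (pr A) (pr B) (pr C) (pr D))
      - (δ * ta w * th w : ℝ) * (u.H (pr A) (pr C) * u.H (pr B) (pr D) + u.H (pr A) (pr D) * u.H (pr B) (pr C))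
      + ((δ * ta w) ^ 2 : ℝ) * u.T (pr A) (pr B) (cs (pr C) (pr D))
      - (δ * th w ^ 2 : ℝ) * (w * (conj (C 2) * u.T (pr A) (pr B) (RR (δ * ta w) sh (pr D))
          + conj (D 2) * u.T (pr A) (pr B) (RR (δ * ta w) sh (pr C))))
      - (δ * th w ^ 2 : ℝ) * conj (w * (conj (A 2) * u.T (pr C) (pr D) (RR (δ * ta w) sh (pr B))
          + conj (B 2) * u.T (pr C) (pr D) (RR (δ * ta w) sh (pr A))))
      - (δ * th w ^ 2 : ℝ) * (A 2 * conj (C 2) * SS δ w u sh (pr B) (pr D)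
          + A 2 * conj (D 2) * SS δ w u sh (pr B) (pr C)
          + B 2 * conj (C 2) * SS δ w u sh (pr A) (pr D)
          + B 2 * conj (D 2) * SS δ w u sh (pr A) (pr C))
      - (2 * δ * th w ^ 4 : ℝ) * (A 2 * B 2 * conj (C 2) * conj (D 2)) := by
  have h := herm_hh μ (δ * ta w) hu
  have hγc : ∀ P, u.H P (cs (pr C) (pr D)) = conj (u.T (pr C) (pr D) (sh P)) := fun P => by
    rw [← hsh, h.H_symm, hcs]
  have e1 : ((‖w‖ : ℂ)) ^ 2 = w * conj w := by
    rw [Complex.mul_conj, Complex.normSq_eq_norm_sq]; push_cast; ring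
  have e2 : w * conj w * (th w : ℂ) = ta w := by
    rw [← e1]; simp [ta]
  have e3 : (th w : ℂ) = 1 + ta w := by rw [th_eq hw]; push_cast; ring
  simp only [GG, pr_mk3, mk3_two, totT, totQ, DJ.const, std, F21, F22, SS, RR, hu.T_add3,
    hu.T_smul3, hu.H_add_right, hu.H_smul_right, hγc, e1]
  push_cast
  simp only [map_mul, map_add, map_neg, map_pow, conj_ofReal, conj_conj, map_ofNat, map_zero,
    zero_mul, mul_zero, add_zero, zero_add]
  linear_combination (δ ^ 2 * (th w : ℂ) ^ 3 *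
      (A 2 * conj (C 2) * u.H (pr B) (sh (pr D)) + A 2 * conj (D 2) * u.H (pr B) (sh (pr C))
        + B 2 * conj (C 2) * u.H (pr A) (sh (pr D)) + B 2 * conj (D 2) * u.H (pr A) (sh (pr C)))
      - δ * (th w : ℂ) ^ 2 *
      (A 2 * conj (C 2) * u.H (pr B) (pr D) + A 2 * conj (D 2) * u.H (pr B) (pr C)
        + B 2 * conj (C 2) * u.H (pr A) (pr D) + B 2 * conj (D 2) * u.H (pr A) (pr C))) * e2

end
end Crest.Agent.R245
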