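import Crest.Agent.R245.Alg0

/-! Row 245: automorphisms of the ball (algebra). -/

open Complex Filter Topology Set Metric Matrix
open scoped ComplexConjugate ContDiff

namespace Crest.Agent.R245
noncomputable section

theorem frame_nsq (x : E2) : nsq x = ‖x 0‖ ^ 2 + ‖x 1‖ ^ 2 := Fin.sum_univ_two _

theorem frame_nsqC (x : E2) : ((nsq x : ℝ) : ℂ) = x 0 * conj (x 0) + x 1 * conj (x 1) := by
  simp [frame_nsq, mul_conj']

theorem frame_pos {b : ℂ} (hb : ‖b‖ < 1) : 0 < 1 - ‖b‖ ^ 2 :=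
  sub_pos.2 ((sq_lt_one_iff₀ (norm_nonneg _)).2 hb)

theorem frame_nsq1 {b : ℂ} (hb : ‖b‖ < 1) : ‖(sq1 b : ℂ)‖ ^ 2 = 1 - ‖b‖ ^ 2 := by
  rw [norm_real, Real.norm_eq_abs, sq_abs, sq1, Real.sq_sqrt (frame_pos hb).le]

theorem frame_sq1 {b : ℂ} (hb : ‖b‖ < 1) : (sq1 b : ℂ) ≠ 0 ∧ (sq1 b : ℂ) ^ 2 = 1 - b * conj b := by
  refine ⟨ofReal_ne_zero.2 (Real.sqrt_pos.2 (frame_pos hb)).ne', ?_⟩
  rw [mul_conj']
  exact_mod_cast Real.sq_sqrt (frame_pos hb).le

theorem frame_mulVec (M : M3) (y : E2) (j : Fin 3) :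
    (M *ᵥ hat y) j = M j 0 + M j 1 * y 0 + M j 2 * y 1 := by
  simp [mulVec, dotProduct, Fin.sum_univ_three, hat]

theorem frame_row (M : M3) (i j : Fin 3) : (M * Jm * Mᴴ) i j =
    M i 0 * conj (M j 0) - M i 1 * conj (M j 1) - M i 2 * conj (M j 2) := by
  simp [Jm, Matrix.mul_apply, Fin.sum_univ_three, Matrix.diagonal]; ring

theorem frame_mob (a y : ℂ) : mob a y = tau (-a) y := by simp [mob, tau, sub_eq_add_neg]

theorem frame_ne {v y : E2} (hv : nsq v ≤ 1) (hy : y ∈ B2) : 1 + (v 0 * y 0 + v 1 * y 1) ≠ 0 :=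
  fun h => by
  have h1 := congrArg norm (neg_eq_of_add_eq_zero_left h)
  have h2 := norm_add_le (v 0 * y 0) (v 1 * y 1)
  simp only [B2, mem_ofPred_eq, frame_nsq, norm_neg, norm_one, norm_mul] at *
  nlinarith [sq_nonneg (‖v 0‖ - ‖y 0‖), sq_nonneg (‖v 1‖ - ‖y 1‖)]

theorem IsU.form {M : M3} (hM : IsU M) (y : E2) :
    ‖(M *ᵥ hat y) 0‖ ^ 2 - ‖(M *ᵥ hat y) 1‖ ^ 2 - ‖(M *ᵥ hat y) 2‖ ^ 2 = 1 - nsq y := by
  have q : ∀ x : Fin 3 → ℂ, star x ⬝ᵥ Jm *ᵥ x = ((‖x 0‖ ^ 2 - ‖x 1‖ ^ 2 - ‖x 2‖ ^ 2 : ℝ) : ℂ) :=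
    fun x => by
      simp [Jm, dotProduct, Fin.sum_univ_three, mulVec_diagonal, conj_mul']; ring
  apply ofReal_injective
  rw [← q, star_mulVec, ← dotProduct_mulVec, mulVec_mulVec, mulVec_mulVec, hM, q, frame_nsq]
  simp [hat]; ring

theorem isOpen_B2 : IsOpen B2 :=
  isOpen_lt (by unfold nsq; fun_prop) continuous_const

theorem zero_mem_B2 : (0 : E2) ∈ B2 := by simp [B2, nsq]

theorem convex_B2 : Convex ℝ B2 := by
  intro x hx y hy a b ha hb hab
  simp only [B2, mem_ofPred_eq, frame_nsq] at hx hy ⊢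
  have h : ∀ i, ‖(a • x + b • y) i‖ ^ 2 ≤ a * ‖x i‖ ^ 2 + b * ‖y i‖ ^ 2 := fun i => by
    have h1 : ‖(a • x + b • y) i‖ ≤ a * ‖x i‖ + b * ‖y i‖ := by
      simpa [abs_of_nonneg ha, abs_of_nonneg hb] using norm_add_le (a • x i) (b • y i)
    have h2 := pow_le_pow_left₀ (norm_nonneg _) h1 2
    obtain rfl : b = 1 - a := by linarith
    nlinarith [mul_nonneg (mul_nonneg ha hb) (sq_nonneg (‖x i‖ - ‖y i‖))]
  have h0 := h 0
  have h1 := h 1
  rcases ha.eq_or_lt with rfl | ha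
  · obtain rfl : b = 1 := by linarith
    linarith
  · nlinarith

theorem norm_lt_one_of_mem {z : E2} (hz : z ∈ B2) (i : Fin 2) : ‖z i‖ < 1 := by
  simp only [B2, mem_ofPred_eq, frame_nsq] at hz
  rw [← sq_lt_one_iff₀ (norm_nonneg _)]
  fin_cases i <;> simp <;> nlinarith [sq_nonneg ‖z 0‖, sq_nonneg ‖z 1‖]

theorem sig_le_psi {z : E2} (hz : z ∈ B2) : sig z ≤ psi z := by
  simp only [B2, mem_ofPred_eq, frame_nsq] at hz
  simp only [sig, psi, frame_nsq, neg_le_neg_iff]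
  exact Real.log_le_log (by linarith) (by nlinarith [sq_nonneg ‖z 1‖])

theorem sig_nonneg {z : E2} (hz : z ∈ B2) : 0 ≤ sig z := by
  have := frame_pos (norm_lt_one_of_mem hz 0)
  exact neg_nonneg.2 (Real.log_nonpos this.le (by nlinarith [sq_nonneg ‖z 0‖]))


theorem IsU.mul {M N : M3} (hM : IsU M) (hN : IsU N) : IsU (M * N) := by
  unfold IsU at *
  rw [conjTranspose_mul, show Nᴴ * Mᴴ * Jm * (M * N) = Nᴴ * (Mᴴ * Jm * M) * N by
    simp only [Matrix.mul_assoc], hM, hN]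

theorem IsU.row {M : M3} (hM : IsU M) : M * Jm * Mᴴ = Jm := by
  have hJ : Jm * Jm = 1 := by
    ext i j; fin_cases i <;> fin_cases j <;> simp [Jm]
  have h : Jm * Mᴴ * Jm * M = 1 := by
    rw [Matrix.mul_assoc, Matrix.mul_assoc, ← Matrix.mul_assoc Mᴴ, hM, hJ]
  have h2 := congrArg (· * Jm) (mul_eq_one_comm.1 h)
  simpa only [Matrix.mul_assoc, hJ, Matrix.mul_one, Matrix.one_mul] using h2

theorem isU_one : IsU 1 := by simp [IsU]

theorem isU_Km {b : ℂ} (hb : ‖b‖ < 1) : IsU (Km b) := by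
  obtain ⟨h0, h1⟩ := frame_sq1 hb
  ext i j
  fin_cases i <;> fin_cases j <;>
    simp [Km, Jm, Matrix.mul_apply, Fin.sum_univ_three, Matrix.diagonal] <;> field_simp <;>
    first | ring1 | linear_combination h1 | linear_combination -h1

theorem isU_Kinv {b : ℂ} (hb : ‖b‖ < 1) : IsU (Kinv b) := by
  obtain ⟨h0, h1⟩ := frame_sq1 hb
  ext i j
  fin_cases i <;> fin_cases j <;>
    simp [Kinv, Jm, Matrix.mul_apply, Fin.sum_univ_three, Matrix.diagonal] <;> field_simp <;>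
    first | ring1 | linear_combination h1 | linear_combination -h1

theorem isU_Sw : IsU Sw := by
  ext i j
  fin_cases i <;> fin_cases j <;>
    simp [Sw, Jm, Matrix.mul_apply, Fin.sum_univ_three, Matrix.diagonal]

theorem IsU.den_ne {M : M3} (hM : IsU M) {y : E2} (hy : y ∈ B2) : (M *ᵥ hat y) 0 ≠ 0 := fun h => by
  have := hM.form y
  have : nsq y < 1 := hy
  rw [h] at *
  simp at *
  nlinarith [sq_nonneg ‖(M *ᵥ hat y) 1‖, sq_nonneg ‖(M *ᵥ hat y) 2‖]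

theorem IsU.one_sub_nsq {M : M3} (hM : IsU M) {y : E2} (hy : y ∈ B2) :
    1 - nsq (act M y) = (1 - nsq y) / ‖(M *ᵥ hat y) 0‖ ^ 2 := by
  have h := norm_ne_zero_iff.2 (hM.den_ne hy)
  rw [← hM.form y, frame_nsq]
  simp only [act, cons_val_zero, cons_val_one, norm_div]
  field_simp
  ring

theorem IsU.act_mem {M : M3} (hM : IsU M) {y : E2} (hy : y ∈ B2) : act M y ∈ B2 := by
  have h := norm_pos_iff.2 (hM.den_ne hy)
  have h1 : 0 < 1 - nsq y := sub_pos.2 hy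
  exact sub_pos.1 ((hM.one_sub_nsq hy).symm ▸ div_pos h1 (by positivity))

theorem act_mul (M : M3) {N : M3} (hN : IsU N) {y : E2} (hy : y ∈ B2) :
    act (M * N) y = act M (act N y) := by
  have h := hN.den_ne hy
  have e : N *ᵥ hat y = (N *ᵥ hat y) 0 • hat (act N y) := by
    funext i; fin_cases i <;> simp [hat, act] <;> rw [mul_div_cancel₀] <;> simpa [hat] using h
  have e2 : (M * N) *ᵥ hat y = (N *ᵥ hat y) 0 • M *ᵥ hat (act N y) := by
    rw [← mulVec_mulVec, ← mulVec_smul, ← e]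
  conv_lhs => rw [act, e2]
  simp only [Pi.smul_apply, smul_eq_mul, mul_div_mul_left _ _ h]
  rfl

theorem act_one (y : E2) : act 1 y = y := by
  funext i; fin_cases i <;> simp [act, hat]

theorem IsU.analyticAt {M : M3} (hM : IsU M) {y : E2} (hy : y ∈ B2) :
    AnalyticAt ℂ (act M) y := by
  have h := hM.den_ne hy
  have a : ∀ j, AnalyticAt ℂ (fun y : E2 => (M *ᵥ hat y) j) y := fun j => by
    have p := fun k => (ContinuousLinearMap.proj (R := ℂ) (φ := fun _ : Fin 2 => ℂ) k).analyticAt y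
    simp only [frame_mulVec]
    exact (analyticAt_const.add (analyticAt_const.mul (p 0))).add (analyticAt_const.mul (p 1))
  refine analyticAt_pi_iff.2 fun i => ?_
  fin_cases i
  exacts [(a 1).div (a 0) h, (a 2).div (a 0) h]

theorem act_Km {b : ℂ} (hb : ‖b‖ < 1) (z : E2) : act (Km b) z = kap b z := by
  obtain ⟨h0, -⟩ := frame_sq1 hb
  funext i
  fin_cases i <;> simp [act, frame_mulVec, Km, kap, mob] <;>
    rw [← mul_div_mul_left _ _ h0] <;> congr 1 <;> field_simp <;> ring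

theorem act_Kinv {b : ℂ} (hb : ‖b‖ < 1) (z : E2) : act (Kinv b) z = kapInv b z := by
  obtain ⟨h0, -⟩ := frame_sq1 hb
  funext i
  fin_cases i <;> simp [act, frame_mulVec, Kinv, kapInv, tau] <;>
    rw [← mul_div_mul_left _ _ h0] <;> congr 1 <;> field_simp <;> ring

theorem act_Sw (z : E2) : act Sw z = swp z := by
  funext i; fin_cases i <;> simp [act, frame_mulVec, Sw, swp]

theorem Km_mul_Kinv {b : ℂ} (hb : ‖b‖ < 1) : Km b * Kinv b = 1 := by
  obtain ⟨h0, h1⟩ := frame_sq1 hb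
  ext i j
  fin_cases i <;> fin_cases j <;>
    simp [Km, Kinv, Matrix.mul_apply, Fin.sum_univ_three] <;> field_simp <;>
    first | ring1 | linear_combination h1 | linear_combination -h1

theorem Kinv_mul_Km {b : ℂ} (hb : ‖b‖ < 1) : Kinv b * Km b = 1 :=
  mul_eq_one_comm.1 (Km_mul_Kinv hb)

theorem kap_mem {b : ℂ} (hb : ‖b‖ < 1) {z : E2} (hz : z ∈ B2) : kap b z ∈ B2 :=
  act_Km hb z ▸ (isU_Km hb).act_mem hz

theorem kapInv_mem {b : ℂ} (hb : ‖b‖ < 1) {z : E2} (hz : z ∈ B2) : kapInv b z ∈ B2 :=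
  act_Kinv hb z ▸ (isU_Kinv hb).act_mem hz

theorem kap_kapInv {b : ℂ} (hb : ‖b‖ < 1) {z : E2} (hz : z ∈ B2) : kap b (kapInv b z) = z := by
  rw [← act_Km hb, ← act_Kinv hb, ← act_mul _ (isU_Kinv hb) hz, Km_mul_Kinv hb, act_one]

theorem kapInv_kap {b : ℂ} (hb : ‖b‖ < 1) {z : E2} (hz : z ∈ B2) : kapInv b (kap b z) = z := by
  rw [← act_Kinv hb, ← act_Km hb, ← act_mul _ (isU_Km hb) hz, Kinv_mul_Km hb, act_one]

theorem exists_frame {x : E2} (hx : x ∈ B2) : ∃ M, IsU M ∧ act M 0 = x := by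
  have h1 := norm_lt_one_of_mem hx 1
  have h2 := norm_lt_one_of_mem (kap_mem h1 hx) 1
  refine ⟨Kinv (x 1) * Kinv (kap (x 1) x 1), (isU_Kinv h1).mul (isU_Kinv h2), ?_⟩
  rw [act_mul _ (isU_Kinv h2) zero_mem_B2, act_Kinv h1, act_Kinv h2]
  conv_rhs => rw [← kapInv_kap h1 hx]
  congr 1
  funext i
  fin_cases i <;> simp [kapInv, tau, kap, mob]


theorem one_add_conj_mul_ne {a y : ℂ} (ha : ‖a‖ < 1) (hy : ‖y‖ < 1) : 1 + conj a * y ≠ 0 := fun h => by
  have := congrArg norm (neg_eq_of_add_eq_zero_left h)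
  simp at this
  nlinarith [norm_nonneg a, norm_nonneg y]

theorem one_sub_conj_mul_ne {a y : ℂ} (ha : ‖a‖ < 1) (hy : ‖y‖ < 1) : 1 - conj a * y ≠ 0 := by
  simpa [sub_eq_add_neg] using one_add_conj_mul_ne ha (y := -y) (by simpa)

theorem one_sub_norm_tau {a y : ℂ} (ha : ‖a‖ < 1) (hy : ‖y‖ < 1) :
    1 - ‖tau a y‖ ^ 2 = (1 - ‖a‖ ^ 2) * (1 - ‖y‖ ^ 2) / ‖1 + conj a * y‖ ^ 2 := by
  have h := norm_ne_zero_iff.2 (one_add_conj_mul_ne ha hy)
  rw [tau, norm_div, div_pow, one_sub_div (by positivity)]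
  congr 1
  simp only [Complex.sq_norm, normSq_apply]
  simp
  ring

theorem norm_tau_lt {a y : ℂ} (ha : ‖a‖ < 1) (hy : ‖y‖ < 1) : ‖tau a y‖ < 1 := by
  have h := norm_pos_iff.2 (one_add_conj_mul_ne ha hy)
  have h1 := frame_pos ha
  have h2 := frame_pos hy
  rw [← sq_lt_one_iff₀ (norm_nonneg _), ← sub_pos, one_sub_norm_tau ha hy]
  positivity

theorem norm_mob_lt {a y : ℂ} (ha : ‖a‖ < 1) (hy : ‖y‖ < 1) : ‖mob a y‖ < 1 := by
  rw [frame_mob]; exact norm_tau_lt (by simpa) hy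

theorem tau_mob {a y : ℂ} (ha : ‖a‖ < 1) (hy : ‖y‖ < 1) : tau a (mob a y) = y := by
  have h := one_sub_conj_mul_ne ha hy
  have h2 := one_add_conj_mul_ne ha (norm_mob_lt ha hy)
  rw [tau, div_eq_iff h2, mob]
  rw [mul_comm] at h
  field_simp
  ring

theorem mob_tau {a y : ℂ} (ha : ‖a‖ < 1) (hy : ‖y‖ < 1) : mob a (tau a y) = y := by
  simpa [frame_mob] using tau_mob (a := -a) (by simpa) hy

theorem tau_zero (a : ℂ) : tau a 0 = a := by simp [tau]

theorem norm_mob_sub_mob {b ζ ζ' : ℂ} (hb : ‖b‖ < 1) (h : ‖ζ‖ < 1) (h' : ‖ζ'‖ < 1) :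
    ‖mob b ζ - mob b ζ'‖ ≤ ‖ζ - ζ'‖ / ((1 - ‖ζ‖) * (1 - ‖ζ'‖)) := by
  have h1 := one_sub_conj_mul_ne hb h
  have h2 := one_sub_conj_mul_ne hb h'
  have e : mob b ζ - mob b ζ' =
      (1 - b * conj b) * (ζ - ζ') / ((1 - conj b * ζ) * (1 - conj b * ζ')) := by
    rw [mob, mob, div_sub_div _ _ h1 h2]; congr 1; ring
  have l : ∀ {ζ : ℂ}, 1 - ‖ζ‖ ≤ ‖1 - conj b * ζ‖ := fun {ζ} => by
    have := norm_sub_norm_le 1 (conj b * ζ)
    simp only [norm_one, norm_mul, norm_conj] at this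
    nlinarith [norm_nonneg ζ]
  have n : ‖1 - b * conj b‖ ≤ 1 := by
    rw [mul_conj', ← ofReal_pow, ← ofReal_one, ← ofReal_sub, norm_real,
      Real.norm_of_nonneg (frame_pos hb).le]
    nlinarith [sq_nonneg ‖b‖]
  rw [e, norm_div, norm_mul, norm_mul]
  exact div_le_div₀ (norm_nonneg _) (mul_le_of_le_one_left (norm_nonneg _) n)
    (mul_pos (sub_pos.2 h) (sub_pos.2 h')) (mul_le_mul l l (sub_pos.2 h').le (norm_nonneg _))

theorem one_sub_nsq_kapInv {b : ℂ} (hb : ‖b‖ < 1) {z : E2} (hz : z ∈ B2) :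
    1 - nsq (kapInv b z) = (1 - ‖b‖ ^ 2) * (1 - nsq z) / ‖1 + conj b * z 0‖ ^ 2 := by
  have h := norm_ne_zero_iff.2 (one_add_conj_mul_ne hb (norm_lt_one_of_mem hz 0))
  rw [frame_nsq, sub_add_eq_sub_sub_swap, frame_nsq]
  simp only [kapInv, cons_val_zero, cons_val_one]
  rw [one_sub_norm_tau hb (norm_lt_one_of_mem hz 0), norm_div, norm_mul, div_pow, mul_pow,
    frame_nsq1 hb]
  ring

theorem psi_kapInv {b : ℂ} (hb : ‖b‖ < 1) {z : E2} (hz : z ∈ B2) :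
    psi (kapInv b z) = psi z - Real.log (1 - ‖b‖ ^ 2) + 2 * Real.log ‖1 + conj b * z 0‖ := by
  have h := norm_ne_zero_iff.2 (one_add_conj_mul_ne hb (norm_lt_one_of_mem hz 0))
  have h1 := (frame_pos hb).ne'
  have h2 : 1 - nsq z ≠ 0 := (sub_pos.2 hz).ne'
  rw [psi, psi, one_sub_nsq_kapInv hb hz, Real.log_div (by positivity) (by positivity),
    Real.log_mul h1 h2, Real.log_pow]
  push_cast; ring

theorem norm_kap_one_sq_le {b : ℂ} (hb : ‖b‖ < 1) {z : E2} (hz : ‖z 1‖ < 1) :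
    ‖kap b z 1‖ ^ 2 ≤ ‖z 0‖ ^ 2 / (1 - ‖z 1‖ ^ 2) := by
  have h := norm_pos_iff.2 (one_sub_conj_mul_ne hb hz)
  have h1 := frame_pos hz
  have h2 := one_sub_norm_tau (a := -b) (by simpa) hz
  simp only [map_neg, neg_mul, norm_neg, ← sub_eq_add_neg] at h2
  have h3 : (1 - ‖b‖ ^ 2) * (1 - ‖z 1‖ ^ 2) ≤ ‖1 - conj b * z 1‖ ^ 2 := by
    rw [← div_le_one (by positivity), ← h2]; nlinarith [sq_nonneg ‖tau (-b) (z 1)‖]
  simp only [kap, cons_val_zero, cons_val_one]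
  rw [norm_div, norm_mul, div_pow, mul_pow, frame_nsq1 hb, div_le_div_iff₀ (by positivity) h1]
  nlinarith [sq_nonneg ‖z 0‖]

/-- the ratio `(1-|z|²)/(1-|z₁|²)` in child coordinates -/
theorem ratio_kap {b : ℂ} (hb : ‖b‖ < 1) {z : E2} (hz : z ∈ B2) :
    (1 - nsq z) / (1 - ‖z 1‖ ^ 2) = (1 - nsq (kap b z)) / (1 - ‖kap b z 0‖ ^ 2) := by
  have hz1 := norm_lt_one_of_mem hz 1
  have h := norm_ne_zero_iff.2 (one_sub_conj_mul_ne hb hz1)
  have h0 := (frame_pos hb).ne'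
  have h1 := (frame_pos hz1).ne'
  have h2 := one_sub_norm_tau (a := -b) (by simpa) hz1
  simp only [map_neg, neg_mul, norm_neg, ← sub_eq_add_neg, ← frame_mob] at h2
  rw [frame_nsq (kap b z), sub_add_eq_sub_sub, frame_nsq]
  simp only [kap, cons_val_zero, cons_val_one]
  rw [h2, norm_div, norm_mul, div_pow, mul_pow, frame_nsq1 hb]
  field_simp
  ring


/-- a coordinate of a frame map is a disc automorphism of a small linear fractional function -/
theorem IsU.coord_eq {M : M3} (hM : IsU M) (i : Fin 2) :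
    ∃ v v' : E2, nsq v = (1 - nsq (act M 0)) / (1 - ‖act M 0 i‖ ^ 2) ∧ nsq v' ≤ 1 ∧
      ∀ y ∈ B2, 1 + (v' 0 * y 0 + v' 1 * y 1) ≠ 0 ∧
        act M y i = tau (act M 0 i) ((v 0 * y 0 + v 1 * y 1) / (1 + (v' 0 * y 0 + v' 1 * y 1))) := by
  have hb := hM.den_ne zero_mem_B2
  have ha := norm_lt_one_of_mem (hM.act_mem zero_mem_B2) i
  have h1 := hM.one_sub_nsq zero_mem_B2
  have e : ∀ y, act M y i = (M *ᵥ hat y) i.succ / (M *ᵥ hat y) 0 := fun y => by fin_cases i <;> rfl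
  have r0 := congrFun₂ hM.row 0 0
  have r1 := congrFun₂ hM.row i.succ i.succ
  have r2 := congrFun₂ hM.row i.succ 0
  have r3 := congrFun₂ hM.row 0 i.succ
  rw [frame_row] at r0 r1 r2 r3
  rw [show Jm i.succ i.succ = -1 by fin_cases i <;> simp [Jm]] at r1
  rw [show Jm i.succ 0 = 0 by fin_cases i <;> simp [Jm]] at r2
  rw [show Jm 0 i.succ = 0 by fin_cases i <;> simp [Jm]] at r3
  rw [show Jm 0 0 = 1 by simp [Jm]] at r0
  have ea := e 0
  rw [h1]
  simp only [frame_mulVec, Pi.zero_apply, mul_zero, add_zero] at hb ea ⊢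
  generalize act M 0 i = a at ha ea
  have ea' : M i.succ 0 = a * M 0 0 := by rw [ea]; field_simp
  have hD := frame_pos ha
  have hD' : 1 - a * conj a ≠ 0 := by
    rw [mul_conj']; exact_mod_cast hD.ne'
  have hb' : conj (M 0 0) ≠ 0 := by simpa using hb
  have hD'' : 1 - conj a * a ≠ 0 := by rwa [mul_comm]
  rw [ea', map_mul] at r1
  rw [ea'] at r2
  rw [ea', map_mul] at r3
  set v' : E2 := fun j => (M 0 j.succ - conj a * M i.succ j.succ) / (M 0 0 * (1 - a * conj a))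
    with hv'
  have n' : nsq v' ≤ 1 := by
    have : nsq v' = 1 - 1 / ‖M 0 0‖ ^ 2 / (1 - ‖a‖ ^ 2) := by
      apply ofReal_injective
      rw [frame_nsqC]
      push_cast
      simp only [hv', ← mul_conj', map_div₀, map_mul, map_sub, map_one, conj_conj, mul_comm (conj a) a,
        Fin.succ_zero_eq_one, Fin.succ_one_eq_two]
      field_simp
      linear_combination (-1 : ℂ) * r0 - a * conj a * r1 + conj a * r2 + a * r3
    rw [this]
    exact sub_le_self _ (by positivity)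
  refine ⟨fun j => (M i.succ j.succ - a * M 0 j.succ) / (M 0 0 * (1 - a * conj a)), v', ?_, n',
    fun y hy => ⟨frame_ne n' hy, ?_⟩⟩
  · apply ofReal_injective
    rw [frame_nsqC]
    simp only [nsq, Pi.zero_apply, norm_zero]
    push_cast
    simp only [← mul_conj', map_div₀, map_mul, map_sub, map_one, conj_conj, mul_comm (conj a) a]
    field_simp
    simp
    linear_combination (-1 : ℂ) * r1 - a * conj a * r0 + conj a * r2 + a * r3
  · have h2 := frame_ne n' hy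
    have h3 := hM.den_ne hy
    rw [e, tau, div_add' _ _ _ h2, ← mul_div_assoc, add_div' _ _ _ h2, div_div_div_cancel_right₀ h2,
      ← div_div_div_cancel_right₀ hb, frame_mulVec, frame_mulVec, ea']
    simp only [hv', Fin.succ_zero_eq_one, Fin.succ_one_eq_two]
    congr 1 <;> field_simp <;> ring

theorem IsU.psi_eq {M : M3} (hM : IsU M) :
    ∃ v : E2, nsq v ≤ 1 ∧ ∀ y ∈ B2, 1 + (v 0 * y 0 + v 1 * y 1) ≠ 0 ∧
      psi (act M y) = psi (act M 0) + psi y + 2 * Real.log ‖1 + (v 0 * y 0 + v 1 * y 1)‖ := by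
  have hb := hM.den_ne zero_mem_B2
  have h1 := hM.one_sub_nsq zero_mem_B2
  have r0 := congrFun₂ hM.row 0 0
  rw [frame_row, show Jm 0 0 = 1 by simp [Jm], mul_conj', mul_conj', mul_conj'] at r0
  simp only [frame_mulVec, Pi.zero_apply, mul_zero, add_zero] at hb h1
  have r : ‖M 0 0‖ ^ 2 - ‖M 0 1‖ ^ 2 - ‖M 0 2‖ ^ 2 = 1 := by exact_mod_cast r0
  have hb' := norm_pos_iff.2 hb
  have n : nsq (fun j : Fin 2 => M 0 j.succ / M 0 0) ≤ 1 := by
    simp only [frame_nsq, norm_div, div_pow, ← add_div, Fin.succ_zero_eq_one, Fin.succ_one_eq_two]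
    rw [div_le_one (by positivity)]; linarith
  refine ⟨_, n, fun y hy => ⟨frame_ne n hy, ?_⟩⟩
  have h2 := norm_ne_zero_iff.2 (frame_ne n hy)
  have h3 : 1 - nsq y ≠ 0 := (sub_pos.2 hy).ne'
  have e : (M *ᵥ hat y) 0 = M 0 0 * (1 + (M 0 (Fin.succ 0) / M 0 0 * y 0 +
      M 0 (Fin.succ 1) / M 0 0 * y 1)) := by
    simp only [frame_mulVec, Fin.succ_zero_eq_one, Fin.succ_one_eq_two]; field_simp; ring
  rw [psi, psi, psi, hM.one_sub_nsq hy, h1, e, norm_mul, Real.log_div h3 (by positivity),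
    Real.log_div (by simp [nsq]) (by positivity), Real.log_pow, Real.log_pow, Real.log_mul hb'.ne' h2]
  simp [nsq]; ring


end
end Crest.Agent.R245
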