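import Crest.Agent.R245.Wirt
import Crest.Agent.R245.Frame

/-! Row 245: parametrisations and compactness. -/

open Complex Filter Topology Set Metric Matrix
open scoped ComplexConjugate ContDiff

namespace Crest.Agent.R245
noncomputable section

theorem ball_nsq_nonneg {n : ℕ} (x : Fin n → ℂ) : 0 ≤ nsq x :=
  Finset.sum_nonneg fun _ _ => sq_nonneg _
theorem ball_contDiff_nsq {n : ℕ} : ContDiff ℝ ∞ (nsq : (Fin n → ℂ) → ℝ) :=
  ContDiff.sum fun i _ => (contDiff_apply ℝ ℂ i).norm_sq ℝ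
theorem ball_nsq_smul {n : ℕ} (c : ℝ) (x : Fin n → ℂ) : nsq (c • x) = c ^ 2 * nsq x := by
  simp only [nsq, Finset.mul_sum, Pi.smul_apply, norm_smul, mul_pow, Real.norm_eq_abs, sq_abs]
theorem ball_nsq_toBall {n : ℕ} (x : Fin n → ℂ) : nsq (toBall x) = nsq x / (1 + nsq x) := by
  have := ball_nsq_nonneg x
  rw [toBall, ball_nsq_smul, inv_pow, Real.sq_sqrt (by linarith), inv_mul_eq_div]
theorem ball_nsq_ofBall {n : ℕ} {x : Fin n → ℂ} (hx : nsq x < 1) :
    nsq (ofBall x) = nsq x / (1 - nsq x) := by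
  rw [ofBall, ball_nsq_smul, inv_pow, Real.sq_sqrt (by linarith), inv_mul_eq_div]
theorem ball_nsq3 (p : E3) : nsq p = nsq (pr p) + ‖p 2‖ ^ 2 := by
  simp [nsq, pr, Fin.sum_univ_three, Fin.sum_univ_two]
theorem ball_pr_mk3 (z : E2) (w : ℂ) : pr (mk3 z w) = z := by
  ext i; fin_cases i <;> simp [pr, mk3]
theorem ball_mk3_two (z : E2) (w : ℂ) : mk3 z w 2 = w := by simp [mk3]
theorem ball_mk3_pr (p : E3) : mk3 (pr p) (p 2) = p := by
  ext i; fin_cases i <;> simp [pr, mk3]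

theorem contDiff_toBall {n : ℕ} : ContDiff ℝ ∞ (toBall : (Fin n → ℂ) → (Fin n → ℂ)) := by
  have h : ∀ x : Fin n → ℂ, 0 < 1 + nsq x := fun x => by linarith [ball_nsq_nonneg x]
  exact (((contDiff_const.add ball_contDiff_nsq).sqrt fun x => (h x).ne').inv
    fun x => (Real.sqrt_pos.2 (h x)).ne').smul contDiff_id
theorem contDiffOn_ofBall {n : ℕ} :
    ContDiffOn ℝ ∞ (ofBall : (Fin n → ℂ) → (Fin n → ℂ)) {x | nsq x < 1} := by
  have h : ∀ x ∈ {x : Fin n → ℂ | nsq x < 1}, 0 < 1 - nsq x := fun x hx => sub_pos.2 hx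
  exact (((contDiff_const.sub ball_contDiff_nsq).contDiffOn.sqrt fun x hx => (h x hx).ne').inv
    fun x hx => (Real.sqrt_pos.2 (h x hx)).ne').smul contDiffOn_id
theorem nsq_toBall_lt {n : ℕ} (x : Fin n → ℂ) : nsq (toBall x) < 1 := by
  have := ball_nsq_nonneg x
  rw [ball_nsq_toBall, div_lt_one (by linarith)]
  linarith
theorem ofBall_toBall {n : ℕ} (x : Fin n → ℂ) : ofBall (toBall x) = x := by
  have h := ball_nsq_nonneg x
  have e : 1 - nsq x / (1 + nsq x) = (1 + nsq x)⁻¹ := by field_simp; ring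
  rw [ofBall, ball_nsq_toBall, e, Real.sqrt_inv, inv_inv, toBall, smul_smul,
    mul_inv_cancel₀ (Real.sqrt_pos.2 (by linarith)).ne', one_smul]
theorem toBall_ofBall {n : ℕ} {x : Fin n → ℂ} (hx : nsq x < 1) : toBall (ofBall x) = x := by
  have h : 0 < 1 - nsq x := sub_pos.2 hx
  have e : 1 + nsq x / (1 - nsq x) = (1 - nsq x)⁻¹ := by field_simp; ring
  rw [toBall, ball_nsq_ofBall hx, e, Real.sqrt_inv, inv_inv, ofBall, smul_smul,
    mul_inv_cancel₀ (Real.sqrt_pos.2 h).ne', one_smul]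
theorem continuous_nsq {n : ℕ} : Continuous (nsq : (Fin n → ℂ) → ℝ) := ball_contDiff_nsq.continuous
theorem contDiff_nsq {n : ℕ} : ContDiff ℝ ∞ (nsq : (Fin n → ℂ) → ℝ) := ball_contDiff_nsq
theorem contDiff_pr : ContDiff ℝ ∞ pr := by
  refine contDiff_pi.2 fun i => ?_
  fin_cases i
  · exact contDiff_apply ℝ ℂ 0
  · exact contDiff_apply ℝ ℂ 1

theorem ball_contDiffOn_upr {u : E2 → ℝ} (hu : ∀ z ∈ B2, Sm u z) :
    ContDiffOn ℝ ∞ (fun p => u (pr p)) (pr ⁻¹' B2) := fun p hp =>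
  ((hu _ hp).self_of_nhds.comp p contDiff_pr.contDiffAt).contDiffWithinAt
theorem ball_contDiffOn_tt {u : E2 → ℝ} (hu : ∀ z ∈ B2, Sm u z) :
    ContDiffOn ℝ ∞ (tt u) (pr ⁻¹' B2) :=
  ((contDiff_apply ℝ ℂ 2).norm_sq ℝ).contDiffOn.mul (ball_contDiffOn_upr hu).exp

theorem isOpen_dom {u : E2 → ℝ} (hu : ∀ z ∈ B2, Sm u z) : IsOpen (dom u) :=
  (ball_contDiffOn_tt hu).continuousOn.isOpen_inter_preimage
    ((isOpen_lt continuous_nsq continuous_const).preimage contDiff_pr.continuous) isOpen_Iio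
theorem isCompact_sub {u : E2 → ℝ} (hu : ∀ z ∈ B2, Sm u z) {r t : ℝ} (hr : r < 1) :
    IsCompact {p : E3 | nsq (pr p) ≤ r ∧ tt u p ≤ t} := by
  have hcl : IsClosed {z : E2 | nsq z ≤ r} := isClosed_le continuous_nsq continuous_const
  have hco : ∀ z : E2, nsq z ≤ r → ∀ i, ‖z i‖ ≤ 1 := by
    intro z hz i
    have h1 : ‖z i‖ ^ 2 ≤ nsq z :=
      Finset.single_le_sum (f := fun i => ‖z i‖ ^ 2) (fun _ _ => sq_nonneg _) (Finset.mem_univ i)
    nlinarith [norm_nonneg (z i)]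
  have hK : IsCompact {z : E2 | nsq z ≤ r} :=
    Metric.isCompact_of_isClosed_isBounded hcl (isBounded_iff_forall_norm_le.2
      ⟨1, fun z hz => (pi_norm_le_iff_of_nonneg zero_le_one).2 (hco z hz)⟩)
  have hsub : {z : E2 | nsq z ≤ r} ⊆ B2 := fun z hz => lt_of_le_of_lt hz hr
  obtain ⟨M, hM⟩ := hK.exists_bound_of_continuousOn (f := u) fun z hz =>
    (hu z (hsub hz)).self_of_nhds.continuousAt.continuousWithinAt
  refine Metric.isCompact_of_isClosed_isBounded ?_ (isBounded_iff_forall_norm_le.2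
    ⟨1 + |t| * Real.exp M, fun p hp => ?_⟩)
  · exact ((ball_contDiffOn_tt hu).continuousOn.mono
      (preimage_mono hsub)).preimage_isClosed_of_isClosed (hcl.preimage contDiff_pr.continuous)
        isClosed_Iic
  · have h0 : 0 ≤ |t| * Real.exp M := by positivity
    refine (pi_norm_le_iff_of_nonneg (by linarith)).2 fun i => ?_
    fin_cases i
    · have := hco _ hp.1 0
      simp only [pr, Matrix.cons_val_zero] at this
      exact this.trans (by linarith)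
    · have := hco _ hp.1 1
      simp only [pr, Matrix.cons_val_one, Matrix.cons_val_zero] at this
      exact this.trans (by linarith)
    · have h1 := hp.2
      have h2 := neg_le_of_abs_le (hM _ hp.1)
      have h3 : 1 ≤ Real.exp (u (pr p)) * Real.exp M := by
        rw [← Real.exp_add]; exact Real.one_le_exp (by linarith)
      have h4 : ‖p 2‖ ^ 2 ≤ |t| * Real.exp M := by
        calc ‖p 2‖ ^ 2 ≤ ‖p 2‖ ^ 2 * (Real.exp (u (pr p)) * Real.exp M) :=
              le_mul_of_one_le_right (sq_nonneg _) h3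
          _ = tt u p * Real.exp M := by rw [tt]; ring
          _ ≤ |t| * Real.exp M := by gcongr; exact h1.trans (le_abs_self _)
      show ‖p 2‖ ≤ _
      nlinarith [norm_nonneg (p 2), sq_nonneg (‖p 2‖ - 1)]
theorem ball_tt_psi {p : E3} (hp : nsq (pr p) < 1) : tt psi p = ‖p 2‖ ^ 2 / (1 - nsq (pr p)) := by
  rw [tt, psi, Real.exp_neg, Real.exp_log (sub_pos.2 hp), div_eq_mul_inv]
theorem mem_dom_psi {p : E3} : p ∈ dom psi ↔ nsq p < 1 := by
  rw [ball_nsq3]
  constructor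
  · rintro ⟨h1, h2⟩
    rw [ball_tt_psi h1, div_lt_one (sub_pos.2 h1)] at h2
    linarith
  · intro h
    have h1 : nsq (pr p) < 1 := by linarith [sq_nonneg ‖p 2‖]
    refine ⟨h1, ?_⟩
    rw [ball_tt_psi h1, div_lt_one (sub_pos.2 h1)]
    linarith
theorem pot_psi {p : E3} (hp : nsq p < 1) :
    pot psi (fun _ => 1) psi p = -Real.log (1 - nsq p) := by
  rw [ball_nsq3] at hp ⊢
  have h1 : nsq (pr p) < 1 := by linarith [sq_nonneg ‖p 2‖]
  have h2 : 0 < 1 - nsq (pr p) := sub_pos.2 h1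
  have e : 1 - ‖p 2‖ ^ 2 / (1 - nsq (pr p)) = (1 - (nsq (pr p) + ‖p 2‖ ^ 2)) / (1 - nsq (pr p)) := by
    field_simp; ring
  rw [pot, ball_tt_psi h1, e, Real.log_div (by linarith) h2.ne', psi]
  ring
theorem ball_contDiffOn_mk3 {a : E3 → E2} {b : E3 → ℂ} {s : Set E3} (ha : ContDiffOn ℝ ∞ a s)
    (hb : ContDiffOn ℝ ∞ b s) : ContDiffOn ℝ ∞ (fun x => mk3 (a x) (b x)) s := by
  refine contDiffOn_pi.2 fun i => ?_
  fin_cases i
  · exact contDiffOn_pi.1 ha 0
  · exact contDiffOn_pi.1 ha 1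
  · exact hb
/-- the disc bundle is diffeomorphic to `ℂ³` -/
theorem exists_param {u : E2 → ℝ} (hu : ∀ z ∈ B2, Sm u z) :
    ∃ Θ Ψ : E3 → E3, ContDiff ℝ ∞ Θ ∧ ContDiffOn ℝ ∞ Ψ (dom u) ∧ Set.range Θ = dom u ∧
      ∀ x, Ψ (Θ x) = x := by
  set Θ : E3 → E3 := fun x => mk3 (toBall (pr x))
    (((Real.sqrt (1 + ‖x 2‖ ^ 2))⁻¹ * Real.exp (-(u (toBall (pr x)) / 2))) • x 2) with hΘ
  set Ψ : E3 → E3 := fun p => mk3 (ofBall (pr p))
    (((Real.sqrt (1 - tt u p))⁻¹ * Real.exp (u (pr p) / 2)) • p 2) with hΨ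
  have hexp : ∀ a : ℝ, Real.exp (a / 2) ^ 2 = Real.exp a := fun a => by
    rw [sq, ← Real.exp_add, add_halves]
  have htt : ∀ x, tt u (Θ x) = ‖x 2‖ ^ 2 / (1 + ‖x 2‖ ^ 2) := by
    intro x
    have h1 := Real.exp_pos (u (toBall (pr x)))
    simp only [tt, hΘ, ball_pr_mk3, ball_mk3_two, norm_smul, mul_pow, Real.norm_eq_abs, sq_abs,
      inv_pow, Real.exp_neg, hexp]
    rw [Real.sq_sqrt (by positivity)]
    field_simp
  have hn2 : ContDiff ℝ ∞ fun x : E3 => ‖x 2‖ ^ 2 := (contDiff_apply ℝ ℂ 2).norm_sq ℝ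
  refine ⟨Θ, Ψ, ?_, ?_, ?_, ?_⟩
  · have h1 : ContDiff ℝ ∞ fun x : E3 => toBall (pr x) := contDiff_toBall.comp contDiff_pr
    have h2 : ContDiff ℝ ∞ fun x : E3 => u (toBall (pr x)) := contDiff_iff_contDiffAt.2 fun x =>
      (hu _ (nsq_toBall_lt _)).self_of_nhds.comp x h1.contDiffAt
    have h3 : ∀ x : E3, 0 < 1 + ‖x 2‖ ^ 2 := fun x => by positivity
    rw [← contDiffOn_univ]
    refine ball_contDiffOn_mk3 h1.contDiffOn (ContDiff.contDiffOn ?_)
    exact ((((contDiff_const.add hn2).sqrt fun x => (h3 x).ne').inv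
      fun x => (Real.sqrt_pos.2 (h3 x)).ne').mul (h2.div_const 2).neg.exp).smul
        (contDiff_apply ℝ ℂ 2)
  · have hs : dom u ⊆ pr ⁻¹' B2 := fun p hp => hp.1
    have h3 : ∀ p ∈ dom u, 0 < 1 - tt u p := fun p hp => sub_pos.2 hp.2
    refine ball_contDiffOn_mk3 (contDiffOn_ofBall.comp contDiff_pr.contDiffOn fun p hp => hp.1) ?_
    exact ((((contDiffOn_const.sub ((ball_contDiffOn_tt hu).mono hs)).sqrt
      fun x hx => (h3 x hx).ne').inv fun x hx => (Real.sqrt_pos.2 (h3 x hx)).ne').mul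
        (((ball_contDiffOn_upr hu).mono hs).div_const 2).exp).smul
          (contDiff_apply ℝ ℂ 2).contDiffOn
  · refine Subset.antisymm ?_ fun p hp => ⟨Ψ p, ?_⟩
    · rintro _ ⟨x, rfl⟩
      refine ⟨?_, ?_⟩
      · simp only [hΘ, ball_pr_mk3]
        exact nsq_toBall_lt _
      · rw [htt, div_lt_one (by positivity)]
        linarith
    · have h3 : 0 < 1 - tt u p := sub_pos.2 hp.2
      have e : 1 + ‖((Real.sqrt (1 - tt u p))⁻¹ * Real.exp (u (pr p) / 2)) • p 2‖ ^ 2 =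
          (1 - tt u p)⁻¹ := by
        simp only [norm_smul, mul_pow, Real.norm_eq_abs, sq_abs, inv_pow, hexp]
        rw [Real.sq_sqrt h3.le, mul_assoc, mul_comm (Real.exp _), ← tt]
        field_simp
        ring
      simp only [hΘ, hΨ, ball_pr_mk3, ball_mk3_two, toBall_ofBall hp.1]
      rw [e, Real.sqrt_inv, inv_inv, smul_smul, Real.exp_neg]
      have h4 := Real.sqrt_pos.2 h3
      have h5 := Real.exp_pos (u (pr p) / 2)
      rw [show Real.sqrt (1 - tt u p) * (Real.exp (u (pr p) / 2))⁻¹ *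
        ((Real.sqrt (1 - tt u p))⁻¹ * Real.exp (u (pr p) / 2)) = 1 by field_simp, one_smul,
        ball_mk3_pr]
  · intro x
    have e : 1 - tt u (Θ x) = (1 + ‖x 2‖ ^ 2)⁻¹ := by
      rw [htt]; field_simp; ring
    simp only [hΨ]
    rw [e]
    simp only [hΘ, ball_pr_mk3, ball_mk3_two, ofBall_toBall]
    rw [Real.sqrt_inv, inv_inv, smul_smul, Real.exp_neg]
    have h4 : 0 < Real.sqrt (1 + ‖x 2‖ ^ 2) := Real.sqrt_pos.2 (by positivity)
    have h5 := Real.exp_pos (u (toBall (pr x)) / 2)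
    rw [show Real.sqrt (1 + ‖x 2‖ ^ 2) * Real.exp (u (toBall (pr x)) / 2) *
      ((Real.sqrt (1 + ‖x 2‖ ^ 2))⁻¹ * (Real.exp (u (toBall (pr x)) / 2))⁻¹) = 1 by field_simp,
      one_smul, ball_mk3_pr]
theorem contractible_of_param {U : Set E3} {Θ Ψ : E3 → E3} (hΘ : Continuous Θ)
    (hΨ : ContinuousOn Ψ U) (hr : Set.range Θ = U) (hi : ∀ x, Ψ (Θ x) = x) :
    IsConnected U ∧ ContractibleSpace U := by
  subst hr
  refine ⟨isConnected_range hΘ, ?_⟩
  let e : Set.range Θ ≃ₜ E3 :=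
    { toFun := fun p => Ψ p
      invFun := fun x => ⟨Θ x, mem_range_self x⟩
      left_inv := by
        rintro ⟨_, x, rfl⟩
        simp [hi]
      right_inv := hi
      continuous_toFun := hΨ.domRestrict
      continuous_invFun := hΘ.subtype_mk _ }
  exact e.contractibleSpace

end
end Crest.Agent.R245
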