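import Crest.Agent.R245.BaseAux

/-! Row 245: the base data for S0379. -/

open Complex Filter Topology Set Metric Matrix
open scoped ComplexConjugate ContDiff

namespace Crest.Agent.R245
noncomputable section

def Tr (j : ℕ) : TreeData ((j : ℝ) + 1) :=
  (exists_treeData (J := (j : ℝ) + 1) (by linarith [(Nat.cast_nonneg j : (0 : ℝ) ≤ j)])).some

def Cond (η : ℝ) (n j : ℕ) : Prop :=
  muS η n ≤ (Tr j).μ0 ∧ muS η n ^ 8 ≤ muS η n ^ 7 / (10 ^ 12 * (1 + (Tr j).M) ^ 6)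

open Classical in
def jN (η : ℝ) (n : ℕ) : ℕ := Nat.findGreatest (Cond η n) n

def Act (η : ℝ) (n : ℕ) : Prop := Cond η n (jN η n) ∧ 1 ≤ n

open Classical in
def vN (η : ℝ) (n : ℕ) (z : E2) : ℝ := if Act η n then (Tr (jN η n)).v (act (Gm n) z) else 0
def mm (z : E2) : ℕ := ⌊(sig z + 5) / 10⌋₊
def vB (η : ℝ) (z : E2) : ℝ := vN η (mm z) z
def uB (η : ℝ) (z : E2) : ℝ := bB η z + vB η z

variable {η : ℝ}

theorem vN_of_act {n : ℕ} (h : Act η n) : vN η n = fun z => (Tr (jN η n)).v (act (Gm n) z) := by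
  funext z; simp [vN, h]

theorem vN_of_not {n : ℕ} (h : ¬Act η n) : vN η n = fun _ => 0 := by
  funext z; simp [vN, h]

theorem vN_supp {n : ℕ} {z : E2} (hz : z ∈ B2) (h : vN η n z ≠ 0) : |sig z - 10 * n| < 1 := by
  by_cases ha : Act η n
  · rw [vN_of_act ha] at h
    have hz' := (isU_Gm n).act_mem hz
    have h1 : ¬‖act (Gm n) z 1‖ ^ 2 < 1 - (Tr (jN η n)).s ^ 2 := fun h1 =>
      h ((Tr (jN η n)).supp _ hz' h1)
    have h2 : nsq (act (Gm n) z) < 1 := hz'
    rw [nsq_two] at h2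
    have h3 := (Tr (jN η n)).s_pos
    have h4 := (Tr (jN η n)).s_le
    have h5 : ‖act (Gm n) z 0‖ < 1 / 4 := by
      by_contra h6
      push Not at h6 h1
      nlinarith
    have := sig_Gi n hz' h5
    rwa [act_Gi_Gm n hz] at this
  · rw [vN_of_not ha] at h; exact absurd rfl h

theorem mm_eq {z : E2} {n : ℕ} (hz : z ∈ B2) (h : |sig z - 10 * n| < 2) : mm z = n := by
  rw [abs_lt] at h
  rw [mm, Nat.floor_eq_iff (by linarith [sig_nonneg hz])]
  constructor <;> linarith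

theorem vB_ev {z : E2} {n : ℕ} (hz : z ∈ B2) (h : |sig z - 10 * n| < 2) : vB η =ᶠ[𝓝 z] vN η n := by
  rw [abs_lt] at h
  filter_upwards [ev_sig hz (a := 10 * n - 2) (b := 10 * n + 2) (by linarith) (by linarith)]
    with y hy
  rw [vB, mm_eq hy.1 (abs_lt.2 ⟨by linarith [hy.2.1], by linarith [hy.2.2]⟩)]

theorem vB_cases {z : E2} (hz : z ∈ B2) :
    (∃ n : ℕ, |sig z - 10 * n| < 2 ∧ Act η n) ∨ vB η =ᶠ[𝓝 z] fun _ => 0 := by
  by_cases h : ∃ n : ℕ, |sig z - 10 * n| < 2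
  · obtain ⟨n, hn⟩ := h
    by_cases ha : Act η n
    · exact Or.inl ⟨n, hn, ha⟩
    · right
      rw [← vN_of_not ha]; exact vB_ev hz hn
  · right
    push Not at h
    filter_upwards [ev_sig hz (a := sig z - 1) (b := sig z + 1) (by linarith) (by linarith)]
      with y hy
    by_contra h1
    have h2 := abs_lt.1 (vN_supp hy.1 h1)
    have h3 := h (mm y)
    rcases le_abs.1 h3 with h4 | h4 <;> linarith [hy.2.1, hy.2.2]

theorem sm_vN {n : ℕ} {z : E2} (hz : z ∈ B2) : Sm (vN η n) z := by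
  by_cases ha : Act η n
  · rw [vN_of_act ha]
    exact Sm.comp ((Tr _).sm _ ((isU_Gm n).act_mem hz)) ((isU_Gm n).sm_act hz)
  · rw [vN_of_not ha]; exact Sm.const _

theorem sm_vB {z : E2} (hz : z ∈ B2) : Sm (vB η) z := by
  rcases vB_cases (η := η) hz with ⟨n, hn, -⟩ | h
  · exact (sm_vN hz).congr (vB_ev hz hn).symm
  · exact (Sm.const _).congr h.symm

theorem exists_act (h0 : 0 < η) (h1 : η ≤ 1 / 2) (k : ℕ) (hk : 1 ≤ k) :
    ∃ n, Act η n ∧ k ≤ jN η n := by
  classical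
  have hM := (Tr k).M_nonneg
  obtain ⟨N, hN⟩ := muS_small h0 h1
    (lt_min (Tr k).μ0_pos (by positivity : (0 : ℝ) < 1 / (10 ^ 12 * (1 + (Tr k).M) ^ 6)))
  have h2 := hN (max N k) (le_max_left _ _)
  have hp := muS_pos h0 h1 (max N k)
  have hc : Cond η (max N k) k := by
    refine ⟨h2.trans (min_le_left _ _), ?_⟩
    have h3 := h2.trans (min_le_right _ _)
    calc muS η (max N k) ^ 8 = muS η (max N k) ^ 7 * muS η (max N k) := by ring
      _ ≤ muS η (max N k) ^ 7 * (1 / (10 ^ 12 * (1 + (Tr k).M) ^ 6)) := by gcongr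
      _ = _ := by ring
  exact ⟨max N k, ⟨Nat.findGreatest_spec (le_max_right _ _) hc, hk.trans (le_max_right _ _)⟩,
    Nat.le_findGreatest (le_max_right _ _) hc⟩

theorem ev_comp_act {G : M3} (hG : IsU G) {f g : E2 → ℝ} (h : f =ᶠ[𝓝 (act G 0)] g) :
    (fun y => f (act G y)) =ᶠ[𝓝 0] fun y => g (act G y) :=
  (hG.sm_act zero_mem_B2).continuousAt.eventually h

theorem pow8_sub {a b : ℝ} (hb : 0 ≤ b) (hba : b ≤ a) (ha : a ≤ 1) :
    a ^ 8 - b ^ 8 ≤ 8 * (a - b) := by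
  have h : ∀ n : ℕ, a ^ n - b ^ n ≤ n * (a - b) := by
    intro n
    induction n with
    | zero => simp
    | succ n ih =>
      have h1 : b ^ n ≤ 1 := pow_le_one₀ hb (hba.trans ha)
      have h2 : b ^ n ≤ a ^ n := pow_le_pow_left₀ hb hba n
      have e : a ^ (n + 1) - b ^ (n + 1) = a * (a ^ n - b ^ n) + b ^ n * (a - b) := by ring
      have h3 : a * (a ^ n - b ^ n) ≤ 1 * (a ^ n - b ^ n) :=
        mul_le_mul_of_nonneg_right ha (by linarith)
      have h4 : b ^ n * (a - b) ≤ 1 * (a - b) := mul_le_mul_of_nonneg_right h1 (by linarith)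
      push_cast; linarith
  simpa using h 8

theorem VeryF.mono {V : Type*} {H : V → V → ℂ} {T : V → V → V → ℂ} {Q : V → V → V → V → ℂ}
    {B B' : ℝ} (h : VeryF H T Q B) (hB : B' ≤ B) : VeryF H T Q B' := by
  obtain ⟨X, Y, G1, G2, G3, h1, h2, h3⟩ := h
  exact ⟨X, Y, G1, G2, G3, h1, h2, h3.trans (by nlinarith)⟩

theorem act_Gi_zero_mem (n : ℕ) : act (Gi n) 0 ∈ B2 := (isU_Gi n).act_mem zero_mem_B2

theorem very_B (h0 : 0 < η) (h1 : η ≤ 1 / 2) (B : ℝ) :
    ∃ p ∈ dom (uB η), 9 / 10 < ‖p 0‖ ^ 2 ∧ Very (pot (bB η) (dB η) (uB η)) p B := by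
  obtain ⟨N, hN⟩ := muS_small h0 h1 (ε := 1 / (|B| + 1)) (by positivity)
  set n := N + 1 with hn
  have hz := act_Gi_zero_mem n
  have hs := sig_Gi n zero_mem_B2 (by simp)
  set z := act (Gi n) 0 with hzdef
  have hn1 : (1 : ℝ) ≤ n := by rw [hn]; push_cast; linarith [(Nat.cast_nonneg N : (0 : ℝ) ≤ N)]
  have hs' := abs_lt.1 hs
  have hp : mk3 z 0 ∈ dom (uB η) := by
    refine ⟨by rw [pr_mk3]; exact hz, ?_⟩
    simp [tt, mk3]
  refine ⟨mk3 z 0, hp, norm_sq_of_sig hz (by linarith), ?_⟩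
  obtain ⟨hb, hd⟩ := plateau_ev (η := η) hz (n := n) (by linarith) (by linarith)
  have hv : vB η =ᶠ[𝓝 z] fun _ => 0 := by
    refine (vB_ev hz (hs.trans (by norm_num))).trans ?_
    by_cases ha : Act η n
    · rw [vN_of_act ha]
      have hc := ((isU_Gm n).sm_act hz).continuousAt
      have e : act (Gm n) z = 0 := act_Gm_Gi n zero_mem_B2
      have h3 := (Tr (jN η n)).s_pos
      have h4 := (Tr (jN η n)).s_le
      have ho : {y : E2 | y ∈ B2 ∧ ‖y 1‖ ^ 2 < 1 - (Tr (jN η n)).s ^ 2} ∈ 𝓝 (act (Gm n) z) := by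
        rw [e]
        have hcont : Continuous fun y : E2 => ‖y 1‖ ^ 2 := by fun_prop
        refine (isOpen_B2.inter (isOpen_lt hcont continuous_const)).mem_nhds
          ⟨zero_mem_B2, ?_⟩
        simp only [mem_setOf_eq, Pi.zero_apply, norm_zero]
        nlinarith
      filter_upwards [hc.eventually ho] with y hy using (Tr _).supp _ hy.1 hy.2
    · rw [vN_of_not ha]
  have hu : uB η =ᶠ[𝓝 z] bB η := by
    filter_upwards [hv] with y hy
    simp [uB, hy]
  have hμ := muS_pos h0 h1 n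
  have := very_model (p := mk3 z 0) (b := bB η) (d := dB η) (C0 := cS η n) hμ (pow_pos hμ 8) hp
    (by rw [pr_mk3]; exact hb)
    (by rw [pr_mk3]; exact hd) (by rw [pr_mk3]; exact hu)
  refine VeryF.mono this ?_
  rw [le_div_iff₀ (pow_pos hμ 8)]
  have h2 : muS η n ^ 8 ≤ muS η n ^ 1 :=
    pow_le_pow_of_le_one hμ.le (muS_le_one h0 h1 n) (by norm_num)
  have h3 := hN n (by omega)
  rw [le_div_iff₀ (by positivity)] at h3
  have h4 : B * muS η n ^ 8 ≤ |B| * muS η n :=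
    mul_le_mul (le_abs_self B) (by simpa using h2) (by positivity) (abs_nonneg B)
  nlinarith

theorem proper_B (h0 : 0 < η) (h1 : η ≤ 1 / 2) (c' : ℝ) : ∃ r t : ℝ, r < 1 ∧ t < 1 ∧
    ∀ p ∈ dom (uB η), pot (bB η) (dB η) (uB η) p ≤ c' → nsq (pr p) ≤ r ∧ tt (uB η) p ≤ t := by
  obtain ⟨N, hN⟩ := beta_large h0 h1 c'
  have hμ := muS_pos h0 h1 N
  refine ⟨1 - Real.exp (-(c' / muS η N)), 1 - Real.exp (-(c' / muS η N ^ 8)),
    by linarith [Real.exp_pos (-(c' / muS η N))],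
    by linarith [Real.exp_pos (-(c' / muS η N ^ 8))], fun p hp hc => ?_⟩
  obtain ⟨hz, ht⟩ := hp
  have ht0 : 0 ≤ tt (uB η) p := by unfold tt; positivity
  have hf : 0 ≤ -Real.log (1 - tt (uB η) p) := by
    have := Real.log_nonpos (by linarith) (by linarith : 1 - tt (uB η) p ≤ 1)
    linarith
  have hd := (dB_bounds h0 h1 (pr p)).1
  have hμ1 := muS_pos h0 h1 (nn (pr p) + 1)
  have hd0 : 0 ≤ dB η (pr p) := le_trans (by positivity) hd
  have hb := bB_ge h0 h1 hz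
  have hψ : 0 ≤ psi (pr p) := (sig_nonneg hz).trans (sig_le_psi hz)
  have hc0 := cS_nonneg h0 h1 (nn (pr p))
  unfold pot at hc
  have h2 := mul_nonneg hd0 hf
  have h3 : muS η (nn (pr p) + 1) * (10 * nn (pr p)) ≤ muS η (nn (pr p) + 1) * psi (pr p) :=
    mul_le_mul_of_nonneg_left ((nn_le hz).trans (sig_le_psi hz)) hμ1.le
  have hn := hN (nn (pr p)) (by linarith)
  have h4 : muS η N ≤ muS η (nn (pr p) + 1) := muS_anti h0 h1 hn
  have h5 := mul_nonneg hμ1.le hψ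
  have hz' : nsq (pr p) < 1 := hz
  constructor
  · have h6 : psi (pr p) ≤ c' / muS η N := by
      rw [le_div_iff₀ hμ]
      have := mul_le_mul_of_nonneg_right h4 hψ
      linarith
    have h7 : Real.exp (-(c' / muS η N)) ≤ 1 - nsq (pr p) := by
      rw [← Real.le_log_iff_exp_le (by linarith)]
      unfold psi at h6; linarith
    linarith
  · have h6 : -Real.log (1 - tt (uB η) p) ≤ c' / muS η N ^ 8 := by
      rw [le_div_iff₀ (by positivity)]
      have h8 : muS η N ^ 8 ≤ dB η (pr p) := (pow_le_pow_left₀ hμ.le h4 8).trans hd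
      have := mul_le_mul_of_nonneg_right h8 hf
      linarith
    have h7 : Real.exp (-(c' / muS η N ^ 8)) ≤ 1 - tt (uB η) p := by
      rw [← Real.le_log_iff_exp_le (by linarith)]
      linarith
    linarith

theorem kill_B (h0 : 0 < η) (h1 : η ≤ 1 / 2) (k : ℕ) (C : ℝ) (a : E2 → ℂ) (hk : 1 ≤ k)
    (ha : Hol a {z | z ∈ B2 ∧ ‖z 1‖ < 1 / 2})
    (hb : ∀ z ∈ B2, 9 / 10 < ‖z 0‖ ^ 2 → ‖a z‖ ≤ C * Real.exp (k / 2 * uB η z)) :
    ∃ z0, (z0 ∈ B2 ∧ ‖z0 1‖ < 1 / 2) ∧ ∀ᶠ z in 𝓝 z0, a z = 0 := by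
  obtain ⟨n, hact, hj⟩ := exists_act h0 h1 k hk
  set T := Tr (jN η n) with hT
  have hn1 : (1 : ℝ) ≤ n := by exact_mod_cast hact.2
  have hW : ∀ z ∈ Wset T.s, z ∈ B2 ∧ ‖z 0‖ < 1 / 4 := fun z hz =>
    ⟨hz.1, by linarith [hz.2, T.s_le]⟩
  have hout : ∀ z ∈ B2, ‖z 0‖ < 1 / 4 → 9 / 10 < ‖act (Gi n) z 0‖ ^ 2 := fun z hz h =>
    norm_sq_of_sig ((isU_Gi n).act_mem hz) (by linarith [(abs_lt.1 (sig_Gi n hz h)).1])
  have hmem : ∀ z ∈ B2, ‖z 0‖ < 1 / 4 → act (Gi n) z ∈ B2 ∧ ‖act (Gi n) z 1‖ < 1 / 2 := by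
    intro z hz h
    have h2 := (isU_Gi n).act_mem hz
    refine ⟨h2, ?_⟩
    have h3 : nsq (act (Gi n) z) < 1 := h2
    rw [nsq_two] at h3
    have h4 := hout z hz h
    by_contra h5
    push Not at h5
    nlinarith
  have hH : Hol (fun z => a (act (Gi n) z)) (Wset T.s) :=
    ha.comp (fun z hz => ((isU_Gi n).analyticAt hz.1).differentiableAt.differentiableWithinAt)
      (fun z hz => hmem z (hW z hz).1 (hW z hz).2)
  have hμ := muS_pos h0 h1 n
  have hk' : (1 : ℝ) ≤ k := by exact_mod_cast hk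
  have hj' : (k : ℝ) ≤ jN η n := by exact_mod_cast hj
  have hkill := T.kill (muS η n) (k / 2)
    (|C| * Real.exp (k / 2 * (muS η n * (10 * n + 1) + cS η n))) _ hμ.le hact.1.1 (by linarith)
    (by linarith) hH (fun z hz => by
      obtain ⟨hz1, hz2⟩ := hW z hz
      have hx := (isU_Gi n).act_mem hz1
      have hs := sig_Gi n hz1 hz2
      have hs' := abs_lt.1 hs
      refine (hb _ hx (hout z hz1 hz2)).trans ?_
      have e1 := (plateau (η := η) hx (n := n) (by linarith) (by linarith)).1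
      have e2 : vB η (act (Gi n) z) = T.v z := by
        rw [(vB_ev hx (hs.trans (by norm_num))).eq_of_nhds, vN_of_act hact]
        simp only [act_Gm_Gi n hz1, hT]
      have h3 := mul_le_mul_of_nonneg_left (psi_Gi n hz1 hz2) hμ.le
      rw [mul_assoc, ← Real.exp_add]
      refine mul_le_mul (le_abs_self C) (Real.exp_le_exp.2 ?_) (Real.exp_pos _).le (abs_nonneg C)
      rw [← mul_add, uB, e1, e2]
      exact mul_le_mul_of_nonneg_left (by linarith) (by positivity))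
  refine ⟨act (Gi n) 0, hmem 0 zero_mem_B2 (by simp), ?_⟩
  have hz := act_Gi_zero_mem n
  have hc := ((isU_Gm n).sm_act hz).continuousAt
  rw [ContinuousAt, act_Gm_Gi n zero_mem_B2] at hc
  filter_upwards [hc.eventually hkill, isOpen_B2.mem_nhds hz] with y hy hy'
  rwa [act_Gi_Gm n hy'] at hy

theorem exists_baseData : Nonempty BaseData := by
  obtain ⟨L, cT, hc0, hc1, hW, hT⟩ := exists_good
  obtain ⟨C, hC, hcol⟩ := exists_jb_collar
  obtain ⟨η, hη⟩ : ∃ η : ℝ, η = cT / (8 * C * 2 ^ 40) := ⟨_, rfl⟩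
  have h0 : 0 < η := by rw [hη]; positivity
  have h1 : η ≤ 1 / 2 := by
    rw [hη, div_le_iff₀ (by positivity)]; nlinarith
  refine ⟨⟨bB η, dB η, uB η, 1 / 64, L, by norm_num,
    fun z hz => ⟨sm_bB hz, sm_dB hz, (sm_bB hz).add (sm_vB hz)⟩, fun z hz h => ?_, fun p hp => ?_,
    very_B h0 h1, proper_B h0 h1, kill_B h0 h1⟩⟩
  · have h2 := sig_lt_of_norm h
    have h3 := sig_nonneg hz
    obtain ⟨e1, e2⟩ := plateau (η := η) hz (n := 0) (by simp; linarith) (by simpa using h2)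
    have e3 : mm z = 0 := by
      rw [mm, Nat.floor_eq_zero]; linarith
    have e4 : vB η z = 0 := by
      rw [vB, e3, vN_of_not (fun h => by simpa using h.2)]
    simp only [muS, cS, one_mul, add_zero, one_pow] at e1 e2
    exact ⟨e1, e2, by rw [uB, e4, e1, add_zero]⟩
  · have hz : pr p ∈ B2 := hp.1
    obtain ⟨G, hG, hG0⟩ := exists_frame hz
    rcases vB_cases (η := η) hz with ⟨n, hn, ha⟩ | hv
    · have hn' := abs_lt.1 hn
      obtain ⟨hb, hd⟩ := plateau_ev (η := η) hz (n := n) (by linarith) (by linarith)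
      have hμ := muS_pos h0 h1 n
      have he : (fun y => (Tr (jN η n)).v (act (Gm n * G) y)) =ᶠ[𝓝 0]
          fun y => vN η n (act G y) := by
        filter_upwards [isOpen_B2.mem_nhds zero_mem_B2] with y hy
        rw [vN_of_act ha, act_mul _ hG hy]
      refine hW (muS η n) (muS η n ^ 8) (Tr (jN η n)).M (cS η n) _ _ _ (vN η n) p G hG hG0 hp hμ
        (muS_le_one h0 h1 n) (Tr _).M_nonneg (pow_pos hμ 8) ha.1.2 hb hd ?_ (sm_vN hz)
        (((Tr _).jb _ ((isU_Gm n).mul hG)).congr he) (fun X => ?_)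
      · filter_upwards [vB_ev (η := η) hz hn] with y hy
        rw [uB, hy]
      · rw [← Lv_congr he]; exact (Tr _).psh _ ((isU_Gm n).mul hG) X
    · set n := nn (pr p) with hn
      have hμ := muS_pos h0 h1 n
      have hμ' := muS_pos h0 h1 (n + 1)
      have hμ1 := muS_le_one h0 h1 n
      have hle := muS_succ_le h0 h1 n
      obtain ⟨hd1, hd2⟩ := dB_bounds h0 h1 (pr p)
      obtain ⟨hb, hd⟩ := local_ev (η := η) hz
      obtain ⟨j1, j2⟩ := hcol G (10 * n + 5) hG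
      have hdiff : 0 ≤ muS η n - muS η (n + 1) := by linarith
      have h8 := pow8_sub hμ'.le hle hμ1
      have h8' : 0 ≤ muS η n ^ 8 - muS η (n + 1) ^ 8 :=
        sub_nonneg.2 (pow_le_pow_left₀ hμ'.le hle 8)
      refine hT (muS η n) (8 * C * (muS η n - muS η (n + 1))) (cS η n) _ _ _ (eF η n) p G hG hG0 hp
        hμ hμ1 (lt_of_lt_of_le (by positivity) hd1) (hd2.trans (pow_le_one₀ hμ.le hμ1))
        (by positivity) ?_ hb ?_ (sm_eF hz n) (sm_dB hz) ?_ ?_
      · rw [muS_sub]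
        have h2 : (muS η n / 2) ^ 8 ≤ dB η (pr p) :=
          (pow_le_pow_left₀ (by positivity) (muS_half h0 h1 n) 8).trans hd1
        calc 8 * C * (η * muS η n ^ 45) = cT * (muS η n * (muS η n / 2) ^ 8) ^ 5 := by
              rw [hη]; field_simp
          _ ≤ cT * (muS η n * dB η (pr p)) ^ 5 := by gcongr
      · filter_upwards [hv] with y hy
        simp [uB, hy]
      · refine (j2.const_mul (-(muS η n - muS η (n + 1)))).mono ?_
        rw [abs_neg, abs_of_nonneg hdiff]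
        nlinarith
      · refine JB.congr (F := fun y => dF η n (act G y)) ?_
          (ev_comp_act hG (by rw [hG0]; exact hd.symm))
        refine ((j1.const_mul (-(muS η n ^ 8 - muS η (n + 1) ^ 8))).add_const
          (muS η n ^ 8)).mono ?_
        rw [abs_neg, abs_of_nonneg h8']
        nlinarith

end
end Crest.Agent.R245
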