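import Crest.Agent.R245.Frame

/-! Row 245: fibre Taylor coefficients of bounded holomorphic functions. -/

open Complex Filter Topology Set Metric Matrix
open scoped ComplexConjugate ContDiff

namespace Crest.Agent.R245
noncomputable section

theorem Hol.mono {a : E2 → ℂ} {Ω Ω' : Set E2} (h : Hol a Ω) (hs : Ω' ⊆ Ω) : Hol a Ω' :=
  fun γ s h1 h2 h3 => h γ s h1 h2 (h3.mono_right hs)
theorem Hol.comp {a : E2 → ℂ} {Ω Ω' : Set E2} (h : Hol a Ω) {g : E2 → E2}
    (hg : DifferentiableOn ℂ g Ω') (hm : MapsTo g Ω' Ω) : Hol (fun z => a (g z)) Ω' :=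
  fun γ s h1 h2 h3 => h (fun t => g (γ t)) s h1 (hg.comp h2 h3) (hm.comp h3)

/-- identity theorem on convex sets, by restriction to complex lines -/
theorem fib_line {E : Type*} [NormedAddCommGroup E] [NormedSpace ℝ E] [NormedSpace ℂ E]
    [IsScalarTower ℝ ℂ E] {a : E → ℂ} {Ω : Set E} (h : Hol a Ω) (ho : IsOpen Ω) (hc : Convex ℝ Ω)
    {z0 : E} (hz0 : z0 ∈ Ω) (h0 : ∀ᶠ z in 𝓝 z0, a z = 0) : ∀ z ∈ Ω, a z = 0 := by
  intro z hz
  set γ : ℂ → E := fun t => z0 + t • (z - z0) with hγ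
  have hd : Differentiable ℂ γ := by rw [hγ]; fun_prop
  have hs : IsOpen (γ ⁻¹' Ω) := ho.preimage hd.continuous
  have hconv : Convex ℝ (γ ⁻¹' Ω) := by
    intro x hx y hy α β hα hβ hαβ
    have := hc hx hy hα hβ hαβ
    have e : γ (α • x + β • y) = α • γ x + β • γ y := by
      simp only [hγ, add_smul, smul_assoc, smul_add]
      have : z0 = α • z0 + β • z0 := by rw [← add_smul, hαβ, one_smul]
      conv_lhs => rw [this]
      rw [← this]
      conv_lhs => enter [1]; rw [this]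
      abel
    show γ _ ∈ Ω
    rw [e]; exact this
  have h1 := (h γ _ hs hd.differentiableOn (mapsTo_preimage _ _)).analyticOnNhd hs
  have g0 : γ 0 = z0 := by simp [hγ]
  have g1 : γ 1 = z := by simp [hγ]
  have h2 : (fun t => a (γ t)) =ᶠ[𝓝 0] 0 := by
    have : Tendsto γ (𝓝 0) (𝓝 z0) := g0 ▸ hd.continuous.tendsto 0
    exact this.eventually h0
  have h3 := h1.eqOn_zero_of_preconnected_of_eventuallyEq_zero hconv.isPreconnected
    (show (0 : ℂ) ∈ γ ⁻¹' Ω by rw [mem_preimage, g0]; exact hz0) h2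
    (show (1 : ℂ) ∈ γ ⁻¹' Ω by rw [mem_preimage, g1]; exact hz)
  simpa [g1] using h3

/-- identity theorem -/
theorem Hol.eq_zero {a : E2 → ℂ} {Ω : Set E2} (h : Hol a Ω) (ho : IsOpen Ω) (hc : Convex ℝ Ω)
    {z0 : E2} (hz0 : z0 ∈ Ω) (h0 : ∀ᶠ z in 𝓝 z0, a z = 0) : ∀ z ∈ Ω, a z = 0 :=
  fib_line h ho hc hz0 h0

/-- holomorphic dependence of an integral on a parameter -/
theorem fib_diff_integral {G : ℂ → ℝ → ℂ} {t0 : ℂ} {ρ M : ℝ} (hρ : 0 < ρ)
    (hc : ∀ t ∈ ball t0 (2 * ρ), Continuous (G t))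
    (hd : ∀ θ, DifferentiableOn ℂ (fun t => G t θ) (ball t0 (2 * ρ)))
    (hM : ∀ t ∈ ball t0 (2 * ρ), ∀ θ, ‖G t θ‖ ≤ M) (a b : ℝ) :
    DifferentiableAt ℂ (fun t => ∫ θ in a..b, G t θ) t0 := by
  have h2 : t0 ∈ ball t0 (2 * ρ) := mem_ball_self (by linarith)
  have hsub : ∀ x ∈ ball t0 ρ, closedBall x ρ ⊆ ball t0 (2 * ρ) := by
    intro x hx y hy
    rw [mem_ball] at hx ⊢
    rw [mem_closedBall] at hy
    linarith [dist_triangle y x t0]
  have hder : ∀ θ, ∀ x ∈ ball t0 ρ, HasDerivAt (fun t => G t θ) (deriv (fun t => G t θ) x) x :=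
    fun θ x hx => ((hd θ).differentiableAt
      (isOpen_ball.mem_nhds (hsub x hx (mem_closedBall_self hρ.le)))).hasDerivAt
  refine (intervalIntegral.hasDerivAt_integral_of_dominated_loc_of_deriv_le
    (μ := MeasureTheory.volume) (F' := fun x θ => deriv (fun t => G t θ) x)
    (bound := fun _ => M / ρ) (ball_mem_nhds t0 hρ) ?_ ((hc t0 h2).intervalIntegrable a b) ?_
    (.of_forall fun θ _ x hx => ?_) intervalIntegrable_const
    (.of_forall fun θ _ x hx => hder θ x hx)).2.differentiableAt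
  · filter_upwards [isOpen_ball.mem_nhds h2] with x hx
    exact (hc x hx).aestronglyMeasurable
  · set u : ℕ → ℂ := fun n => ((ρ * (1 / ((n : ℝ) + 1)) : ℝ) : ℂ) with hu
    have u0 : Tendsto u atTop (𝓝[≠] 0) := by
      refine tendsto_nhdsWithin_iff.2 ⟨?_, .of_forall fun n => ?_⟩
      · have := (tendsto_one_div_add_atTop_nhds_zero_nat (𝕜 := ℝ)).const_mul ρ
        rw [mul_zero] at this
        exact (Complex.continuous_ofReal.tendsto 0).comp this
      · simp only [hu, mem_compl_iff, mem_singleton_iff, Complex.ofReal_eq_zero]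
        positivity
    have um : ∀ n, t0 + u n ∈ ball t0 (2 * ρ) := by
      intro n
      rw [mem_ball, dist_self_add_left, hu]
      simp only [Complex.norm_real, Real.norm_eq_abs]
      rw [abs_of_pos (by positivity)]
      have : 1 / ((n : ℝ) + 1) ≤ 1 := by
        rw [div_le_one (by positivity)]; linarith [Nat.cast_nonneg (α := ℝ) n]
      nlinarith
    refine aestronglyMeasurable_of_tendsto_ae atTop
      (f := fun n θ => (u n)⁻¹ • (G (t0 + u n) θ - G t0 θ)) (fun n => ?_) (.of_forall fun θ => ?_)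
    · exact (((hc _ (um n)).sub (hc t0 h2)).const_smul (u n)⁻¹).aestronglyMeasurable
    · exact (hder θ t0 (mem_ball_self hρ)).tendsto_slope_zero.comp u0
  · exact Complex.norm_deriv_le_of_forall_mem_sphere_norm_le hρ
      (((hd θ).mono (closure_ball_subset_closedBall.trans (hsub x hx))).diffContOnCl)
      fun z hz => hM z (hsub x hx (sphere_subset_closedBall hz)) θ

theorem fib_param {F : ℂ × ℂ → ℂ} {W : Set (ℂ × ℂ)} (hW : IsOpen W) (hF : DifferentiableOn ℂ F W)
    {t0 : ℂ} (h : (t0, (0 : ℂ)) ∈ W) (k : ℕ) :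
    DifferentiableAt ℂ (fun t => iteratedDeriv k (fun w => F (t, w)) 0) t0 := by
  obtain ⟨ε, hε, hb⟩ := Metric.nhds_basis_closedBall.mem_iff.1 (hW.mem_nhds h)
  obtain ⟨M, hM⟩ := (isCompact_closedBall (t0, (0 : ℂ)) ε).exists_bound_of_continuousOn
    (hF.continuousOn.mono hb)
  set ρ := ε / 2 with hρ
  have hρ0 : 0 < ρ := half_pos hε
  have hmem : ∀ t ∈ ball t0 (2 * ρ), ∀ w ∈ closedBall (0 : ℂ) ρ,
      (t, w) ∈ closedBall (t0, (0 : ℂ)) ε := by
    intro t ht w hw
    rw [← closedBall_prod_same]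
    exact ⟨ball_subset_closedBall (by convert ht using 2; rw [hρ]; ring),
      closedBall_subset_closedBall (by rw [hρ]; linarith) hw⟩
  have hcm : ∀ θ, circleMap 0 ρ θ ∈ closedBall (0 : ℂ) ρ := fun θ =>
    circleMap_mem_closedBall 0 hρ0.le θ
  have hc0 : ∀ θ, circleMap 0 ρ θ ≠ 0 := fun θ => circleMap_ne_center hρ0.ne'
  set c : ℂ := 2 * Real.pi * I / k.factorial with hc
  have hc' : c ≠ 0 := by simp [hc, Nat.factorial_ne_zero]
  have e : (fun t => iteratedDeriv k (fun w => F (t, w)) 0) =ᶠ[𝓝 t0] fun t =>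
      c⁻¹ * ∫ θ in (0 : ℝ)..2 * Real.pi, (circleMap 0 ρ θ * I) *
        ((1 / (circleMap 0 ρ θ - 0) ^ (k + 1)) * F (t, circleMap 0 ρ θ)) := by
    filter_upwards [ball_mem_nhds t0 (show 0 < 2 * ρ by linarith)] with t ht
    have h1 : DifferentiableOn ℂ (fun w => F (t, w)) (closedBall 0 ρ) :=
      hF.comp (by fun_prop) fun w hw => hb (hmem t ht w hw)
    have h2 := h1.circleIntegral_one_div_sub_center_pow_smul hρ0 k
    simp only [circleIntegral, deriv_circleMap, smul_eq_mul] at h2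
    rw [h2, ← hc, ← mul_assoc, inv_mul_cancel₀ hc', one_mul]
  rw [e.differentiableAt_iff]
  refine DifferentiableAt.const_mul (fib_diff_integral (M := ρ * (1 / ρ ^ (k + 1) * M)) hρ0
    (fun t ht => ?_) (fun θ => ?_) (fun t ht θ => ?_) _ _) _
  · have h1 : Continuous fun θ => F (t, circleMap 0 ρ θ) :=
      hF.continuousOn.comp_continuous (by fun_prop) fun θ => hb (hmem t ht _ (hcm θ))
    refine Continuous.mul (by fun_prop) (Continuous.mul ?_ h1)
    exact Continuous.div (by fun_prop) (by fun_prop) fun θ => pow_ne_zero _ (by simpa using hc0 θ)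
  · have h1 : DifferentiableOn ℂ (fun t => F (t, circleMap 0 ρ θ)) (ball t0 (2 * ρ)) :=
      hF.comp (by fun_prop) fun t ht => hb (hmem t ht _ (hcm θ))
    exact (h1.const_mul _).const_mul _
  · have h1 := hM _ (hmem t ht _ (hcm θ))
    simp only [norm_mul, norm_div, norm_pow, sub_zero, norm_circleMap_zero, abs_of_pos hρ0,
      Complex.norm_I, mul_one, norm_one]
    gcongr

theorem fib_mk3_eq (z : E2) (w : ℂ) : mk3 z w = mk3 z 0 + w • mk3 0 1 := by
  ext i; fin_cases i <;> simp [mk3]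

theorem fib_diff_mk3 (z : E2) : Differentiable ℂ (fun w => mk3 z w) := by
  have : (fun w : ℂ => mk3 z w) = fun w => mk3 z 0 + w • mk3 0 1 := funext (fib_mk3_eq z)
  rw [this]
  fun_prop

theorem hol_coef {f : E3 → ℂ} {U : Set E3} (hU : IsOpen U) (hf : DifferentiableOn ℂ f U)
    {Ω : Set E2} (hΩ : ∀ z ∈ Ω, mk3 z 0 ∈ U) (k : ℕ) : Hol (coef f k) Ω := by
  intro γ s hs hγ hm t0 ht0
  have h1 : DifferentiableOn ℂ (fun q : ℂ × ℂ => mk3 (γ q.1) q.2) (Prod.fst ⁻¹' s) := by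
    have h2 : DifferentiableOn ℂ (fun q : ℂ × ℂ => γ q.1) (Prod.fst ⁻¹' s) :=
      hγ.comp differentiableOn_fst (mapsTo_preimage _ _)
    refine differentiableOn_pi.2 fun i => ?_
    fin_cases i
    · exact differentiableOn_pi.1 h2 0
    · exact differentiableOn_pi.1 h2 1
    · exact differentiableOn_snd
  have hW := h1.continuousOn.isOpen_inter_preimage (hs.preimage continuous_fst) hU
  exact (fib_param hW (F := fun q => f (mk3 (γ q.1) q.2))
    (hf.comp (h1.mono inter_subset_left) fun q hq => hq.2) (t0 := t0)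
    ⟨ht0, hΩ _ (hm ht0)⟩ k).differentiableWithinAt
theorem norm_coef_le {f : E3 → ℂ} {U : Set E3} (hf : DifferentiableOn ℂ f U) {C : ℝ}
    (hC : ∀ p ∈ U, ‖f p‖ ≤ C) {z : E2} {r : ℝ} (hr : 0 < r)
    (hz : ∀ w : ℂ, ‖w‖ < r → mk3 z w ∈ U) (k : ℕ) :
    ‖coef f k z‖ ≤ k.factorial * C * 2 ^ k / r ^ k := by
  have hm : ∀ w ∈ closedBall (0 : ℂ) (r / 2), mk3 z w ∈ U := fun w hw =>
    hz w (by rw [mem_closedBall_zero_iff] at hw; linarith)
  have h1 : DifferentiableOn ℂ (fun w => f (mk3 z w)) (closedBall 0 (r / 2)) :=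
    hf.comp (fib_diff_mk3 z).differentiableOn hm
  have h2 := Complex.norm_iteratedDeriv_le_of_forall_mem_sphere_norm_le k (half_pos hr)
    (h1.mono closure_ball_subset_closedBall).diffContOnCl
    fun w hw => hC _ (hm w (sphere_subset_closedBall hw))
  refine h2.trans (le_of_eq ?_)
  rw [div_pow]
  field_simp
theorem eq_of_coef_zero {f : E3 → ℂ} {U : Set E3} (hf : DifferentiableOn ℂ f U) {z : E2} {r : ℝ}
    (hz : ∀ w : ℂ, ‖w‖ < r → mk3 z w ∈ U) (h0 : ∀ k, 1 ≤ k → coef f k z = 0) :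
    ∀ w : ℂ, ‖w‖ < r → f (mk3 z w) = f (mk3 z 0) := by
  intro w hw
  have h1 : DifferentiableOn ℂ (fun w => f (mk3 z w)) (ball 0 r) :=
    hf.comp (fib_diff_mk3 z).differentiableOn fun w hw => hz w (mem_ball_zero_iff.1 hw)
  have h2 := Complex.taylorSeries_eq_on_ball' (mem_ball_zero_iff.2 hw) h1
  rw [← h2, tsum_eq_single 0]
  · simp
  · intro n hn
    have := h0 n (Nat.one_le_iff_ne_zero.2 hn)
    unfold coef at this
    rw [this]
    simp
theorem coef_one {f : E3 → ℂ} {z : E2} (hf : DifferentiableAt ℂ f (mk3 z 0)) :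
    coef f 1 z = fderiv ℂ f (mk3 z 0) (mk3 0 1) := by
  unfold coef
  rw [iteratedDeriv_one]
  have h1 : HasDerivAt (fun w : ℂ => mk3 z w) (mk3 0 1) 0 := by
    have : (fun w : ℂ => mk3 z w) = fun w => mk3 z 0 + w • mk3 0 1 := funext (fib_mk3_eq z)
    rw [this]
    simpa using ((hasDerivAt_id (0 : ℂ)).smul_const (mk3 0 1)).const_add (mk3 z 0)
  exact (hf.hasFDerivAt.comp_hasDerivAt (0 : ℂ) h1).deriv
/-- identity theorem on a connected open subset of `ℂ³` -/
theorem const_of_eventually_const {f : E3 → ℂ} {U : Set E3} (hU : IsOpen U) (hc : IsPreconnected U)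
    (hf : DifferentiableOn ℂ f U) {p : E3} (hp : p ∈ U) (h0 : ∀ᶠ q in 𝓝 p, f q = f p) :
    ∀ q ∈ U, f q = f p := by
  have h1 : U ⊆ {q | ∀ᶠ q' in 𝓝 q, f q' = f p} := by
    refine hc.subset_of_closure_inter_subset isOpen_setOfPred_eventually_nhds ⟨p, hp, h0⟩ ?_
    rintro q ⟨hq, hqU⟩
    obtain ⟨ε, hε, hb⟩ := Metric.isOpen_iff.1 hU q hqU
    obtain ⟨q1, hq1, hq2⟩ := mem_closure_iff.1 hq _ isOpen_ball (mem_ball_self hε)
    have hH : Hol (fun x => f x - f p) (ball q ε) := fun γ s _ h2 h3 =>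
      (hf.comp h2 (h3.mono_right hb)).sub_const _
    have := fib_line hH isOpen_ball (convex_ball q ε) hq1
      (Eventually.mono hq2 fun x hx => sub_eq_zero.2 hx)
    filter_upwards [ball_mem_nhds q hε] with x hx
    exact sub_eq_zero.1 (this x hx)
  exact fun q hq => (h1 hq).self_of_nhds

end
end Crest.Agent.R245
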