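import Crest.Agent.R245.Frame

/-! Row 245: no holomorphic function has the growth allowed by the tree weight. -/

open Complex Filter Topology Set Metric Matrix
open scoped ComplexConjugate ContDiff

namespace Crest.Agent.R245
noncomputable section

namespace Kill

theorem nsq_pair (t ζ : ℂ) : nsq (![t, ζ] : E2) = ‖t‖ ^ 2 + ‖ζ‖ ^ 2 := by
  simp [nsq, Fin.sum_univ_two]

theorem eta (z : E2) : (![z 0, z 1] : E2) = z := by
  funext i; fin_cases i <;> rfl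

theorem diff_fst (ζ : ℂ) : Differentiable ℂ fun t : ℂ => (![t, ζ] : E2) := by
  refine differentiable_pi.2 fun i => ?_
  fin_cases i <;> simp

theorem diff_snd (t : ℂ) : Differentiable ℂ fun ζ : ℂ => (![t, ζ] : E2) := by
  refine differentiable_pi.2 fun i => ?_
  fin_cases i <;> simp

theorem schwarz_o {f : ℂ → ℂ} {c z : ℂ} {R M : ℝ} {n : ℕ} (hd : DifferentiableOn ℂ f (ball c R))
    (hM : ∀ w ∈ ball c R, ‖f w‖ ≤ M) (h0 : f c = 0)
    (ho : f =o[𝓝 c] fun w => ‖w - c‖ ^ n) (hz : z ∈ ball c R) :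
    ‖f z‖ ≤ M * (‖z - c‖ / R) ^ (n + 1) := by
  have h := Complex.dist_le_mul_div_pow_of_mapsTo_ball_of_isLittleO (R₂ := M) (n := n) hd
    (fun w hw => by rw [h0, mem_closedBall_zero_iff]; exact hM w hw) (by simpa [h0] using ho) hz
  rwa [h0, dist_zero_right, dist_eq_norm] at h

theorem schwarz_O {f : ℂ → ℂ} {c z : ℂ} {R M K : ℝ} {n : ℕ} (hd : DifferentiableOn ℂ f (ball c R))
    (hM : ∀ w ∈ ball c R, ‖f w‖ ≤ M) (hO : ∀ᶠ w in 𝓝 c, ‖f w‖ ≤ K * ‖w - c‖ ^ (n + 1))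
    (hz : z ∈ ball c R) : ‖f z‖ ≤ M * (‖z - c‖ / R) ^ (n + 1) := by
  refine schwarz_o hd hM (by simpa using hO.self_of_nhds) ?_ hz
  have h1 : f =O[𝓝 c] fun w => ‖w - c‖ ^ (n + 1) :=
    Asymptotics.IsBigO.of_bound K (by simpa using hO)
  refine h1.trans_isLittleO ?_
  have h2 : Tendsto (fun w : ℂ => ‖w - c‖) (𝓝 c) (𝓝 0) := tendsto_norm_sub_self c
  exact (Asymptotics.isLittleO_pow_pow (Nat.lt_succ_self n)).comp_tendsto h2

theorem le_of_geom {x K L θ : ℝ} (hθ : 1 < θ) (h : ∀ n : ℕ, x ≤ K + L / θ ^ n) : x ≤ K := by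
  have h1 : Tendsto (fun n : ℕ => K + L / θ ^ n) atTop (𝓝 (K + 0)) :=
    tendsto_const_nhds.add (tendsto_const_nhds.div_atTop (tendsto_pow_atTop_atTop_of_one_lt hθ))
  rw [add_zero] at h1
  exact ge_of_tendsto' h1 h

variable {A Dp : ℝ} (P : DiscData A Dp)

theorem ring_step {f : ℂ → ℂ} {i : ℕ} {K : ℝ} (hd : DifferentiableOn ℂ f (ball 0 (P.r (i + 1))))
    (hK : ∀ b ∈ P.ring i, ∀ ζ, ‖ζ - b‖ ≤ (P.r (i + 1) - P.r i) / 30 → ‖f ζ‖ ≤ K) {ζ : ℂ}
    (hζ : ‖ζ‖ ≤ P.r i) : ‖f ζ‖ ≤ K := by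
  have hr := P.r_pos i
  refine Complex.norm_le_of_forall_mem_frontier_norm_le (U := ball 0 (P.r i)) isBounded_ball
    (hd.diffContOnCl_ball (closedBall_subset_ball (P.r_lt i))) (fun z hz => ?_) ?_
  · rw [frontier_ball _ hr.ne', mem_sphere_zero_iff_norm] at hz
    obtain ⟨b, hb, h⟩ := P.dense i z hz
    exact hK b hb z h
  · rw [closure_ball _ hr.ne']
    exact mem_closedBall_zero_iff.2 hζ

theorem ball_sub {i : ℕ} {b : ℂ} (hb : b ∈ P.ring i) :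
    ball b (P.r (i + 1) - P.r i) ⊆ ball 0 (P.r (i + 1)) :=
  ball_subset_ball' (by rw [dist_zero_right, P.norm_ring i b hb]; linarith)

theorem ring_lt {i : ℕ} {b : ℂ} (hb : b ∈ P.ring i) : ‖b‖ < 1 :=
  (P.norm_ring i b hb).trans_lt (P.r_lt_one i)

theorem exists_ring {ζ : ℂ} (h : ‖ζ‖ < 1) : ∃ i, ‖ζ‖ < P.r i :=
  (P.r_tendsto.eventually (lt_mem_nhds h)).exists

/-- the radius in the first variable -/
def rho (i : ℕ) : ℝ := min (2 * P.s) (Real.exp (-P.R / 2) / 2) / 2 ^ i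

theorem rho_pos (i : ℕ) : 0 < rho P i := by
  have := P.s_pos
  unfold rho; positivity

theorem rho_succ (i : ℕ) : rho P (i + 1) = rho P i / 2 := by
  unfold rho; rw [pow_succ, div_div]

theorem rho_anti {i j : ℕ} (h : i ≤ j) : rho P j ≤ rho P i := by
  have := P.s_pos
  unfold rho
  gcongr
  norm_num

theorem rho_le (i : ℕ) : rho P i ≤ 2 * P.s := by
  refine (rho_anti P (Nat.zero_le i)).trans ?_
  simp [rho]

theorem rho_sq (i : ℕ) : rho P i ^ 2 ≤ (1 - P.r i ^ 2) / 4 := by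
  have h1 : rho P i ≤ Real.exp (-P.R / 2) / 2 / 2 ^ i := by
    unfold rho; gcongr; exact min_le_right _ _
  have h2 : Real.exp (-P.R / 2) ^ 2 = Real.exp (-P.R) := by
    rw [← Real.exp_nat_mul]; congr 1; push_cast; ring
  have h3 : (1 : ℝ) ≤ 2 ^ i := one_le_pow₀ one_le_two
  calc rho P i ^ 2 ≤ (Real.exp (-P.R / 2) / 2 / 2 ^ i) ^ 2 := by
        have := (rho_pos P i).le
        gcongr
    _ = Real.exp (-P.R) / 2 ^ i / 4 / 2 ^ i := by rw [← h2]; field_simp; norm_num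
    _ ≤ Real.exp (-P.R) / 2 ^ i / 4 := div_le_self (by positivity) h3
    _ ≤ _ := by have := P.r_low i; linarith

theorem box_aux {i : ℕ} {t ζ : ℂ} (ht : ‖t‖ < rho P i) (hζ : ‖ζ‖ ≤ P.r i) :
    ‖t‖ ^ 2 ≤ (1 - ‖ζ‖ ^ 2) / 4 ∧ Real.exp (-P.R) / 2 ^ (i + 1) ≤ 1 - (‖t‖ ^ 2 + ‖ζ‖ ^ 2) := by
  have h1 : ‖t‖ ^ 2 ≤ rho P i ^ 2 := by gcongr
  have h2 : ‖ζ‖ ^ 2 ≤ P.r i ^ 2 := by gcongr
  have h3 := rho_sq P i
  have h4 := P.r_low i
  have h5 : 0 < Real.exp (-P.R) / 2 ^ i := by positivity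
  rw [pow_succ (2 : ℝ) i, ← div_div]
  constructor <;> linarith

theorem box_mem {i : ℕ} {t ζ : ℂ} (ht : ‖t‖ < rho P i) (hζ : ‖ζ‖ ≤ P.r i) :
    (![t, ζ] : E2) ∈ Wset P.s := by
  refine ⟨?_, ht.trans_le (rho_le P i)⟩
  have h := (box_aux P ht hζ).2
  have h5 : 0 < Real.exp (-P.R) / 2 ^ (i + 1) := by positivity
  change nsq _ < 1
  rw [nsq_pair]; linarith

theorem neg_log_le {x R : ℝ} {k : ℕ} (h : Real.exp (-R) / 2 ^ k ≤ x) : -Real.log x ≤ R + k := by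
  have h1 := Real.log_le_log (by positivity) h
  rw [Real.log_div (by positivity) (by positivity), Real.log_exp, Real.log_pow] at h1
  have h2 : Real.log 2 ≤ 1 := by linarith [Real.log_two_lt_d9]
  nlinarith [(Nat.cast_nonneg k : (0 : ℝ) ≤ k)]

theorem exp_le_three_pow (k : ℕ) : Real.exp k ≤ 3 ^ k := by
  rw [← mul_one (k : ℝ), Real.exp_nat_mul]
  exact pow_le_pow_left₀ (Real.exp_pos _).le (by linarith [Real.exp_one_lt_d9]) k

variable (T : TreeFun P) (ε μ lam C : ℝ)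

/-- the class of functions -/
def Cls (a : E2 → ℂ) : Prop :=
  Hol a (Wset P.s) ∧ ∀ z ∈ Wset P.s, ‖a z‖ ≤ C * Real.exp (lam * (μ * psi z + ε * T.v z))

/-- the numerical hypotheses -/
structure Hyp : Prop where
  hA : 0 < A
  hε : 0 ≤ ε
  hμ : 0 ≤ μ
  hlam : 0 ≤ lam
  hC : 0 ≤ C
  h1 : lam * ε * A ≤ 1 / 2
  h2 : lam * μ ≤ 1 / 2
  h3 : 1 ≤ lam * (ε * Dp - μ * P.R)

/-- the constant -/
def EE : ℝ := 3 * C * Real.exp (lam * μ * P.R)

/-- the change of the weight -/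
def phi (b y : ℂ) : ℝ :=
  lam * (μ * (-Real.log (1 - ‖b‖ ^ 2) + 2 * Real.log ‖1 + conj b * y‖) + ε * P.χ (tau b y))

variable {P T ε μ lam C}

theorem Hyp.EE_nonneg (H : Hyp P ε μ lam C) : 0 ≤ EE P μ lam C := by
  have := H.hC
  unfold EE; positivity

theorem Cls.box (H : Hyp P ε μ lam C) {a : E2 → ℂ} (ha : Cls P T ε μ lam C a) {i : ℕ} {t ζ : ℂ}
    (ht : ‖t‖ < rho P i) (hζ : ‖ζ‖ ≤ P.r i) : ‖a ![t, ζ]‖ ≤ EE P μ lam C * 3 ^ i := by
  obtain ⟨b1, b2⟩ := box_aux P ht hζ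
  refine (ha.2 _ (box_mem P ht hζ)).trans ?_
  have hv : T.v ![t, ζ] = P.χ ζ := T.flat _ (hζ.trans_lt (P.r_lt_one i)) b1
  have h1 := P.upper i ζ hζ
  have h2 : psi ![t, ζ] ≤ P.R + (i + 1 : ℕ) := by
    unfold psi; rw [nsq_pair]; exact neg_log_le b2
  have h3 : lam * (μ * psi ![t, ζ] + ε * T.v ![t, ζ]) ≤ lam * μ * P.R + (i + 1 : ℕ) := by
    rw [hv]
    push_cast at h2 ⊢
    have e1 := mul_le_mul_of_nonneg_left h2 (mul_nonneg H.hlam H.hμ)
    have e2 := mul_le_mul_of_nonneg_left h1 (mul_nonneg H.hlam H.hε)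
    have e3 : (0 : ℝ) ≤ i + 1 := by positivity
    have e4 := mul_le_mul_of_nonneg_right H.h1 e3
    have e5 := mul_le_mul_of_nonneg_right H.h2 e3
    nlinarith
  calc _ ≤ C * Real.exp (lam * μ * P.R + (i + 1 : ℕ)) :=
        mul_le_mul_of_nonneg_left (Real.exp_le_exp.2 h3) H.hC
    _ ≤ C * (Real.exp (lam * μ * P.R) * 3 ^ (i + 1)) := by
        rw [Real.exp_add]
        have := H.hC
        gcongr
        exact exp_le_three_pow _
    _ = _ := by unfold EE; ring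

theorem Cls.diff_snd {a : E2 → ℂ} (ha : Cls P T ε μ lam C a) {i : ℕ} {t : ℂ}
    (ht : ‖t‖ < rho P i) : DifferentiableOn ℂ (fun ζ => a ![t, ζ]) (ball 0 (P.r i)) :=
  ha.1 _ _ isOpen_ball (Kill.diff_snd t).differentiableOn fun _ hζ =>
    box_mem P ht (mem_ball_zero_iff.1 hζ).le

theorem Cls.diff_fst {a : E2 → ℂ} (ha : Cls P T ε μ lam C a) {i : ℕ} {ζ : ℂ}
    (hζ : ‖ζ‖ ≤ P.r i) : DifferentiableOn ℂ (fun t => a ![t, ζ]) (ball 0 (rho P i)) :=
  ha.1 _ _ isOpen_ball (Kill.diff_fst ζ).differentiableOn fun _ ht =>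
    box_mem P (mem_ball_zero_iff.1 ht) hζ

theorem kapInv_maps {i : ℕ} {b : ℂ} (hb : b ∈ P.ring i) {z : E2} (hz : z ∈ Wset P.s) :
    kapInv b z ∈ Wset P.s := by
  have h1 := kapInv_mem (ring_lt P hb) hz.1
  refine ⟨h1, ?_⟩
  have h2 := P.outer i b hb (z 0) hz.2
  have h3 : nsq (kapInv b z) < 1 := h1
  rw [← eta (kapInv b z), nsq_pair] at h3
  have h4 : kapInv b z 1 = tau b (z 0) := rfl
  rw [h4] at h3
  have hs := P.s_pos
  have h5 : ‖kapInv b z 0‖ ^ 2 < P.s ^ 2 := by linarith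
  have := lt_of_pow_lt_pow_left₀ 2 hs.le h5
  linarith

/-- transfer to a child -/
theorem Cls.transfer {a : E2 → ℂ} (ha : Cls P T ε μ lam C a) {i : ℕ} {b : ℂ} (hb : b ∈ P.ring i) :
    ∃ a', Cls P T ε μ lam C a' ∧ ∀ z ∈ Wset P.s,
      ‖a (kapInv b z)‖ = ‖a' z‖ * Real.exp (phi P ε μ lam b (z 0)) := by
  have hb1 := ring_lt P hb
  obtain ⟨G, hG, hGχ⟩ := P.harm i b hb
  let Φ : ℂ → ℂ := fun y =>
    lam * (μ * (-(Real.log (1 - ‖b‖ ^ 2) : ℝ) + 2 * Complex.log (1 + conj b * y)) + ε * G y)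
  have hre : ∀ y ∈ ball (0 : ℂ) (2 * P.s), (Φ y).re = phi P ε μ lam b y := by
    intro y hy
    unfold phi
    rw [hGχ y hy, ← Complex.log_re]
    simp only [Φ, re_ofReal_mul, add_re, neg_re, ofReal_re]
    simp
  have hΦ : DifferentiableOn ℂ Φ (ball 0 (2 * P.s)) := by
    intro y hy
    have hy1 : ‖y‖ < 1 := by
      have := mem_ball_zero_iff.1 hy
      linarith [P.s_le]
    have hsl : 1 + conj b * y ∈ slitPlane := by
      refine Complex.mem_slitPlane_of_norm_lt_one ?_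
      rw [norm_mul, Complex.norm_conj]
      exact mul_lt_one_of_nonneg_of_lt_one_left (norm_nonneg _) hb1 hy1.le
    have hl : DifferentiableAt ℂ (fun y => Complex.log (1 + conj b * y)) y :=
      DifferentiableAt.clog (by fun_prop) hsl
    exact ((((hl.const_mul 2).const_add _).const_mul _).differentiableWithinAt.add
      ((hG y hy).const_mul _)).const_mul _
  have hn : ∀ z ∈ Wset P.s, ‖a (kapInv b z)‖ =
      ‖a (kapInv b z) * Complex.exp (-Φ (z 0))‖ * Real.exp (phi P ε μ lam b (z 0)) := by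
    intro z hz
    rw [norm_mul, Complex.norm_exp, neg_re, hre _ (mem_ball_zero_iff.2 hz.2), mul_assoc,
      ← Real.exp_add, neg_add_cancel, Real.exp_zero, mul_one]
  refine ⟨fun z => a (kapInv b z) * Complex.exp (-Φ (z 0)), ⟨fun γ s hs hγ hm => ?_, fun z hz => ?_⟩,
    hn⟩
  · refine DifferentiableOn.mul (ha.1 (fun t => kapInv b (γ t)) s hs (fun t ht => ?_)
      fun t ht => kapInv_maps hb (hm ht)) (DifferentiableOn.cexp (DifferentiableOn.neg ?_))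
    · have h1 := ((isU_Kinv hb1).analyticAt (hm ht).1).differentiableAt
      rw [show act (Kinv b) = kapInv b from funext (act_Kinv hb1)] at h1
      exact h1.comp_differentiableWithinAt t (hγ t ht)
    · exact hΦ.comp (differentiableOn_pi.1 hγ 0) fun t ht => mem_ball_zero_iff.2 (hm ht).2
  · refine le_of_mul_le_mul_right ?_ (Real.exp_pos (phi P ε μ lam b (z 0)))
    rw [← hn z hz]
    refine (ha.2 _ (kapInv_maps hb hz)).trans_eq ?_
    rw [mul_assoc, ← Real.exp_add, psi_kapInv hb1 hz.1, T.step i b hb z hz]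
    unfold phi
    congr 2
    ring

theorem zero_mem_W : (0 : E2) ∈ Wset P.s := ⟨zero_mem_B2, by simpa using P.s_pos⟩

theorem Cls.ring_val (H : Hyp P ε μ lam C) {m : ℝ} (hm : ∀ a, Cls P T ε μ lam C a → ‖a 0‖ ≤ m)
    {a : E2 → ℂ} (ha : Cls P T ε μ lam C a) {i : ℕ} {b : ℂ} (hb : b ∈ P.ring i) :
    ‖a ![0, b]‖ ≤ 2 / 5 * m * 3 ^ i := by
  obtain ⟨a', ha', h⟩ := ha.transfer hb
  have h0 : kapInv b 0 = ![0, b] := by simp [kapInv, tau_zero]
  have h1 := h 0 zero_mem_W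
  rw [h0] at h1
  have h2 : phi P ε μ lam b ((0 : E2) 0) ≤ -1 + i := by
    unfold phi
    have e0 := neg_log_le (P.r_low i)
    rw [← P.norm_ring i b hb] at e0
    have e1 := mul_le_mul_of_nonneg_left e0 (mul_nonneg H.hlam H.hμ)
    have e2 := mul_le_mul_of_nonneg_left (P.dip i b hb) (mul_nonneg H.hlam H.hε)
    have e3 : (0 : ℝ) ≤ i := by positivity
    have e4 := mul_le_mul_of_nonneg_right H.h1 e3
    have e5 := mul_le_mul_of_nonneg_right H.h2 e3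
    have e6 := H.h3
    simp only [Pi.zero_apply, mul_zero, add_zero, norm_one, Real.log_one, tau_zero]
    nlinarith
  have h3 : Real.exp (-1 + i) ≤ 2 / 5 * 3 ^ i := by
    rw [Real.exp_add]
    exact mul_le_mul (by linarith [Real.exp_neg_one_lt_d9]) (exp_le_three_pow i)
      (Real.exp_pos _).le (by norm_num)
  have h4 := hm a' ha'
  calc _ ≤ m * (2 / 5 * 3 ^ i) := by
        rw [h1]
        exact mul_le_mul h4 ((Real.exp_le_exp.2 h2).trans h3) (Real.exp_pos _).le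
          ((norm_nonneg _).trans h4)
    _ = _ := by ring

theorem Cls.axis_rec (H : Hyp P ε μ lam C) {m : ℝ} (hm : ∀ a, Cls P T ε μ lam C a → ‖a 0‖ ≤ m)
    {a : E2 → ℂ} (ha : Cls P T ε μ lam C a) (n : ℕ) : ∀ (i : ℕ) (ζ : ℂ), ‖ζ‖ ≤ P.r i →
      ‖a ![0, ζ]‖ ≤ m / 2 * 3 ^ i + EE P μ lam C * 3 ^ i / 5 ^ n := by
  have hm0 : 0 ≤ m := (norm_nonneg _).trans (hm a ha)
  have h0 : ∀ i, ‖(0 : ℂ)‖ < rho P i := fun i => by simpa using rho_pos P i
  induction n with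
  | zero =>
    intro i ζ hζ
    have := ha.box H (h0 i) hζ
    have h2 : 0 ≤ m / 2 * 3 ^ i := by positivity
    rw [pow_zero, div_one]; linarith
  | succ n ih =>
    intro i ζ hζ
    refine ring_step P (f := fun ζ => a ![0, ζ]) (ha.diff_snd (h0 _)) (fun b hb w hw => ?_) hζ
    have hδ : 0 < P.r (i + 1) - P.r i := sub_pos.2 (P.r_lt i)
    set M := m / 2 * 3 ^ (i + 1) + EE P μ lam C * 3 ^ (i + 1) / 5 ^ n with hM
    have hM0 : 0 ≤ M := by have := H.EE_nonneg; positivity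
    have hbM := ih (i + 1) b ((P.norm_ring i b hb).trans_le (P.r_lt i).le)
    have h1 := Complex.dist_le_div_mul_dist_of_mapsTo_ball (f := fun ζ => a ![0, ζ]) (c := b)
      (z := w) (R₂ := 2 * M) ((ha.diff_snd (h0 _)).mono (ball_sub P hb))
      (fun x hx => by
        rw [mem_closedBall, dist_eq_norm]
        have := ih (i + 1) x (mem_ball_zero_iff.1 (ball_sub P hb hx)).le
        linarith [norm_sub_le (a ![0, x]) (a ![0, b])])
      (by rw [mem_ball, dist_eq_norm]; linarith)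
    rw [dist_eq_norm, dist_eq_norm] at h1
    have h2 : 2 * M / (P.r (i + 1) - P.r i) * ‖w - b‖ ≤ M / 15 := by
      calc _ ≤ 2 * M / (P.r (i + 1) - P.r i) * ((P.r (i + 1) - P.r i) / 30) := by gcongr
        _ = _ := by field_simp; ring
    have h3 := ha.ring_val H hm hb
    have h4 := norm_le_insert' (a ![0, w]) (a ![0, b])
    have h5 : M / 15 = m / 10 * 3 ^ i + EE P μ lam C * 3 ^ i / 5 ^ (n + 1) := by
      rw [hM, pow_succ, pow_succ]; field_simp; ring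
    change ‖a ![0, w]‖ ≤ _
    linarith

theorem Cls.axis_le (H : Hyp P ε μ lam C) {m : ℝ} (hm : ∀ a, Cls P T ε μ lam C a → ‖a 0‖ ≤ m)
    {a : E2 → ℂ} (ha : Cls P T ε μ lam C a) {i : ℕ} {ζ : ℂ} (hζ : ‖ζ‖ ≤ P.r i) :
    ‖a ![0, ζ]‖ ≤ m / 2 * 3 ^ i :=
  le_of_geom (θ := 5) (by norm_num) fun n => ha.axis_rec H hm n i ζ hζ

theorem Cls.axis_zero (H : Hyp P ε μ lam C) {a : E2 → ℂ} (ha : Cls P T ε μ lam C a) {i : ℕ} {ζ : ℂ}
    (hζ : ‖ζ‖ ≤ P.r i) : a ![0, ζ] = 0 := by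
  have e : (![0, 0] : E2) = 0 := eta 0
  have hr : ‖(0 : ℂ)‖ ≤ P.r 0 := by simpa using (P.r_pos 0).le
  have h1 : ∀ k : ℕ, ∀ a, Cls P T ε μ lam C a → ‖a 0‖ ≤ EE P μ lam C / 2 ^ k := by
    intro k
    induction k with
    | zero =>
      intro a ha
      have := ha.box H (t := 0) (by simpa using rho_pos P 0) hr
      simpa [e] using this
    | succ k ih =>
      intro a ha
      have := ha.axis_le H ih hr
      rwa [e, pow_zero, mul_one, div_div, ← pow_succ] at this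
  have h2 : ∀ a, Cls P T ε μ lam C a → ‖a 0‖ ≤ 0 := fun a ha =>
    le_of_geom (θ := 2) (by norm_num) fun n => by rw [zero_add]; exact h1 n a ha
  simpa using ha.axis_le H h2 hζ

variable (P T ε μ lam C) in
/-- vanishing of order `j` along the axis, quantitatively -/
def QQ (j : ℕ) : Prop :=
  ∀ a, Cls P T ε μ lam C a → ∀ (i : ℕ) (t ζ : ℂ), ‖t‖ < rho P i → ‖ζ‖ ≤ P.r i →
    ‖a ![t, ζ]‖ ≤ EE P μ lam C * 3 ^ i * (‖t‖ / rho P i) ^ j

theorem qq_of_o (H : Hyp P ε μ lam C) {j : ℕ} (h : ∀ a, Cls P T ε μ lam C a → ∀ (i : ℕ) (ζ : ℂ),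
    ‖ζ‖ ≤ P.r i → (fun t => a ![t, ζ]) =o[𝓝 0] fun t : ℂ => ‖t - 0‖ ^ j) :
    QQ P T ε μ lam C (j + 1) := by
  intro a ha i t ζ ht hζ
  have := schwarz_o (ha.diff_fst hζ) (fun w hw => ha.box H (mem_ball_zero_iff.1 hw) hζ)
    (ha.axis_zero H hζ) (h a ha i ζ hζ) (mem_ball_zero_iff.2 ht)
  rwa [sub_zero] at this

theorem qq_one (H : Hyp P ε μ lam C) : QQ P T ε μ lam C 1 := by
  refine qq_of_o H fun a ha i ζ hζ => ?_
  simp only [pow_zero, Asymptotics.isLittleO_one_iff]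
  have h := (ha.diff_fst hζ).continuousOn.continuousAt (ball_mem_nhds _ (rho_pos P i))
  have h2 := h.tendsto
  rwa [ha.axis_zero H hζ] at h2

/-- zeros at the ring points -/
theorem Cls.ring_O (H : Hyp P ε μ lam C) {j : ℕ} (hQ : QQ P T ε μ lam C j) {a : E2 → ℂ}
    (ha : Cls P T ε μ lam C a) {i : ℕ} {b : ℂ} (hb : b ∈ P.ring i) {t : ℂ}
    (ht : ‖t‖ < rho P (i + 1)) : ∃ K, ∀ᶠ w in 𝓝 b, ‖a ![t, w]‖ ≤ K * ‖w - b‖ ^ j := by
  have hb1 := ring_lt P hb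
  have hbr : ‖b‖ < P.r (i + 1) := (P.norm_ring i b hb).trans_lt (P.r_lt i)
  obtain ⟨a', ha', h⟩ := ha.transfer hb
  have hm := (box_mem P ht hbr.le).1
  obtain ⟨k, hk⟩ := exists_ring P (norm_lt_one_of_mem (kap_mem hb1 hm) 1)
  have hc : ContinuousAt (fun w : ℂ => kap b ![t, w]) b := by
    have h1 := ((isU_Km hb1).analyticAt hm).continuousAt
    rw [show act (Km b) = kap b from funext (act_Km hb1)] at h1
    exact ContinuousAt.comp (f := fun w : ℂ => (![t, w] : E2)) h1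
      (Kill.diff_snd t).continuous.continuousAt
  have c0 : ContinuousAt (fun w : ℂ => ‖kap b ![t, w] 0‖) b :=
    ((continuous_apply 0).continuousAt.comp hc).norm
  have c1 : ContinuousAt (fun w : ℂ => ‖kap b ![t, w] 1‖) b :=
    ((continuous_apply 1).continuousAt.comp hc).norm
  have v0 : ‖kap b ![t, b] 0‖ < rho P k := by simpa [kap, mob] using rho_pos P k
  set L : ℝ := lam * (μ * (-Real.log (1 - ‖b‖ ^ 2) + 2 * Real.log 2) + ε * (((i + 1 : ℕ) + 1) * A))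
  refine ⟨EE P μ lam C * 3 ^ k * ((1 - ‖b‖)⁻¹ / rho P k) ^ j * Real.exp L, ?_⟩
  filter_upwards [c0.eventually (gt_mem_nhds v0), c1.eventually (gt_mem_nhds hk),
    continuous_norm.continuousAt.eventually (gt_mem_nhds hbr)] with w w0 w1 w2
  have hw1 : ‖w‖ < 1 := w2.trans (P.r_lt_one _)
  have hmw := (box_mem P ht w2.le).1
  have hW : kap b ![t, w] ∈ Wset P.s := by rw [← eta (kap b ![t, w])]; exact box_mem P w0 w1.le
  have e1 := h _ hW
  rw [kapInv_kap hb1 hmw] at e1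
  have e2 := hQ a' ha' k _ _ w0 w1.le
  rw [eta] at e2
  have e0 : kap b ![t, w] 0 = mob b w := rfl
  rw [e0] at e1 e2
  have e3 : ‖mob b w‖ ≤ (1 - ‖b‖)⁻¹ * ‖w - b‖ := by
    have h1 : 1 - ‖b‖ ≤ ‖1 - conj b * w‖ := by
      have h2 := norm_sub_norm_le (1 : ℂ) (conj b * w)
      rw [norm_one, norm_mul, Complex.norm_conj] at h2
      nlinarith [norm_nonneg b]
    rw [mob, norm_div, inv_mul_eq_div]
    gcongr
  have e4 : phi P ε μ lam b (mob b w) ≤ L := by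
    unfold phi
    rw [tau_mob hb1 hw1]
    have h1 := P.upper (i + 1) w w2.le
    have h2 : Real.log ‖1 + conj b * mob b w‖ ≤ Real.log 2 := by
      refine Real.log_le_log (norm_pos_iff.2 (one_add_conj_mul_ne hb1 (norm_mob_lt hb1 hw1))) ?_
      have h3 := norm_add_le (1 : ℂ) (conj b * mob b w)
      rw [norm_one, norm_mul, Complex.norm_conj] at h3
      nlinarith [norm_nonneg b, norm_mob_lt hb1 hw1, norm_nonneg (mob b w)]
    exact mul_le_mul_of_nonneg_left (add_le_add (mul_le_mul_of_nonneg_left (by linarith) H.hμ)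
      (mul_le_mul_of_nonneg_left h1 H.hε)) H.hlam
  have hE := H.EE_nonneg
  have hρ := rho_pos P k
  calc ‖a ![t, w]‖ ≤ EE P μ lam C * 3 ^ k * ((1 - ‖b‖)⁻¹ * ‖w - b‖ / rho P k) ^ j * Real.exp L := by
        rw [e1]
        refine mul_le_mul (e2.trans ?_) (Real.exp_le_exp.2 e4) (Real.exp_pos _).le ?_
        · gcongr
        · have : 0 < 1 - ‖b‖ := by linarith
          positivity
    _ = _ := by rw [mul_div_right_comm, mul_pow]; ring

theorem Cls.step_rec (H : Hyp P ε μ lam C) {j : ℕ} (hQ : QQ P T ε μ lam C (j + 1)) {a : E2 → ℂ}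
    (ha : Cls P T ε μ lam C a) (n : ℕ) : ∀ (i : ℕ) (t ζ : ℂ), ‖t‖ < rho P (i + n) → ‖ζ‖ ≤ P.r i →
      ‖a ![t, ζ]‖ ≤ EE P μ lam C * 3 ^ i * (‖t‖ / rho P i) ^ (j + 1) / 5 ^ n := by
  induction n with
  | zero =>
    intro i t ζ ht hζ
    simpa using hQ a ha i t ζ ht hζ
  | succ n ih =>
    intro i t ζ ht hζ
    have ht1 : ‖t‖ < rho P (i + 1) := ht.trans_le (rho_anti P (by omega))
    have ht2 : ‖t‖ < rho P (i + 1 + n) := by rwa [add_assoc, add_comm 1 n]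
    refine ring_step P (f := fun ζ => a ![t, ζ]) (ha.diff_snd ht1) (fun b hb w hw => ?_) hζ
    have hδ : 0 < P.r (i + 1) - P.r i := sub_pos.2 (P.r_lt i)
    obtain ⟨K, hK⟩ := ha.ring_O H hQ hb ht1
    have h1 := schwarz_O (z := w) ((ha.diff_snd ht1).mono (ball_sub P hb))
      (fun x hx => ih (i + 1) t x ht2 (mem_ball_zero_iff.1 (ball_sub P hb hx)).le) hK
      (by rw [mem_ball, dist_eq_norm]; linarith)
    have hE := H.EE_nonneg
    have hρ := rho_pos P i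
    have hρ' := rho_pos P (i + 1)
    have h2 : ‖w - b‖ / (P.r (i + 1) - P.r i) ≤ 1 / 30 := by
      rw [div_le_iff₀ hδ]; linarith
    have h3 : (2 : ℝ) ^ (j + 1) * (1 / 30) ^ (j + 1) ≤ 1 / 15 := by
      rw [← mul_pow, pow_succ]
      have : ((2 : ℝ) * (1 / 30)) ^ j ≤ 1 := pow_le_one₀ (by norm_num) (by norm_num)
      linarith
    refine h1.trans ?_
    calc _ ≤ EE P μ lam C * 3 ^ (i + 1) * (‖t‖ / rho P (i + 1)) ^ (j + 1) / 5 ^ n *
          (1 / 30) ^ (j + 1) := by gcongr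
      _ = EE P μ lam C * 3 ^ i * (‖t‖ / rho P i) ^ (j + 1) / 5 ^ n * 3 *
          (2 ^ (j + 1) * (1 / 30) ^ (j + 1)) := by
          rw [rho_succ, div_div_eq_mul_div, mul_div_right_comm ‖t‖, mul_pow]; ring
      _ ≤ EE P μ lam C * 3 ^ i * (‖t‖ / rho P i) ^ (j + 1) / 5 ^ n * 3 * (1 / 15) := by gcongr
      _ = _ := by rw [pow_succ (5 : ℝ) n]; field_simp; ring

theorem qq_succ (H : Hyp P ε μ lam C) {j : ℕ} (hQ : QQ P T ε μ lam C (j + 1)) :
    QQ P T ε μ lam C (j + 1 + 1) := by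
  refine qq_of_o H fun a ha i ζ hζ => Asymptotics.isLittleO_iff.2 fun c hc => ?_
  have h1 : Tendsto (fun n : ℕ => EE P μ lam C * 3 ^ i / rho P i ^ (j + 1) / 5 ^ n) atTop (𝓝 0) :=
    tendsto_const_nhds.div_atTop (tendsto_pow_atTop_atTop_of_one_lt (by norm_num))
  obtain ⟨n, hn⟩ := (h1.eventually (gt_mem_nhds hc)).exists
  filter_upwards [ball_mem_nhds (0 : ℂ) (rho_pos P (i + n))] with t ht
  refine (ha.step_rec H hQ n i t ζ (mem_ball_zero_iff.1 ht) hζ).trans ?_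
  rw [sub_zero, norm_pow, norm_norm]
  calc _ = EE P μ lam C * 3 ^ i / rho P i ^ (j + 1) / 5 ^ n * ‖t‖ ^ (j + 1) := by
        rw [div_pow]; ring
    _ ≤ _ := by gcongr

theorem qq_all (H : Hyp P ε μ lam C) (j : ℕ) : QQ P T ε μ lam C (j + 1) := by
  induction j with
  | zero => exact qq_one H
  | succ j ih => exact qq_succ H ih

theorem Cls.eq_zero (H : Hyp P ε μ lam C) {a : E2 → ℂ} (ha : Cls P T ε μ lam C a) {t ζ : ℂ}
    (ht : ‖t‖ < rho P 0) (hζ : ‖ζ‖ ≤ P.r 0) : a ![t, ζ] = 0 := by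
  have hρ := rho_pos P 0
  have h1 : Tendsto (fun j : ℕ => EE P μ lam C * 3 ^ 0 * (‖t‖ / rho P 0) ^ (j + 1)) atTop
      (𝓝 (EE P μ lam C * 3 ^ 0 * 0)) :=
    ((tendsto_pow_atTop_nhds_zero_of_lt_one (by positivity) ((div_lt_one hρ).2 ht)).comp
      (tendsto_add_atTop_nat 1)).const_mul _
  rw [mul_zero] at h1
  exact norm_le_zero_iff.1 (ge_of_tendsto' h1 fun j => qq_all H j a ha 0 t ζ ht hζ)

end Kill

theorem kill {A Dp : ℝ} (hA : 0 < A) (P : DiscData A Dp) (T : TreeFun P) {ε μ lam C : ℝ}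
    (hε : 0 ≤ ε) (hμ : 0 ≤ μ) (hlam : 0 ≤ lam) (h1 : lam * ε * A ≤ 1 / 2) (h2 : lam * μ ≤ 1 / 2)
    (h3 : 1 ≤ lam * (ε * Dp - μ * P.R)) {a : E2 → ℂ} (ha : Hol a (Wset P.s))
    (hb : ∀ z ∈ Wset P.s, ‖a z‖ ≤ C * Real.exp (lam * (μ * psi z + ε * T.v z))) :
    ∀ᶠ z in 𝓝 (0 : E2), a z = 0 := by
  have H : Kill.Hyp P ε μ lam |C| := ⟨hA, hε, hμ, hlam, abs_nonneg C, h1, h2, h3⟩
  have hc : Kill.Cls P T ε μ lam |C| a := ⟨ha, fun z hz => (hb z hz).trans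
    (mul_le_mul_of_nonneg_right (le_abs_self C) (Real.exp_pos _).le)⟩
  filter_upwards [ball_mem_nhds (0 : E2) (Kill.rho_pos P 0), ball_mem_nhds (0 : E2) (P.r_pos 0)]
    with z z0 z1
  rw [← Kill.eta z]
  exact hc.eq_zero H ((norm_le_pi_norm z 0).trans_lt (mem_ball_zero_iff.1 z0))
    ((norm_le_pi_norm z 1).trans (mem_ball_zero_iff.1 z1).le)

end
end Crest.Agent.R245
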