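import Crest.Agent.R245.FrameJB

/-! Row 245: the tree function. -/

open Complex Filter Topology Set Metric Matrix
open scoped ComplexConjugate ContDiff

namespace Crest.Agent.R245
noncomputable section

namespace DiscData

variable {A Dp : ℝ} (P : DiscData A Dp)

/-- `b` is the ring point whose disc contains `ζ` -/
def Ch (b ζ : ℂ) : Prop := (∃ i, b ∈ P.ring i) ∧ ‖mob b ζ‖ < 2 * P.s

open Classical in
/-- the point in child coordinates -/
def nxt (z : E2) : E2 := if h : ∃ b, P.Ch b (z 1) then kap h.choose z else 0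

/-- the tree function -/
def tv (z : E2) : ℝ := ∑' k, P.χ (P.nxt^[k] z 1)

variable {P}

theorem norm_lt_of_ring {i : ℕ} {b : ℂ} (hb : b ∈ P.ring i) : ‖b‖ < 1 :=
  (P.norm_ring i b hb).trans_lt (P.r_lt_one i)

theorem Ch.norm_lt {b ζ : ℂ} (h : P.Ch b ζ) : ‖b‖ < 1 :=
  let ⟨_, hi⟩ := h.1; norm_lt_of_ring hi

theorem Ch.unique {b b' ζ : ℂ} (h : P.Ch b ζ) (h' : P.Ch b' ζ) (hζ : ‖ζ‖ < 1) : b = b' := by
  obtain ⟨i, hi⟩ := h.1
  obtain ⟨i', hi'⟩ := h'.1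
  exact P.uniq i i' b hi b' hi' _ _ h.2 h'.2 (by rw [tau_mob h.norm_lt hζ, tau_mob h'.norm_lt hζ])

theorem Ch.outer {b ζ : ℂ} (h : P.Ch b ζ) (hζ : ‖ζ‖ < 1) : 1 - P.s ^ 2 < ‖ζ‖ ^ 2 := by
  obtain ⟨i, hi⟩ := h.1
  have := P.outer i b hi _ h.2
  rwa [tau_mob h.norm_lt hζ] at this

theorem Ch.nxt_eq {b : ℂ} {z : E2} (h : P.Ch b (z 1)) (hz : z ∈ B2) : P.nxt z = kap b z := by
  have hex : ∃ b, P.Ch b (z 1) := ⟨b, h⟩
  rw [nxt, dif_pos hex, hex.choose_spec.unique h (norm_lt_one_of_mem hz 1)]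

theorem nxt_eq_zero {z : E2} (h : ¬∃ b, P.Ch b (z 1)) : P.nxt z = 0 := dif_neg h

theorem s_sq_le : P.s ^ 2 ≤ 1 / 64 := by nlinarith [P.s_pos, P.s_le]

theorem term_zero (k : ℕ) : P.χ (P.nxt^[k] 0 1) = 0 := by
  have h0 : P.nxt 0 = 0 := nxt_eq_zero fun ⟨b, hb⟩ => by
    have := hb.outer (by simp)
    simp only [Pi.zero_apply, norm_zero] at this
    linarith [s_sq_le (P := P)]
  rw [Function.iterate_fixed h0]
  refine P.zero _ ?_
  simp only [Pi.zero_apply, norm_zero]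
  linarith [s_sq_le (P := P)]

theorem Ch.norm_kap_zero {b : ℂ} {z : E2} (h : P.Ch b (z 1)) : ‖kap b z 0‖ < 1 / 4 := by
  have : ‖kap b z 0‖ < 2 * P.s := h.2
  linarith [P.s_le]

theorem Ch.grow {b : ℂ} {z : E2} (h : P.Ch b (z 1)) (hz : z ∈ B2) :
    4 * (1 - nsq z) ≤ 1 - nsq (kap b z) := by
  have hb := h.norm_lt
  have hz' := kap_mem hb hz
  have h1 := one_sub_nsq_kapInv hb hz'
  rw [kapInv_kap hb hz] at h1
  obtain ⟨i, hi⟩ := h.1
  have h2 : 1 - ‖b‖ ^ 2 ≤ 1 / 8 := P.norm_ring i b hi ▸ P.r_up i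
  have h3 : ‖conj b * kap b z 0‖ ≤ 1 / 4 := by
    rw [norm_mul, RCLike.norm_conj]
    nlinarith [h.norm_kap_zero, norm_nonneg b, norm_nonneg (kap b z 0)]
  have h4 : 3 / 4 ≤ ‖1 + conj b * kap b z 0‖ := by
    have := norm_sub_le (1 + conj b * kap b z 0) (conj b * kap b z 0)
    rw [add_sub_cancel_right, norm_one] at this
    linarith
  have h5 : 9 / 16 ≤ ‖1 + conj b * kap b z 0‖ ^ 2 := by nlinarith
  have h6 : 0 < 1 - nsq (kap b z) := sub_pos.mpr hz'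
  rw [h1, ← mul_div_assoc, div_le_iff₀ (by linarith)]
  nlinarith

theorem tree_ind {Q : E2 → Prop} (h : ∀ z ∈ B2, (∀ b, P.Ch b (z 1) → Q (kap b z)) → Q z) :
    ∀ z ∈ B2, Q z := by
  have key : ∀ n : ℕ, ∀ z ∈ B2, 1 < 4 ^ n * (1 - nsq z) → Q z := by
    intro n
    induction n with
    | zero =>
      intro z _ hn
      have : 0 ≤ nsq z := Finset.sum_nonneg fun _ _ => sq_nonneg _
      linarith
    | succ n ih =>
      intro z hz hn
      refine h z hz fun b hb => ih _ (kap_mem hb.norm_lt hz) (hn.trans_le ?_)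
      rw [pow_succ, mul_assoc]
      exact mul_le_mul_of_nonneg_left (hb.grow hz) (by positivity)
  intro z hz
  have h0 : 0 < 1 - nsq z := sub_pos.mpr hz
  obtain ⟨n, hn⟩ := pow_unbounded_of_one_lt (1 / (1 - nsq z)) (by norm_num : (1 : ℝ) < 4)
  exact key n z hz ((div_lt_iff₀ h0).mp hn)

theorem summable_term : ∀ z ∈ B2, Summable fun k => P.χ (P.nxt^[k] z 1) := by
  refine tree_ind (P := P) fun z hz ih => ?_
  rw [← summable_nat_add_iff 1]
  simp only [Function.iterate_succ_apply]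
  by_cases h : ∃ b, P.Ch b (z 1)
  · obtain ⟨b, hb⟩ := h
    rw [hb.nxt_eq hz]
    exact ih b hb
  · simp only [nxt_eq_zero h, term_zero]
    exact summable_zero

theorem tv_eq {z : E2} (hz : z ∈ B2) : P.tv z = P.χ (z 1) + P.tv (P.nxt z) :=
  (summable_term z hz).tsum_eq_zero_add

theorem tv_zero : P.tv 0 = 0 := by simp only [tv, term_zero, tsum_zero]

theorem Ch.tv_eq {b : ℂ} {z : E2} (h : P.Ch b (z 1)) (hz : z ∈ B2) :
    P.tv z = P.χ (z 1) + P.tv (kap b z) := by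
  rw [DiscData.tv_eq hz, h.nxt_eq hz]

theorem tv_eq_of_not {z : E2} (h : ¬∃ b, P.Ch b (z 1)) (hz : z ∈ B2) : P.tv z = P.χ (z 1) := by
  rw [tv_eq hz, nxt_eq_zero h, tv_zero, add_zero]

theorem tv_supp {z : E2} (hz : z ∈ B2) (h : ‖z 1‖ ^ 2 < 1 - P.s ^ 2) : P.tv z = 0 := by
  rw [tv_eq_of_not (fun ⟨_, hb⟩ => (hb.outer (norm_lt_one_of_mem hz 1)).not_gt h) hz]
  exact P.zero _ h.le

theorem Ch.tv_local {b : ℂ} {x : E2} (h : P.Ch b (x 1)) (hx : x ∈ B2) :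
    ∀ᶠ z in 𝓝 x, P.tv z = P.χ (z 1) + P.tv (kap b z) := by
  have hc : ContinuousAt (fun z : E2 => ‖mob b (z 1)‖) x := by
    have := one_sub_conj_mul_ne h.norm_lt (norm_lt_one_of_mem hx 1)
    unfold mob
    fun_prop (disch := assumption)
  filter_upwards [isOpen_B2.mem_nhds hx, hc.eventually_lt_const h.2] with z hz h1
  exact Ch.tv_eq ⟨h.1, h1⟩ hz

theorem tv_local_of_not {x : E2} (h : ¬∃ b, P.Ch b (x 1)) (hx : x ∈ B2) :
    ∀ᶠ z in 𝓝 x, P.tv z = P.χ (z 1) := by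
  have hx1 := norm_lt_one_of_mem hx 1
  have hc : ContinuousAt (fun z : E2 => ‖z 1 - x 1‖ / ((1 - ‖z 1‖) * (1 - ‖x 1‖))) x := by
    have : (1 - ‖x 1‖) * (1 - ‖x 1‖) ≠ 0 := mul_self_ne_zero.mpr (sub_pos.mpr hx1).ne'
    fun_prop (disch := assumption)
  filter_upwards [isOpen_B2.mem_nhds hx, hc.eventually_lt_const (u := P.s) (by simpa using P.s_pos)]
    with z hz h1
  by_cases h2 : ∃ b, P.Ch b (z 1)
  · obtain ⟨b, hb⟩ := h2
    have h3 : 2 * P.s ≤ ‖mob b (x 1)‖ := not_lt.mp fun h' => h ⟨b, hb.1, h'⟩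
    have h4 := norm_mob_sub_mob hb.norm_lt (norm_lt_one_of_mem hz 1) hx1
    have h5 := norm_sub_norm_le (mob b (x 1)) (mob b (z 1))
    rw [norm_sub_rev] at h5
    have h6 : P.s < ‖kap b z 0‖ := by
      show P.s < ‖mob b (z 1)‖
      linarith
    have h7 : nsq (kap b z) < 1 := kap_mem hb.norm_lt hz
    rw [nsq, Fin.sum_univ_two] at h7
    rw [hb.tv_eq hz, tv_supp (kap_mem hb.norm_lt hz) (by nlinarith [P.s_pos]), add_zero]
  · exact tv_eq_of_not h2 hz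

theorem sm_coord {z : E2} (hz : z ∈ B2) : Sm (fun y : E2 => P.χ (y 1)) z :=
  Sm.comp (f := fun y : E2 => y 1) (P.sm _ (norm_lt_one_of_mem hz 1))
    (Sm.of_contDiff (contDiff_apply ℝ ℂ 1))

theorem sm_tv : ∀ z ∈ B2, Sm P.tv z := by
  refine tree_ind (P := P) fun z hz ih => ?_
  by_cases h : ∃ b, P.Ch b (z 1)
  · obtain ⟨b, hb⟩ := h
    have h1 : Sm (kap b) z := by
      rw [← funext (act_Km hb.norm_lt)]
      exact (isU_Km hb.norm_lt).sm_act hz
    exact ((sm_coord hz).add ((ih b hb).comp h1)).congr (EventuallyEq.symm (hb.tv_local hz))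
  · exact (sm_coord hz).congr (EventuallyEq.symm (tv_local_of_not h hz))

theorem Ch.frame_local {b : ℂ} {G : M3} (hG : IsU G) (h : P.Ch b (act G 0 1)) :
    (fun y => P.χ (act G y 1) + P.tv (act (Km b * G) y)) =ᶠ[𝓝 0] fun y => P.tv (act G y) := by
  filter_upwards [isOpen_B2.mem_nhds zero_mem_B2,
    (hG.analyticAt zero_mem_B2).continuousAt.eventually (h.tv_local (hG.act_mem zero_mem_B2))]
    with y hy h1
  rw [h1, act_mul _ hG hy, act_Km h.norm_lt]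

theorem frame_local_of_not {G : M3} (hG : IsU G) (h : ¬∃ b, P.Ch b (act G 0 1)) :
    (fun y => P.χ (act G y 1)) =ᶠ[𝓝 0] fun y => P.tv (act G y) :=
  EventuallyEq.symm ((hG.analyticAt zero_mem_B2).continuousAt.eventually
    (tv_local_of_not h (hG.act_mem zero_mem_B2)))

theorem psh_tv : ∀ x ∈ B2, ∀ G, IsU G → act G 0 = x →
    ∀ X, 0 ≤ (Lv (fun y => P.tv (act G y)) 0 X X).re := by
  refine tree_ind (P := P) fun x hx ih G hG e X => ?_
  subst e
  have hx1 := norm_lt_one_of_mem hx 1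
  have h0 := Lv_coord_nonneg hG 1 (P.sm _ hx1) (P.psh _ hx1) X
  by_cases h : ∃ b, P.Ch b (act G 0 1)
  · obtain ⟨b, hb⟩ := h
    have hU := (isU_Km hb.norm_lt).mul hG
    rw [← Lv_congr (hb.frame_local hG), Lv_add ((sm_coord hx).comp (hG.sm_act zero_mem_B2))
      ((sm_tv _ (hU.act_mem zero_mem_B2)).comp (hU.sm_act zero_mem_B2)), add_re]
    exact add_nonneg h0 (ih b hb _ hU (by rw [act_mul _ hG zero_mem_B2, act_Km hb.norm_lt]) X)
  · rwa [← Lv_congr (frame_local_of_not hG h)]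

theorem jb_tv {K : ℝ} (hK : 0 ≤ K) (hc : ∀ G, IsU G → JB (fun y => P.χ (act G y 1)) 0
      (K * Real.sqrt ((1 - nsq (act G 0)) / (1 - ‖act G 0 1‖ ^ 2)))) :
    ∀ x ∈ B2, ∀ G, IsU G → act G 0 = x →
      JB (fun y => P.tv (act G y)) 0 (K * (5 - 4 * Real.sqrt (1 - nsq x))) := by
  refine tree_ind (P := P) fun x hx ih G hG e => ?_
  subst e
  by_cases h : ∃ b, P.Ch b (act G 0 1)
  · obtain ⟨b, hb⟩ := h
    have hU := (isU_Km hb.norm_lt).mul hG
    refine (((hc G hG).add (ih b hb _ hU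
      (by rw [act_mul _ hG zero_mem_B2, act_Km hb.norm_lt]))).congr (hb.frame_local hG)).mono ?_
    rw [← mul_add, ratio_kap hb.norm_lt hx]
    refine mul_le_mul_of_nonneg_left ?_ hK
    have h1 : 0 < 1 - nsq (kap b (act G 0)) := sub_pos.mpr (kap_mem hb.norm_lt hx)
    have h2 := Real.sq_sqrt h1.le
    have h3 := Real.sqrt_nonneg (1 - nsq (kap b (act G 0)))
    have h4 : Real.sqrt (1 - nsq (act G 0)) ≤ Real.sqrt (1 - nsq (kap b (act G 0))) / 2 :=
      Real.sqrt_le_iff.mpr ⟨by positivity, by rw [div_pow, h2]; linarith [hb.grow hx]⟩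
    have h5 : 1 / 4 ≤ 1 - ‖kap b (act G 0) 0‖ ^ 2 := by
      nlinarith [hb.norm_kap_zero, norm_nonneg (kap b (act G 0) 0)]
    have h6 : Real.sqrt ((1 - nsq (kap b (act G 0))) / (1 - ‖kap b (act G 0) 0‖ ^ 2)) ≤
        2 * Real.sqrt (1 - nsq (kap b (act G 0))) :=
      Real.sqrt_le_iff.mpr ⟨by positivity, by
        rw [mul_pow, h2, div_le_iff₀ (by linarith)]
        nlinarith⟩
    linarith
  · refine ((hc G hG).congr (frame_local_of_not hG h)).mono (mul_le_mul_of_nonneg_left ?_ hK)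
    have h1 : 0 < 1 - ‖act G 0 1‖ ^ 2 := by
      nlinarith [norm_lt_one_of_mem hx 1, norm_nonneg (act G 0 1)]
    have h2 : nsq (act G 0) = ‖act G 0 0‖ ^ 2 + ‖act G 0 1‖ ^ 2 := Fin.sum_univ_two _
    have h3 : Real.sqrt ((1 - nsq (act G 0)) / (1 - ‖act G 0 1‖ ^ 2)) ≤ 1 :=
      Real.sqrt_le_one.mpr (by rw [div_le_one h1]; nlinarith [sq_nonneg ‖act G 0 0‖])
    have h4 : Real.sqrt (1 - nsq (act G 0)) ≤ 1 :=
      Real.sqrt_le_one.mpr (by nlinarith [sq_nonneg ‖act G 0 0‖, sq_nonneg ‖act G 0 1‖])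
    linarith

end DiscData

open DiscData in
theorem exists_treeFun {A Dp : ℝ} (P : DiscData A Dp) : Nonempty (TreeFun P) := by
  obtain ⟨C, hC, hc⟩ := exists_jb_coord
  have hK : 0 ≤ C * P.M := mul_nonneg (by linarith) P.M_nonneg
  refine ⟨⟨P.tv, C * P.M * 5, by positivity, sm_tv, fun z => tv_supp, fun G hG => ?_,
    fun G hG => psh_tv _ (hG.act_mem zero_mem_B2) G hG rfl, fun i b hb z hz => ?_,
    fun z h1 h0 => ?_⟩⟩
  · refine (jb_tv hK (fun G hG => hc G 1 P.χ P.M hG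
      (P.jb _ (norm_lt_one_of_mem (hG.act_mem zero_mem_B2) 1))) _ (hG.act_mem zero_mem_B2)
      G hG rfl).mono (mul_le_mul_of_nonneg_left ?_ hK)
    linarith [Real.sqrt_nonneg (1 - nsq (act G 0))]
  · have hb1 := norm_lt_of_ring hb
    have hch : P.Ch b (kapInv b z 1) := ⟨⟨i, hb⟩, by
      show ‖mob b (tau b (z 0))‖ < _
      rw [mob_tau hb1 (norm_lt_one_of_mem hz.1 0)]
      exact hz.2⟩
    rw [hch.tv_eq (kapInv_mem hb1 hz.1), kap_kapInv hb1 hz.1]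
    rfl
  · have h2 : 0 < 1 - ‖z 1‖ ^ 2 := by nlinarith [norm_nonneg (z 1)]
    have hz : z ∈ B2 := by
      show nsq z < 1
      rw [nsq, Fin.sum_univ_two]
      linarith
    by_cases h : ∃ b, P.Ch b (z 1)
    · obtain ⟨b, hb⟩ := h
      have h3 := norm_kap_one_sq_le hb.norm_lt h1
      have h4 : ‖z 0‖ ^ 2 / (1 - ‖z 1‖ ^ 2) ≤ 1 / 4 := by
        rw [div_le_iff₀ h2]
        linarith
      rw [hb.tv_eq hz, tv_supp (kap_mem hb.norm_lt hz) (by linarith [s_sq_le (P := P)]), add_zero]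
    · exact tv_eq_of_not h hz

end
end Crest.Agent.R245
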