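import Crest.Agent.R245.Disc
import Crest.Agent.R245.Tree
import Crest.Agent.R245.Kill

/-! Row 245: trees for every range of exponents. -/

open Complex Filter Topology Set Metric Matrix
open scoped ComplexConjugate ContDiff

namespace Crest.Agent.R245
noncomputable section

theorem exists_treeData {J : ℝ} (hJ : 1 ≤ J) : Nonempty (TreeData J) := by
  obtain ⟨A, hA, hP⟩ := exists_discData
  have hJ0 : 0 < J := by linarith
  obtain ⟨ε, hε, hεA⟩ : ∃ ε : ℝ, 0 < ε ∧ J * ε * A = 1 / 2 :=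
    ⟨1 / (2 * J * A), by positivity, by field_simp⟩
  obtain ⟨P⟩ := hP (3 / ε) (by positivity)
  obtain ⟨T⟩ := exists_treeFun P
  have hR := P.R_nonneg
  refine ⟨⟨fun z => ε * T.v z, P.s, |ε| * T.M, min (1 / (P.R + 1)) (1 / (2 * J)), P.s_pos, P.s_le,
    mul_nonneg (abs_nonneg _) T.M_nonneg, by positivity,
    fun z hz => (Sm.const ε).mul (T.sm z hz), fun z hz h => by rw [T.supp z hz h, mul_zero],
    fun G hG => (T.jb G hG).const_mul ε, fun G hG X => ?_,
    fun μ lam C a hμ hμ0 hl hl' ha hb => ?_⟩⟩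
  · rw [Lv_const_mul (T.jb G hG).sm, re_ofReal_mul]
    exact mul_nonneg hε.le (T.psh G hG X)
  · have h1 : μ * (P.R + 1) ≤ 1 := (le_div_iff₀ (by positivity)).mp (hμ0.trans (min_le_left _ _))
    have h2 : μ * (2 * J) ≤ 1 := (le_div_iff₀ (by positivity)).mp (hμ0.trans (min_le_right _ _))
    refine kill hA P T hε.le hμ (by linarith) ?_ ?_ ?_ ha hb
    · rw [← hεA]
      gcongr
    · nlinarith
    · rw [mul_div_cancel₀ _ hε.ne']
      nlinarith

end
end Crest.Agent.R245
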