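import Crest.Agent.R245.Normal
import Crest.Agent.R245.TreeData
import Crest.Agent.R245.Fibre

/-! Row 245: the slowly varying functions `b`, `d` on the base. -/

open Complex Filter Topology Set Metric Matrix
open scoped ComplexConjugate ContDiff

namespace Crest.Agent.R245
noncomputable section

def muS (η : ℝ) : ℕ → ℝ
  | 0 => 1
  | n + 1 => muS η n - η * muS η n ^ 45

def cS (η : ℝ) : ℕ → ℝ
  | 0 => 0
  | n + 1 => cS η n + (muS η n - muS η (n + 1)) * (10 * n + 5)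

section Seq
variable {η : ℝ}

theorem muS_bounds (h0 : 0 < η) (h1 : η ≤ 1 / 2) (n : ℕ) :
    1 / ((n : ℝ) + 1) ≤ muS η n ∧ muS η n ≤ 1 := by
  induction n with
  | zero => simp [muS]
  | succ n ih =>
    obtain ⟨ha, hb⟩ := ih
    have hn : (0 : ℝ) < (n : ℝ) + 1 := by positivity
    have hp : 0 < muS η n := lt_of_lt_of_le (by positivity) ha
    have h2 : muS η n ^ 45 ≤ muS η n ^ 2 := pow_le_pow_of_le_one hp.le hb (by norm_num)
    have h3 : 0 ≤ η * muS η n ^ 45 := by positivity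
    have h4 : η * muS η n ^ 45 ≤ muS η n ^ 2 / 2 := by
      have := mul_le_mul h1 h2 (by positivity) (by norm_num)
      linarith
    simp only [muS]
    refine ⟨?_, by linarith⟩
    push_cast
    rw [div_le_iff₀ hn] at ha
    rw [div_le_iff₀ (by positivity)]
    set t := muS η n
    have h5 : (t - t ^ 2 / 2) * (n + 1 + 1) ≤ (t - η * t ^ 45) * (n + 1 + 1) :=
      mul_le_mul_of_nonneg_right (by linarith) (by positivity)
    have h6 : 1 ≤ (t - t ^ 2 / 2) * (n + 1 + 1) := by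
      have e : (t - t ^ 2 / 2) * (n + 1 + 1) = (1 - t / 2) * (t * (n + 1) + t) := by ring
      rw [e]
      have h7 : (1 - t / 2) * (1 + t) ≤ (1 - t / 2) * (t * (n + 1) + t) :=
        mul_le_mul_of_nonneg_left (by linarith) (by linarith)
      nlinarith
    linarith

theorem muS_pos (h0 : 0 < η) (h1 : η ≤ 1 / 2) (n : ℕ) : 0 < muS η n :=
  lt_of_lt_of_le (by positivity) (muS_bounds h0 h1 n).1

theorem muS_le_one (h0 : 0 < η) (h1 : η ≤ 1 / 2) (n : ℕ) : muS η n ≤ 1 := (muS_bounds h0 h1 n).2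

theorem muS_sub (n : ℕ) : muS η n - muS η (n + 1) = η * muS η n ^ 45 := by simp [muS]

theorem muS_succ_le (h0 : 0 < η) (h1 : η ≤ 1 / 2) (n : ℕ) : muS η (n + 1) ≤ muS η n := by
  have := muS_pos h0 h1 n
  have h := muS_sub (η := η) n
  have : 0 ≤ η * muS η n ^ 45 := by positivity
  linarith

theorem muS_anti (h0 : 0 < η) (h1 : η ≤ 1 / 2) : Antitone (muS η) :=
  antitone_nat_of_succ_le (muS_succ_le h0 h1)

theorem muS_half (h0 : 0 < η) (h1 : η ≤ 1 / 2) (n : ℕ) : muS η n / 2 ≤ muS η (n + 1) := by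
  have hp := muS_pos h0 h1 n
  have h := muS_sub (η := η) n
  have h2 : muS η n ^ 45 ≤ muS η n ^ 1 :=
    pow_le_pow_of_le_one hp.le (muS_le_one h0 h1 n) (by norm_num)
  have := mul_le_mul h1 h2 (by positivity) (by norm_num)
  linarith

theorem muS_small (h0 : 0 < η) (h1 : η ≤ 1 / 2) {ε : ℝ} (hε : 0 < ε) :
    ∃ N, ∀ n, N ≤ n → muS η n ≤ ε := by
  by_contra h
  push Not at h
  have h2 : ∀ n, ε ≤ muS η n := fun n => by
    obtain ⟨m, hm, hm'⟩ := h n
    exact hm'.le.trans (muS_anti h0 h1 hm)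
  have h3 : ∀ n : ℕ, muS η n ≤ 1 - n * (η * ε ^ 45) := by
    intro n
    induction n with
    | zero => simp [muS]
    | succ n ih =>
      have h4 := muS_sub (η := η) n
      have h5 : η * ε ^ 45 ≤ η * muS η n ^ 45 := by
        have := h2 n
        gcongr
      push_cast; linarith
  obtain ⟨n, hn⟩ := exists_nat_gt (1 / (η * ε ^ 45))
  rw [div_lt_iff₀ (by positivity)] at hn
  have := h3 n
  have := muS_pos h0 h1 n
  linarith

theorem cS_nonneg (h0 : 0 < η) (h1 : η ≤ 1 / 2) (n : ℕ) : 0 ≤ cS η n := by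
  induction n with
  | zero => simp [cS]
  | succ n ih =>
    have := muS_succ_le h0 h1 n
    simp only [cS]
    have : 0 ≤ (muS η n - muS η (n + 1)) * (10 * n + 5) :=
      mul_nonneg (by linarith) (by positivity)
    linarith

theorem beta_ge (h0 : 0 < η) (h1 : η ≤ 1 / 2) (n : ℕ) :
    ∑ i ∈ Finset.range (n + 1), (1 : ℝ) / (i + 1) ≤ muS η n * (10 * n + 5) + cS η n := by
  induction n with
  | zero => simp [muS, cS]
  | succ n ih =>
    rw [Finset.sum_range_succ]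
    have := (muS_bounds h0 h1 (n + 1)).1
    have h2 := muS_pos h0 h1 (n + 1)
    simp only [cS]
    push_cast at this ⊢
    linarith

theorem beta_large (h0 : 0 < η) (h1 : η ≤ 1 / 2) (c : ℝ) :
    ∃ N, ∀ n : ℕ, muS η (n + 1) * (10 * n) + cS η n ≤ c → n < N := by
  have ht := Real.tendsto_sum_range_one_div_nat_succ_atTop
  obtain ⟨N, hN⟩ := eventually_atTop.1 (ht.eventually_gt_atTop (2 * c + 5))
  refine ⟨N, fun n hn => ?_⟩
  by_contra h
  push Not at h
  have h2 := hN (n + 1) (by omega)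
  have h3 := beta_ge h0 h1 n
  have h4 := muS_half h0 h1 n
  have h5 := muS_le_one h0 h1 n
  have h6 := cS_nonneg h0 h1 n
  have h7 : muS η n / 2 * (10 * n) ≤ muS η (n + 1) * (10 * n) :=
    mul_le_mul_of_nonneg_right h4 (by positivity)
  linarith

end Seq

def eF (η : ℝ) (n : ℕ) (z : E2) : ℝ :=
  -(muS η n - muS η (n + 1)) *
    (Real.smoothTransition (sig z - (10 * n + 5)) * (psi z - (10 * n + 5)))
def bF (η : ℝ) (n : ℕ) (z : E2) : ℝ := muS η n * psi z + cS η n + eF η n z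
def dF (η : ℝ) (n : ℕ) (z : E2) : ℝ :=
  -(muS η n ^ 8 - muS η (n + 1) ^ 8) * Real.smoothTransition (sig z - (10 * n + 5)) + muS η n ^ 8
def nn (z : E2) : ℕ := ⌊sig z / 10⌋₊
def bB (η : ℝ) (z : E2) : ℝ := bF η (nn z) z
def dB (η : ℝ) (z : E2) : ℝ := dF η (nn z) z

variable {η : ℝ}

theorem nn_eq {z : E2} {n : ℕ} (h1 : 10 * (n : ℝ) ≤ sig z) (h2 : sig z < 10 * n + 10) : nn z = n := by
  rw [nn, Nat.floor_eq_iff (by linarith [(Nat.cast_nonneg n : (0 : ℝ) ≤ n)])]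
  constructor <;> linarith

theorem nn_le {z : E2} (hz : z ∈ B2) : 10 * (nn z : ℝ) ≤ sig z := by
  have := Nat.floor_le (a := sig z / 10) (by linarith [sig_nonneg hz])
  unfold nn; linarith

theorem lt_nn (z : E2) : sig z < 10 * (nn z : ℝ) + 10 := by
  have := Nat.lt_floor_add_one (sig z / 10)
  unfold nn; linarith

theorem local_eq {z : E2} (hz : z ∈ B2) {n : ℕ} (h1 : 10 * (n : ℝ) - 4 < sig z)
    (h2 : sig z < 10 * n + 10) : bB η z = bF η n z ∧ dB η z = dF η n z := by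
  rcases le_or_gt (10 * (n : ℝ)) (sig z) with h | h
  · simp only [bB, dB, nn_eq h h2, and_self]
  · have hn : n ≠ 0 := by
      rintro rfl
      have := sig_nonneg hz
      simp at h; linarith
    obtain ⟨m, rfl⟩ := Nat.exists_eq_succ_of_ne_zero hn
    simp only [Nat.succ_eq_add_one] at *
    push_cast at h h1 h2
    have hm : nn z = m := nn_eq (by linarith) (by linarith)
    have e1 : Real.smoothTransition (sig z - (10 * m + 5)) = 1 :=
      Real.smoothTransition.one_of_one_le (by linarith)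
    have e2 : Real.smoothTransition (sig z - (10 * ((m + 1 : ℕ) : ℝ) + 5)) = 0 :=
      Real.smoothTransition.zero_of_nonpos (by push_cast; linarith)
    simp only [bB, dB, hm, bF, dF, eF, e1, e2, cS]
    constructor <;> ring

theorem plateau {z : E2} (hz : z ∈ B2) {n : ℕ} (h1 : 10 * (n : ℝ) - 4 < sig z)
    (h2 : sig z < 10 * n + 5) : bB η z = muS η n * psi z + cS η n ∧ dB η z = muS η n ^ 8 := by
  have e2 : Real.smoothTransition (sig z - (10 * n + 5)) = 0 :=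
    Real.smoothTransition.zero_of_nonpos (by linarith)
  obtain ⟨h3, h4⟩ := local_eq (η := η) hz h1 (by linarith)
  rw [h3, h4]
  simp [bF, dF, eF, e2]

theorem ev_sig {z : E2} (hz : z ∈ B2) {a b : ℝ} (h1 : a < sig z) (h2 : sig z < b) :
    ∀ᶠ y in 𝓝 z, y ∈ B2 ∧ a < sig y ∧ sig y < b := by
  have hc := (sm_sig hz).continuousAt
  filter_upwards [isOpen_B2.mem_nhds hz, hc.eventually (lt_mem_nhds h1),
    hc.eventually (gt_mem_nhds h2)] with y a1 a2 a3 using ⟨a1, a2, a3⟩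

theorem local_ev {z : E2} (hz : z ∈ B2) :
    (bB η =ᶠ[𝓝 z] bF η (nn z)) ∧ (dB η =ᶠ[𝓝 z] dF η (nn z)) := by
  have h := ev_sig hz (a := 10 * (nn z : ℝ) - 4) (by linarith [nn_le hz]) (lt_nn z)
  constructor
  · filter_upwards [h] with y hy using (local_eq hy.1 hy.2.1 hy.2.2).1
  · filter_upwards [h] with y hy using (local_eq hy.1 hy.2.1 hy.2.2).2

theorem plateau_ev {z : E2} (hz : z ∈ B2) {n : ℕ} (h1 : 10 * (n : ℝ) - 4 < sig z)
    (h2 : sig z < 10 * n + 5) : (bB η =ᶠ[𝓝 z] fun y => muS η n * psi y + cS η n) ∧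
      (dB η =ᶠ[𝓝 z] fun _ => muS η n ^ 8) := by
  have h := ev_sig hz h1 h2
  constructor
  · filter_upwards [h] with y hy using (plateau hy.1 hy.2.1 hy.2.2).1
  · filter_upwards [h] with y hy using (plateau hy.1 hy.2.1 hy.2.2).2

theorem sm_ST {z : E2} (hz : z ∈ B2) (s : ℝ) :
    Sm (fun y => Real.smoothTransition (sig y - s)) z :=
  Sm.comp (g := Real.smoothTransition) (Sm.of_contDiff Real.smoothTransition.contDiff)
    ((sm_sig hz).sub (Sm.const s))

theorem sm_eF {z : E2} (hz : z ∈ B2) (n : ℕ) : Sm (eF η n) z :=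
  (Sm.const _).mul ((sm_ST hz _).mul ((sm_psi hz).sub (Sm.const _)))

theorem sm_dF {z : E2} (hz : z ∈ B2) (n : ℕ) : Sm (dF η n) z :=
  ((Sm.const _).mul (sm_ST hz _)).add (Sm.const _)

theorem sm_bB {z : E2} (hz : z ∈ B2) : Sm (bB η) z :=
  Sm.congr (F := bF η (nn z)) ((((Sm.const _).mul (sm_psi hz)).add (Sm.const _)).add (sm_eF hz _))
    (local_ev hz).1.symm

theorem sm_dB {z : E2} (hz : z ∈ B2) : Sm (dB η) z := (sm_dF hz _).congr (local_ev hz).2.symm

theorem dB_bounds (h0 : 0 < η) (h1 : η ≤ 1 / 2) (z : E2) :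
    muS η (nn z + 1) ^ 8 ≤ dB η z ∧ dB η z ≤ muS η (nn z) ^ 8 := by
  have h2 : muS η (nn z + 1) ^ 8 ≤ muS η (nn z) ^ 8 :=
    pow_le_pow_left₀ (muS_pos h0 h1 _).le (muS_succ_le h0 h1 _) 8
  have h3 := Real.smoothTransition.nonneg (sig z - (10 * nn z + 5))
  have h4 := Real.smoothTransition.le_one (sig z - (10 * nn z + 5))
  simp only [dB, dF]
  constructor <;> nlinarith

theorem bB_ge (h0 : 0 < η) (h1 : η ≤ 1 / 2) {z : E2} (hz : z ∈ B2) :
    muS η (nn z + 1) * psi z + cS η (nn z) ≤ bB η z := by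
  have h2 := muS_succ_le h0 h1 (nn z)
  have h3 := Real.smoothTransition.nonneg (sig z - (10 * nn z + 5))
  have h4 := Real.smoothTransition.le_one (sig z - (10 * nn z + 5))
  have h5 : 0 ≤ psi z := (sig_nonneg hz).trans (sig_le_psi hz)
  have h6 : Real.smoothTransition (sig z - (10 * nn z + 5)) * (psi z - (10 * nn z + 5)) ≤ psi z := by
    have : (0 : ℝ) ≤ 10 * nn z + 5 := by positivity
    nlinarith
  have := mul_le_mul_of_nonneg_left h6 (sub_nonneg.2 h2)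
  simp only [bB, bF, eF]
  linarith

/-! the places of the trees -/
def aN (n : ℕ) : ℂ := (Real.sqrt (1 - Real.exp (-(10 * n))) : ℝ)
def Gm (n : ℕ) : M3 := Km (aN n) * Sw
def Gi (n : ℕ) : M3 := Sw * Kinv (aN n)

theorem norm_aN_sq (n : ℕ) : ‖aN n‖ ^ 2 = 1 - Real.exp (-(10 * n)) := by
  have : Real.exp (-(10 * n)) ≤ 1 := Real.exp_le_one_iff.2 (by simp)
  rw [aN, Complex.norm_real, Real.norm_eq_abs, sq_abs, Real.sq_sqrt (by linarith)]

theorem norm_aN_lt (n : ℕ) : ‖aN n‖ < 1 := by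
  have h := norm_aN_sq n
  have := Real.exp_pos (-(10 * (n : ℝ)))
  nlinarith [norm_nonneg (aN n)]

theorem isU_Gm (n : ℕ) : IsU (Gm n) := (isU_Km (norm_aN_lt n)).mul isU_Sw
theorem isU_Gi (n : ℕ) : IsU (Gi n) := isU_Sw.mul (isU_Kinv (norm_aN_lt n))

theorem Sw_mul_Sw : Sw * Sw = 1 := by
  ext i j; fin_cases i <;> fin_cases j <;> simp [Sw, Matrix.mul_apply, Fin.sum_univ_three]

theorem act_Gm_Gi (n : ℕ) {z : E2} (hz : z ∈ B2) : act (Gm n) (act (Gi n) z) = z := by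
  rw [← act_mul _ (isU_Gi n) hz, Gm, Gi, Matrix.mul_assoc, ← Matrix.mul_assoc Sw, Sw_mul_Sw,
    Matrix.one_mul, Km_mul_Kinv (norm_aN_lt n), act_one]

theorem act_Gi_Gm (n : ℕ) {z : E2} (hz : z ∈ B2) : act (Gi n) (act (Gm n) z) = z := by
  rw [← act_mul _ (isU_Gm n) hz, Gm, Gi, Matrix.mul_assoc, ← Matrix.mul_assoc (Kinv _),
    Kinv_mul_Km (norm_aN_lt n), Matrix.one_mul, Sw_mul_Sw, act_one]

theorem act_Gi (n : ℕ) {z : E2} (hz : z ∈ B2) : act (Gi n) z = swp (kapInv (aN n) z) := by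
  rw [Gi, act_mul _ (isU_Kinv (norm_aN_lt n)) hz, act_Sw, act_Kinv (norm_aN_lt n)]

theorem psi_swp (z : E2) : psi (swp z) = psi z := by
  simp [psi, swp, nsq_two, add_comm]

theorem norm_one_add_bounds (n : ℕ) {y : ℂ} (hy : ‖y‖ < 1 / 4) :
    3 / 4 ≤ ‖1 + conj (aN n) * y‖ ∧ ‖1 + conj (aN n) * y‖ ≤ 5 / 4 := by
  have h1 : ‖conj (aN n) * y‖ ≤ 1 / 4 := by
    rw [norm_mul, Complex.norm_conj]
    have := norm_aN_lt n
    nlinarith [norm_nonneg y, norm_nonneg (aN n)]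
  constructor
  · have := norm_sub_norm_le (1 : ℂ) (-(conj (aN n) * y))
    simp only [norm_one, norm_neg, sub_neg_eq_add] at this
    linarith
  · have := norm_add_le (1 : ℂ) (conj (aN n) * y)
    simp only [norm_one] at this
    linarith

theorem sig_Gi (n : ℕ) {z : E2} (hz : z ∈ B2) (h : ‖z 0‖ < 1 / 4) :
    |sig (act (Gi n) z) - 10 * n| < 1 := by
  obtain ⟨h1, h2⟩ := norm_one_add_bounds n h
  have e : act (Gi n) z 0 = tau (aN n) (z 0) := by rw [act_Gi n hz]; rfl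
  have h3 : ‖z 0‖ ^ 2 < 1 / 16 := by nlinarith [norm_nonneg (z 0)]
  have h4 : 0 ≤ ‖z 0‖ ^ 2 := by positivity
  rw [sig, e, one_sub_norm_tau (norm_aN_lt n) (by linarith), norm_aN_sq, sub_sub_cancel,
    mul_div_assoc, Real.log_mul (Real.exp_pos _).ne' (by
      apply ne_of_gt; apply div_pos <;> nlinarith), Real.log_exp]
  set q := (1 - ‖z 0‖ ^ 2) / ‖1 + conj (aN n) * z 0‖ ^ 2 with hq
  have h5 : 9 / 16 ≤ ‖1 + conj (aN n) * z 0‖ ^ 2 := by nlinarith
  have h6 : ‖1 + conj (aN n) * z 0‖ ^ 2 ≤ 25 / 16 := by nlinarith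
  have hq1 : 3 / 5 ≤ q := by rw [hq, le_div_iff₀ (by linarith)]; linarith
  have hq2 : q ≤ 16 / 9 := by rw [hq, div_le_iff₀ (by linarith)]; linarith
  have hq0 : 0 < q := by linarith
  have h7 : Real.log q ≤ q - 1 := Real.log_le_sub_one_of_pos hq0
  have h8 : 1 - q⁻¹ ≤ Real.log q := Real.one_sub_inv_le_log_of_pos hq0
  have h9 : q⁻¹ ≤ 5 / 3 := by
    rw [inv_le_comm₀ hq0 (by norm_num)]; linarith
  rw [abs_lt]; constructor <;> linarith

theorem psi_Gi (n : ℕ) {z : E2} (hz : z ∈ B2) (h : ‖z 0‖ < 1 / 4) :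
    psi (act (Gi n) z) ≤ psi z + (10 * n + 1) := by
  obtain ⟨h1, h2⟩ := norm_one_add_bounds n h
  rw [act_Gi n hz, psi_swp, psi_kapInv (norm_aN_lt n) hz, norm_aN_sq, sub_sub_cancel, Real.log_exp]
  have := Real.log_le_sub_one_of_pos (by linarith : 0 < ‖1 + conj (aN n) * z 0‖)
  linarith

theorem norm_sq_of_sig {z : E2} (hz : z ∈ B2) (h : 9 < sig z) : 9 / 10 < ‖z 0‖ ^ 2 := by
  by_contra h1
  push Not at h1
  have h2 : 1 - (1 - ‖z 0‖ ^ 2)⁻¹ ≤ Real.log (1 - ‖z 0‖ ^ 2) :=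
    Real.one_sub_inv_le_log_of_pos (by linarith)
  have h3 : (1 - ‖z 0‖ ^ 2)⁻¹ ≤ 10 := by
    rw [inv_le_comm₀ (by linarith) (by norm_num)]; linarith
  unfold sig at h
  linarith

theorem sig_lt_of_norm {z : E2} (h : ‖z 0‖ ^ 2 < 19 / 20) : sig z < 5 := by
  have h0 : 0 < 1 - ‖z 0‖ ^ 2 := by linarith
  have h1 : Real.exp (-5) < 1 - ‖z 0‖ ^ 2 := by
    have h2 : (1 + 5 / 5 : ℝ) ^ 5 ≤ Real.exp 5 := by
      have h3 : (1 + 5 / 5 : ℝ) ≤ Real.exp 1 := by linarith [Real.add_one_le_exp (1 : ℝ)]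
      calc (1 + 5 / 5 : ℝ) ^ 5 ≤ Real.exp 1 ^ 5 := by gcongr
        _ = Real.exp 5 := by rw [← Real.exp_nat_mul]; norm_num
    have h4 : Real.exp (-5) ≤ 1 / 32 := by
      rw [Real.exp_neg, inv_le_comm₀ (Real.exp_pos _) (by norm_num)]; linarith
    linarith
  have := Real.log_lt_log (Real.exp_pos _) h1
  rw [Real.log_exp] at this
  unfold sig; linarith

end
end Crest.Agent.R245
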