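import Crest.Agent.R245.Wirt

/-! Row 245: completeness from a proper Lipschitz function. -/

open Complex Filter Topology Set Metric Matrix
open scoped ComplexConjugate ContDiff

namespace Crest.Agent.R245
noncomputable section

open Crest.GeometryTopology

theorem cpl_riem_contOn {n : ℕ} {U : Set (Fin n → ℂ)} (g : HermitianMetricOn n U) :
    ContinuousOn (fun x : (Fin n → ℂ) × (Fin n → ℂ) => g.riem x.1 x.2 x.2) (U ×ˢ univ) := by
  unfold HermitianMetricOn.riem HermitianMetricOn.herm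
  refine Complex.continuous_re.comp_continuousOn ?_
  refine continuousOn_finsetSum _ fun i _ => continuousOn_finsetSum _ fun j _ => ?_
  refine ContinuousOn.mul (ContinuousOn.mul ?_ ?_) ?_
  · exact (g.smooth i j).continuousOn.comp continuousOn_fst (fun x hx => hx.1)
  · exact ((continuous_apply i).comp continuous_snd).continuousOn
  · exact (Complex.continuous_conj.comp ((continuous_apply j).comp continuous_snd)).continuousOn

theorem cpl_riem_smul {n : ℕ} {U : Set (Fin n → ℂ)} (g : HermitianMetricOn n U)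
    (p X : Fin n → ℂ) (c : ℝ) : g.riem p (c • X) (c • X) = c ^ 2 * g.riem p X X := by
  unfold HermitianMetricOn.riem HermitianMetricOn.herm
  have : (∑ i, ∑ j, g.h i j p * (c • X) i * conj ((c • X) j)) =
      ((c ^ 2 : ℝ) : ℂ) * ∑ i, ∑ j, g.h i j p * X i * conj (X j) := by
    rw [Finset.mul_sum]
    refine Finset.sum_congr rfl fun i _ => ?_
    rw [Finset.mul_sum]
    refine Finset.sum_congr rfl fun j _ => ?_
    simp only [Pi.smul_apply, Complex.real_smul, map_mul, Complex.conj_ofReal]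
    push_cast
    ring
  rw [this, Complex.re_ofReal_mul]

theorem cpl_exists_lower {n : ℕ} {U : Set (Fin n → ℂ)} (g : HermitianMetricOn n U)
    {K : Set (Fin n → ℂ)} (hK : IsCompact K) (hKU : K ⊆ U) :
    ∃ C : ℝ, 0 < C ∧ ∀ p ∈ K, ∀ X, ‖X‖ ≤ C * Real.sqrt (g.riem p X X) := by
  have hc : IsCompact (K ×ˢ sphere (0 : Fin n → ℂ) 1) := hK.prod (isCompact_sphere _ _)
  have hcont : ContinuousOn (fun x : (Fin n → ℂ) × (Fin n → ℂ) => g.riem x.1 x.2 x.2)
      (K ×ˢ sphere (0 : Fin n → ℂ) 1) :=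
    (cpl_riem_contOn g).mono (prod_mono hKU (subset_univ _))
  have hpos : ∀ x ∈ K ×ˢ sphere (0 : Fin n → ℂ) 1, 0 < g.riem x.1 x.2 x.2 := by
    intro x hx
    have h2 : x.2 ≠ 0 := by
      intro h0
      have := hx.2
      rw [h0] at this
      simp at this
    exact g.posDef x.1 (hKU hx.1) x.2 h2
  obtain ⟨c0, hc0, hle⟩ := hc.exists_forall_le' hcont hpos
  refine ⟨(Real.sqrt c0)⁻¹, inv_pos.2 (Real.sqrt_pos.2 hc0), fun p hp X => ?_⟩
  by_cases hX : X = 0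
  · rw [hX, norm_zero]; positivity
  have hn : 0 < ‖X‖ := norm_pos_iff.2 hX
  have hY : (‖X‖⁻¹ • X) ∈ sphere (0 : Fin n → ℂ) 1 := by
    rw [mem_sphere_zero_iff_norm, norm_smul, norm_inv, norm_norm, inv_mul_cancel₀ hn.ne']
  have h1 : c0 ≤ g.riem p (‖X‖⁻¹ • X) (‖X‖⁻¹ • X) := hle (p, ‖X‖⁻¹ • X) ⟨hp, hY⟩
  rw [cpl_riem_smul] at h1
  have h2 : c0 * ‖X‖ ^ 2 ≤ g.riem p X X := by
    have := mul_le_mul_of_nonneg_right h1 (sq_nonneg ‖X‖)
    have h3 : ‖X‖⁻¹ ^ 2 * g.riem p X X * ‖X‖ ^ 2 = g.riem p X X := by field_simp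
    linarith
  have h3 : Real.sqrt c0 * ‖X‖ ≤ Real.sqrt (g.riem p X X) := by
    have := Real.sqrt_le_sqrt h2
    rwa [Real.sqrt_mul hc0.le, Real.sqrt_sq hn.le] at this
  rw [inv_mul_eq_div, le_div_iff₀ (Real.sqrt_pos.2 hc0)]
  linarith

theorem cpl_speed_contOn {n : ℕ} {U : Set (Fin n → ℂ)} (g : HermitianMetricOn n U)
    {γ : ℝ → (Fin n → ℂ)} (hγ : ContDiff ℝ 1 γ) (hU : ∀ t ∈ Icc (0:ℝ) 1, γ t ∈ U) :
    ContinuousOn (fun t => Real.sqrt (g.riem (γ t) (deriv γ t) (deriv γ t))) (Icc 0 1) := by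
  have h1 : ContinuousOn (fun t => (γ t, deriv γ t)) (Icc (0:ℝ) 1) :=
    (hγ.continuous.prodMk (hγ.continuous_deriv le_rfl)).continuousOn
  have h2 := ContinuousOn.comp (t := U ×ˢ univ) (cpl_riem_contOn g) h1
    (fun t ht => mk_mem_prod (hU t ht) (mem_univ _))
  have h3 : ContinuousOn (fun t => g.riem (γ t) (deriv γ t) (deriv γ t)) (Icc (0:ℝ) 1) := by
    simpa only [Function.comp_def] using h2
  exact h3.sqrt

/-- the basic estimate along a curve -/
theorem cpl_along {n : ℕ} {U : Set (Fin n → ℂ)} (g : HermitianMetricOn n U)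
    {γ : ℝ → (Fin n → ℂ)} (hγ : ContDiff ℝ 1 γ) (hU : ∀ t ∈ Icc (0:ℝ) 1, γ t ∈ U)
    {G : Type*} [NormedAddCommGroup G] [NormedSpace ℝ G] (f : ℝ → G) (C : ℝ) (hC : 0 ≤ C)
    (hf : ∀ t ∈ Icc (0:ℝ) 1, DifferentiableAt ℝ f t)
    (hb : ∀ t ∈ Icc (0:ℝ) 1,
      ‖deriv f t‖ ≤ C * Real.sqrt (g.riem (γ t) (deriv γ t) (deriv γ t)))
    {t : ℝ} (ht : t ∈ Icc (0:ℝ) 1) : ‖f t - f 0‖ ≤ C * g.length γ := by
  have hs := cpl_speed_contOn g hγ hU
  have hsub : Icc (0:ℝ) t ⊆ Icc 0 1 := Icc_subset_Icc le_rfl ht.2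
  have hi1 : IntervalIntegrable (fun t => Real.sqrt (g.riem (γ t) (deriv γ t) (deriv γ t)))
      MeasureTheory.volume 0 1 := by
    apply ContinuousOn.intervalIntegrable
    rwa [uIcc_of_le zero_le_one]
  have hit : IntervalIntegrable (fun t => Real.sqrt (g.riem (γ t) (deriv γ t) (deriv γ t)))
      MeasureTheory.volume 0 t := by
    apply ContinuousOn.intervalIntegrable
    rw [uIcc_of_le ht.1]
    exact hs.mono hsub
  have h1 := norm_sub_le_integral_of_norm_deriv_le_of_le (f := f) (a := 0) (b := t)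
    (B := fun t => C * Real.sqrt (g.riem (γ t) (deriv γ t) (deriv γ t))) ht.1
    (fun x hx => (hf x (hsub hx)).continuousAt.continuousWithinAt)
    (fun x hx => (hf x (hsub (Ioo_subset_Icc_self hx))).differentiableWithinAt)
    (Filter.Eventually.of_forall fun x hx => hb x (hsub (Ioo_subset_Icc_self hx)))
    (hit.const_mul C)
  rw [intervalIntegral.integral_const_mul] at h1
  refine h1.trans (mul_le_mul_of_nonneg_left ?_ hC)
  unfold HermitianMetricOn.length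
  exact intervalIntegral.integral_mono_interval le_rfl ht.1 ht.2
    (Filter.Eventually.of_forall fun x => Real.sqrt_nonneg _) hi1

theorem cpl_exists_curve {n : ℕ} {U : Set (Fin n → ℂ)} (g : HermitianMetricOn n U)
    (Θ : (Fin n → ℂ) → (Fin n → ℂ)) (hΘ : ContDiff ℝ ∞ Θ) (hr : Set.range Θ = U)
    {p q : Fin n → ℂ} (hp : p ∈ U) (hq : q ∈ U) {ε : ℝ} (h : g.dist p q < ε) :
    ∃ γ : ℝ → (Fin n → ℂ), ContDiff ℝ 1 γ ∧ γ 0 = p ∧ γ 1 = q ∧
      (∀ t ∈ Set.Icc (0:ℝ) 1, γ t ∈ U) ∧ g.length γ < ε := by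
  unfold HermitianMetricOn.dist at h
  rw [← hr] at hp hq
  obtain ⟨a, rfl⟩ := hp
  obtain ⟨b, rfl⟩ := hq
  have hne : {ℓ : ℝ | ∃ γ : ℝ → (Fin n → ℂ), ContDiff ℝ 1 γ ∧ γ 0 = Θ a ∧ γ 1 = Θ b ∧
      (∀ t ∈ Set.Icc (0:ℝ) 1, γ t ∈ U) ∧ g.length γ = ℓ}.Nonempty := by
    refine ⟨_, fun t : ℝ => Θ (a + t • (b - a)), ?_, by simp, by simp, ?_, rfl⟩
    · refine (hΘ.of_le (by exact_mod_cast le_top)).comp ?_
      exact contDiff_const.add (contDiff_id.smul contDiff_const)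
    · intro t _
      rw [← hr]
      exact mem_range_self _
  obtain ⟨ℓ, ⟨γ, h1, h2, h3, h4, h5⟩, hℓ⟩ := exists_lt_of_csInf_lt hne h
  exact ⟨γ, h1, h2, h3, h4, h5 ▸ hℓ⟩

theorem isComplete_of {n : ℕ} {U : Set (Fin n → ℂ)} (g : HermitianMetricOn n U) (hU : IsOpen U)
    (β : (Fin n → ℂ) → ℝ) (hβ : ∀ p ∈ U, Sm β p) (L : ℝ)
    (hL : ∀ p ∈ U, ∀ X, |fderiv ℝ β p X| ≤ L * Real.sqrt (g.riem p X X))
    (hK : ∀ c : ℝ, ∃ K, IsCompact K ∧ K ⊆ U ∧ ∀ p ∈ U, β p ≤ c → p ∈ K)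
    (Θ : (Fin n → ℂ) → (Fin n → ℂ)) (hΘ : ContDiff ℝ ∞ Θ) (hr : Set.range Θ = U) :
    g.IsComplete := by
  intro u hu hC
  -- the `β`-estimate along curves
  have hβγ : ∀ γ : ℝ → (Fin n → ℂ), ContDiff ℝ 1 γ → (∀ t ∈ Icc (0:ℝ) 1, γ t ∈ U) →
      ∀ t ∈ Icc (0:ℝ) 1, β (γ t) ≤ β (γ 0) + |L| * g.length γ := by
    intro γ hγ hγU t ht
    have hd : ∀ s ∈ Icc (0:ℝ) 1,
        HasDerivAt (fun s => β (γ s)) (fderiv ℝ β (γ s) (deriv γ s)) s := by
      intro s hs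
      have h1 : DifferentiableAt ℝ β (γ s) :=
        (hβ _ (hγU s hs)).self_of_nhds.differentiableAt (by simp)
      have h2 : HasDerivAt γ (deriv γ s) s :=
        (hγ.differentiable one_ne_zero s).hasDerivAt
      exact h1.hasFDerivAt.comp_hasDerivAt s h2
    have := cpl_along g hγ hγU (fun s => β (γ s)) |L| (abs_nonneg L)
      (fun s hs => (hd s hs).differentiableAt)
      (fun s hs => by
        rw [(hd s hs).deriv, Real.norm_eq_abs]
        exact (hL _ (hγU s hs) _).trans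
          (mul_le_mul_of_nonneg_right (le_abs_self L) (Real.sqrt_nonneg _))) ht
    rw [Real.norm_eq_abs] at this
    linarith [le_abs_self (β (γ t) - β (γ 0))]
  obtain ⟨N0, hN0⟩ := hC 1 one_pos
  obtain ⟨K, hKc, hKU, hKβ⟩ := hK (β (u N0) + 2 * |L|)
  obtain ⟨C, hCpos, hCle⟩ := cpl_exists_lower g hKc hKU
  have htail : ∀ m, N0 ≤ m → β (u m) ≤ β (u N0) + |L| := by
    intro m hm
    obtain ⟨γ, h1, h2, h3, h4, h5⟩ :=
      cpl_exists_curve g Θ hΘ hr (hu N0) (hu m) (hN0 N0 m le_rfl hm)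
    have := hβγ γ h1 h4 1 ⟨zero_le_one, le_rfl⟩
    rw [h2, h3] at this
    nlinarith [abs_nonneg L]
  have hcauchy : CauchySeq u := by
    rw [Metric.cauchySeq_iff]
    intro ε hε
    obtain ⟨N1, hN1⟩ := hC (min 1 (ε / (2 * C))) (lt_min one_pos (by positivity))
    refine ⟨max N0 N1, fun m hm k hk => ?_⟩
    have hm0 : N0 ≤ m := le_trans (le_max_left _ _) hm
    have hm1 : N1 ≤ m := le_trans (le_max_right _ _) hm
    have hk0 : N0 ≤ k := le_trans (le_max_left _ _) hk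
    have hk1 : N1 ≤ k := le_trans (le_max_right _ _) hk
    obtain ⟨γ, h1, h2, h3, h4, h5⟩ :=
      cpl_exists_curve g Θ hΘ hr (hu k) (hu m) (hN1 k m hk1 hm1)
    have h6 : g.length γ < 1 := h5.trans_le (min_le_left _ _)
    have h7 : g.length γ < ε / (2 * C) := h5.trans_le (min_le_right _ _)
    have hγK : ∀ t ∈ Icc (0:ℝ) 1, γ t ∈ K := by
      intro t ht
      refine hKβ _ (h4 t ht) ?_
      have := hβγ γ h1 h4 t ht
      rw [h2] at this
      have := htail k hk0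
      nlinarith [abs_nonneg L]
    have := cpl_along g h1 h4 γ C hCpos.le
      (fun s _ => h1.differentiable one_ne_zero s)
      (fun s hs => hCle _ (hγK s hs) _) (t := 1) ⟨zero_le_one, le_rfl⟩
    rw [h2, h3] at this
    rw [dist_eq_norm]
    have h8 : C * g.length γ ≤ C * (ε / (2 * C)) := mul_le_mul_of_nonneg_left h7.le hCpos.le
    have h9 : C * (ε / (2 * C)) = ε / 2 := by field_simp
    linarith
  obtain ⟨q, hq⟩ := cauchySeq_tendsto_of_complete hcauchy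
  refine ⟨q, hKU ?_, hq⟩
  refine hKc.isClosed.mem_of_tendsto hq ?_
  filter_upwards [eventually_ge_atTop N0] with m hm
  refine hKβ _ (hu m) ?_
  have := htail m hm
  linarith [abs_nonneg L]

end
end Crest.Agent.R245
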