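import Crest.Prelude.Def_KahlerDomain

/-! Row 245 (S0378, S0379): definitions. Disc bundles over the ball `B² ⊆ ℂ²` with the Kähler
potential `b(z) - d(z) log (1 - |w|² e^{u(z)})`. -/

open Complex Filter Topology Set Metric Matrix
open scoped ComplexConjugate ContDiff

namespace Crest.Agent.R245
noncomputable section

section Calc
variable {E : Type*} [NormedAddCommGroup E] [NormedSpace ℝ E] [NormedSpace ℂ E]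

/-- `(1,0)` Wirtinger derivative in the direction `X`. -/
def D (X : E) (F : E → ℂ) : E → ℂ := fun q => (fderiv ℝ F q X - I * fderiv ℝ F q (I • X)) / 2
/-- `(0,1)` Wirtinger derivative in the direction `X` (conjugate linear in `X`). -/
def Db (X : E) (F : E → ℂ) : E → ℂ := fun q => (fderiv ℝ F q X + I * fderiv ℝ F q (I • X)) / 2

def j1 (F : E → ℂ) (p X : E) : ℂ := D X F p
def jb (F : E → ℂ) (p Y : E) : ℂ := Db Y F p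
def j20 (F : E → ℂ) (p X Z : E) : ℂ := D X (D Z F) p
def j11 (F : E → ℂ) (p X Y : E) : ℂ := D X (Db Y F) p
def j02 (F : E → ℂ) (p Y W : E) : ℂ := Db W (Db Y F) p
def j21 (F : E → ℂ) (p X Z Y : E) : ℂ := D X (D Z (Db Y F)) p
def j12 (F : E → ℂ) (p X Y W : E) : ℂ := Db W (D X (Db Y F)) p
def j22 (F : E → ℂ) (p X Z Y W : E) : ℂ := Db W (D X (D Z (Db Y F))) p

/-- a real function as a complex one -/
def cx {α : Type*} (Φ : α → ℝ) : α → ℂ := fun q => (Φ q : ℂ)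

def J1 (Φ : E → ℝ) (p X : E) : ℂ := j1 (cx Φ) p X
def J20 (Φ : E → ℝ) (p X Z : E) : ℂ := j20 (cx Φ) p X Z
/-- Levi form -/
def Lv (Φ : E → ℝ) (p X Y : E) : ℂ := j11 (cx Φ) p X Y
def T3 (Φ : E → ℝ) (p X Z Y : E) : ℂ := j21 (cx Φ) p X Z Y
def Q4 (Φ : E → ℝ) (p X Z Y W : E) : ℂ := j22 (cx Φ) p X Z Y W

/-- holomorphic along every holomorphic curve -/
def Hol (a : E → ℂ) (Ω : Set E) : Prop :=
  ∀ (γ : ℂ → E) (s : Set ℂ), IsOpen s → DifferentiableOn ℂ γ s → MapsTo γ s Ω →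
    DifferentiableOn ℂ (fun t => a (γ t)) s

end Calc

section Smooth
variable {E G : Type*} [NormedAddCommGroup E] [NormedSpace ℝ E]
  [NormedAddCommGroup G] [NormedSpace ℝ G]

/-- smooth near `p` -/
def Sm (F : E → G) (p : E) : Prop := ∀ᶠ q in 𝓝 p, ContDiffAt ℝ ∞ F q

/-- smooth near `p`, real derivatives of orders `1..4` at `p` bounded by `C` -/
def JB (F : E → G) (p : E) (C : ℝ) : Prop :=
  Sm F p ∧ ∀ i : ℕ, 1 ≤ i → i ≤ 4 → ‖iteratedFDeriv ℝ i F p‖ ≤ C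

end Smooth

section Alg
variable {V : Type*}

/-- numerator of the sectional curvature of the plane `X, Y`, given the Christoffel vectors
`G1 = Γ(X,Y)`, `G2 = Γ(X,X)`, `G3 = Γ(Y,Y)` -/
def num (H : V → V → ℂ) (Q : V → V → V → V → ℂ) (X Y G1 G2 G3 : V) : ℝ :=
  (-Q X Y X Y + H G1 G1 - (-Q Y Y X X + H G3 G2)).re

def den (H : V → V → ℂ) (X Y : V) : ℝ := (H X X).re * (H Y Y).re - (H X Y).re ^ 2

def Solves (H : V → V → ℂ) (T : V → V → V → ℂ) (X Y G1 G2 G3 : V) : Prop :=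
  (∀ W, H G1 W = T X Y W) ∧ (∀ W, H G2 W = T X X W) ∧ (∀ W, H G3 W = T Y Y W)

def NegF (H : V → V → ℂ) (T : V → V → V → ℂ) (Q : V → V → V → V → ℂ) (c : ℝ) : Prop :=
  ∀ X Y G1 G2 G3, Solves H T X Y G1 G2 G3 → num H Q X Y G1 G2 G3 ≤ -c * den H X Y

def LowF (H : V → V → ℂ) (T : V → V → V → ℂ) (Q : V → V → V → V → ℂ) (B : ℝ) : Prop :=
  ∀ X Y G1 G2 G3, Solves H T X Y G1 G2 G3 → -B * den H X Y ≤ num H Q X Y G1 G2 G3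

def VeryF (H : V → V → ℂ) (T : V → V → V → ℂ) (Q : V → V → V → V → ℂ) (B : ℝ) : Prop :=
  ∃ X Y G1 G2 G3, Solves H T X Y G1 G2 G3 ∧ 0 < den H X Y ∧
    num H Q X Y G1 G2 G3 ≤ -B * den H X Y

def PosF [Zero V] (H : V → V → ℂ) : Prop := ∀ X, X ≠ 0 → 0 < (H X X).re

/-- the (anti)linearity and symmetry of the mixed jets of a real function -/
structure IsJet [AddCommGroup V] [Module ℂ V]
    (H : V → V → ℂ) (T : V → V → V → ℂ) (Q : V → V → V → V → ℂ) : Prop where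
  H_add : ∀ X X' Y, H (X + X') Y = H X Y + H X' Y
  H_smul : ∀ (c : ℂ) X Y, H (c • X) Y = c * H X Y
  H_symm : ∀ X Y, H Y X = conj (H X Y)
  T_add1 : ∀ X X' Z Y, T (X + X') Z Y = T X Z Y + T X' Z Y
  T_smul1 : ∀ (c : ℂ) X Z Y, T (c • X) Z Y = c * T X Z Y
  T_symm : ∀ X Z Y, T X Z Y = T Z X Y
  T_add3 : ∀ X Z Y Y', T X Z (Y + Y') = T X Z Y + T X Z Y'
  T_smul3 : ∀ (c : ℂ) X Z Y, T X Z (c • Y) = conj c * T X Z Y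
  Q_add1 : ∀ X X' Z Y W, Q (X + X') Z Y W = Q X Z Y W + Q X' Z Y W
  Q_smul1 : ∀ (c : ℂ) X Z Y W, Q (c • X) Z Y W = c * Q X Z Y W
  Q_symm : ∀ X Z Y W, Q X Z Y W = Q Z X Y W
  Q_herm : ∀ X Z Y W, Q Y W X Z = conj (Q X Z Y W)

end Alg

section Pt
variable {E : Type*} [NormedAddCommGroup E] [NormedSpace ℝ E] [NormedSpace ℂ E]

/-- at `p` the potential `Φ` defines a metric with curvature `≤ -c` and `|∂Φ| ≤ L` -/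
structure Good (Φ : E → ℝ) (p : E) (c L : ℝ) : Prop where
  sm : Sm Φ p
  pos : PosF (Lv Φ p)
  neg : NegF (Lv Φ p) (T3 Φ p) (Q4 Φ p) c
  grad : ∀ X, ‖J1 Φ p X‖ ≤ L * Real.sqrt (Lv Φ p X X).re

def Low (Φ : E → ℝ) (p : E) (B : ℝ) : Prop := LowF (Lv Φ p) (T3 Φ p) (Q4 Φ p) B
def Very (Φ : E → ℝ) (p : E) (B : ℝ) : Prop := VeryF (Lv Φ p) (T3 Φ p) (Q4 Φ p) B

end Pt

abbrev E2 := Fin 2 → ℂ
abbrev E3 := Fin 3 → ℂ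

/-- squared Euclidean norm -/
def nsq {n : ℕ} (x : Fin n → ℂ) : ℝ := ∑ i, ‖x i‖ ^ 2
/-- Euclidean norm -/
def nr {n : ℕ} (x : Fin n → ℂ) : ℝ := Real.sqrt (nsq x)
def ip (X Y : E2) : ℂ := X 0 * conj (Y 0) + X 1 * conj (Y 1)
def pr (p : E3) : E2 := ![p 0, p 1]
def mk3 (z : E2) (w : ℂ) : E3 := ![z 0, z 1, w]
def B2 : Set E2 := {z | nsq z < 1}
def psi (z : E2) : ℝ := -Real.log (1 - nsq z)
def sig (z : E2) : ℝ := -Real.log (1 - ‖z 0‖ ^ 2)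
def tt (u : E2 → ℝ) (p : E3) : ℝ := ‖p 2‖ ^ 2 * Real.exp (u (pr p))
/-- the potential on the disc bundle -/
def pot (b d u : E2 → ℝ) (p : E3) : ℝ := b (pr p) + d (pr p) * (-Real.log (1 - tt u p))
/-- the disc bundle -/
def dom (u : E2 → ℝ) : Set E3 := {p | pr p ∈ B2 ∧ tt u p < 1}

/-- mixed jets of a function on the base -/
structure BJ where
  H : E2 → E2 → ℂ
  T : E2 → E2 → E2 → ℂ
  Q : E2 → E2 → E2 → E2 → ℂ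

/-- all jets of the factor `d` -/
structure DJ where
  d0 : ℝ
  d1 : E2 → ℂ
  d20 : E2 → E2 → ℂ
  m : BJ

def jetsOf (b : E2 → ℝ) (x : E2) : BJ := ⟨Lv b x, T3 b x, Q4 b x⟩
def djetsOf (d : E2 → ℝ) (x : E2) : DJ := ⟨d x, J1 d x, J20 d x, jetsOf d x⟩
/-- jets of `μ ψ` at the origin -/
def std (μ : ℝ) : BJ :=
  ⟨fun X Y => μ * ip X Y, fun _ _ _ => 0, fun X Z Y W => μ * (ip X Y * ip Z W + ip X W * ip Z Y)⟩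
def DJ.const (δ : ℝ) : DJ := ⟨δ, fun _ => 0, fun _ _ => 0, ⟨fun _ _ => 0, fun _ _ _ => 0, fun _ _ _ _ => 0⟩⟩
/-- the mixed jets of `a` and `a'` differ by at most `κ` -/
def BJ.Near (a a' : BJ) (κ : ℝ) : Prop :=
  (∀ X Y, ‖a.H X Y - a'.H X Y‖ ≤ κ * (nr X * nr Y)) ∧
  (∀ X Z Y, ‖a.T X Z Y - a'.T X Z Y‖ ≤ κ * (nr X * nr Z * nr Y)) ∧
  (∀ X Z Y W, ‖a.Q X Z Y W - a'.Q X Z Y W‖ ≤ κ * (nr X * nr Z * nr Y * nr W))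
/-- all jets of positive order are at most `κ` -/
def DJ.Small (d : DJ) (κ : ℝ) : Prop :=
  (∀ X, ‖d.d1 X‖ ≤ κ * nr X) ∧ (∀ X Z, ‖d.d20 X Z‖ ≤ κ * (nr X * nr Z)) ∧ d.m.Near (std 0) κ

def th (w : ℂ) : ℝ := (1 - ‖w‖ ^ 2)⁻¹
def ta (w : ℂ) : ℝ := ‖w‖ ^ 2 * th w
/-! jets of `-log (1 - |w|² e^u)` at `(0, w)` for normalised `u` -/
def F0 (w : ℂ) : ℝ := -Real.log (1 - ‖w‖ ^ 2)
def F1 (w : ℂ) (X : E3) : ℂ := th w * conj w * X 2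
def F20 (w : ℂ) (X Z : E3) : ℂ := (th w : ℂ) ^ 2 * conj w ^ 2 * X 2 * Z 2
def F11 (w : ℂ) (u : BJ) (X Y : E3) : ℂ :=
  ta w * u.H (pr X) (pr Y) + (th w : ℂ) ^ 2 * X 2 * conj (Y 2)
def F21 (w : ℂ) (u : BJ) (X Z Y : E3) : ℂ :=
  ta w * u.T (pr X) (pr Z) (pr Y)
    + (th w : ℂ) ^ 2 * conj w * (X 2 * u.H (pr Z) (pr Y) + Z 2 * u.H (pr X) (pr Y))
    + 2 * (th w : ℂ) ^ 3 * conj w * X 2 * Z 2 * conj (Y 2)
def F22 (w : ℂ) (u : BJ) (X Z Y W : E3) : ℂ :=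
  ta w * u.Q (pr X) (pr Z) (pr Y) (pr W)
    + ta w * th w * (u.H (pr X) (pr Y) * u.H (pr Z) (pr W) + u.H (pr X) (pr W) * u.H (pr Z) (pr Y))
    + (th w : ℂ) ^ 2 * w * (conj (Y 2) * u.T (pr X) (pr Z) (pr W) + conj (W 2) * u.T (pr X) (pr Z) (pr Y))
    + (th w : ℂ) ^ 2 * conj w *
        (X 2 * conj (u.T (pr Y) (pr W) (pr Z)) + Z 2 * conj (u.T (pr Y) (pr W) (pr X)))
    + (1 + (‖w‖ : ℂ) ^ 2) * (th w : ℂ) ^ 3 *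
        (X 2 * conj (Y 2) * u.H (pr Z) (pr W) + X 2 * conj (W 2) * u.H (pr Z) (pr Y)
          + Z 2 * conj (Y 2) * u.H (pr X) (pr W) + Z 2 * conj (W 2) * u.H (pr X) (pr Y))
    + (th w : ℂ) ^ 4 * (2 + 4 * (‖w‖ : ℂ) ^ 2) * X 2 * Z 2 * conj (Y 2) * conj (W 2)

/-! jets of `pot b d u` at `(0, w)` -/
def totH (w : ℂ) (b u : BJ) (d : DJ) (X Y : E3) : ℂ :=
  b.H (pr X) (pr Y) + d.d0 * F11 w u X Y + d.d1 (pr X) * conj (F1 w Y) + conj (d.d1 (pr Y)) * F1 w X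
    + d.m.H (pr X) (pr Y) * F0 w
def totT (w : ℂ) (b u : BJ) (d : DJ) (X Z Y : E3) : ℂ :=
  b.T (pr X) (pr Z) (pr Y) + d.d0 * F21 w u X Z Y
    + d.d1 (pr X) * F11 w u Z Y + d.d1 (pr Z) * F11 w u X Y + conj (d.d1 (pr Y)) * F20 w X Z
    + d.d20 (pr X) (pr Z) * conj (F1 w Y) + d.m.H (pr X) (pr Y) * F1 w Z + d.m.H (pr Z) (pr Y) * F1 w X
    + d.m.T (pr X) (pr Z) (pr Y) * F0 w
def totQ (w : ℂ) (b u : BJ) (d : DJ) (X Z Y W : E3) : ℂ :=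
  b.Q (pr X) (pr Z) (pr Y) (pr W) + d.d0 * F22 w u X Z Y W
    + d.d1 (pr X) * conj (F21 w u Y W Z) + d.d1 (pr Z) * conj (F21 w u Y W X)
    + conj (d.d1 (pr Y)) * F21 w u X Z W + conj (d.d1 (pr W)) * F21 w u X Z Y
    + d.d20 (pr X) (pr Z) * conj (F20 w Y W) + conj (d.d20 (pr Y) (pr W)) * F20 w X Z
    + d.m.H (pr X) (pr Y) * F11 w u Z W + d.m.H (pr X) (pr W) * F11 w u Z Y
    + d.m.H (pr Z) (pr Y) * F11 w u X W + d.m.H (pr Z) (pr W) * F11 w u X Y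
    + d.m.T (pr X) (pr Z) (pr Y) * conj (F1 w W) + d.m.T (pr X) (pr Z) (pr W) * conj (F1 w Y)
    + conj (d.m.T (pr Y) (pr W) (pr X)) * F1 w Z + conj (d.m.T (pr Y) (pr W) (pr Z)) * F1 w X
    + d.m.Q (pr X) (pr Z) (pr Y) (pr W) * F0 w

/-- the reference squared norm `μ(1+δτ)|X'|² + δθ²|X₂|²` at `(0,w)` -/
def nu2 (μ δ : ℝ) (w : ℂ) (X : E3) : ℝ :=
  μ * (1 + δ * ta w) * nsq (pr X) + δ * th w ^ 2 * ‖X 2‖ ^ 2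

/-! automorphisms of the ball -/
abbrev M3 := Matrix (Fin 3) (Fin 3) ℂ
def hat (y : E2) : Fin 3 → ℂ := ![1, y 0, y 1]
def act (M : M3) (y : E2) : E2 :=
  ![(M *ᵥ hat y) 1 / (M *ᵥ hat y) 0, (M *ᵥ hat y) 2 / (M *ᵥ hat y) 0]
def Jm : M3 := Matrix.diagonal ![1, -1, -1]
/-- `M ∈ U(1,2)` -/
def IsU (M : M3) : Prop := Mᴴ * Jm * M = Jm
def tau (a y : ℂ) : ℂ := (y + a) / (1 + conj a * y)
def mob (b ζ : ℂ) : ℂ := (ζ - b) / (1 - conj b * ζ)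
def sq1 (b : ℂ) : ℝ := Real.sqrt (1 - ‖b‖ ^ 2)
/-- parent to child coordinates: sends the line `z 1 = b` to the line `z 0 = 0` -/
def kap (b : ℂ) (z : E2) : E2 := ![mob b (z 1), sq1 b * z 0 / (1 - conj b * z 1)]
def kapInv (b : ℂ) (z : E2) : E2 := ![sq1 b * z 1 / (1 + conj b * z 0), tau b (z 0)]
def swp (z : E2) : E2 := ![z 1, z 0]
def Km (b : ℂ) : M3 :=
  !![1 / sq1 b, 0, -conj b / sq1 b; -b / sq1 b, 0, 1 / sq1 b; 0, 1, 0]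
def Kinv (b : ℂ) : M3 :=
  !![1 / sq1 b, conj b / sq1 b, 0; 0, 0, 1; b / sq1 b, 1 / sq1 b, 0]
def Sw : M3 := !![1, 0, 0; 0, 0, 1; 0, 1, 0]

def Wset (s : ℝ) : Set E2 := {z | z ∈ B2 ∧ ‖z 0‖ < 2 * s}

/-- a subharmonic function on the unit disc with dips of depth `Dp` on dyadic rings of points -/
structure DiscData (A Dp : ℝ) where
  χ : ℂ → ℝ
  ring : ℕ → Set ℂ
  r : ℕ → ℝ
  s : ℝ
  R : ℝ
  M : ℝ
  s_pos : 0 < s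
  s_le : s ≤ 1 / 8
  R_nonneg : 0 ≤ R
  M_nonneg : 0 ≤ M
  sm : ∀ ζ : ℂ, ‖ζ‖ < 1 → Sm χ ζ
  zero : ∀ ζ : ℂ, ‖ζ‖ ^ 2 ≤ 1 - s ^ 2 → χ ζ = 0
  psh : ∀ ζ : ℂ, ‖ζ‖ < 1 → 0 ≤ (Lv χ ζ 1 1).re
  jb : ∀ a : ℂ, ‖a‖ < 1 → JB (fun y => χ (tau a y)) 0 M
  norm_ring : ∀ i, ∀ b ∈ ring i, ‖b‖ = r i
  r_pos : ∀ i, 0 < r i
  r_lt : ∀ i, r i < r (i + 1)
  r_lt_one : ∀ i, r i < 1
  r_tendsto : Tendsto r atTop (𝓝 1)
  r_low : ∀ i, Real.exp (-R) / 2 ^ i ≤ 1 - r i ^ 2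
  r_up : ∀ i, 1 - r i ^ 2 ≤ 1 / 8
  outer : ∀ i, ∀ b ∈ ring i, ∀ y : ℂ, ‖y‖ < 2 * s → 1 - s ^ 2 < ‖tau b y‖ ^ 2
  uniq : ∀ i i', ∀ b ∈ ring i, ∀ b' ∈ ring i', ∀ y y' : ℂ, ‖y‖ < 2 * s → ‖y'‖ < 2 * s →
    tau b y = tau b' y' → b = b'
  harm : ∀ i, ∀ b ∈ ring i, ∃ G : ℂ → ℂ, DifferentiableOn ℂ G (ball 0 (2 * s)) ∧
    ∀ y ∈ ball (0 : ℂ) (2 * s), χ (tau b y) = (G y).re
  upper : ∀ i, ∀ ζ : ℂ, ‖ζ‖ ≤ r i → χ ζ ≤ (i + 1) * A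
  dip : ∀ i, ∀ b ∈ ring i, χ b ≤ i * A - Dp
  dense : ∀ i, ∀ ζ : ℂ, ‖ζ‖ = r i → ∃ b ∈ ring i, ‖ζ - b‖ ≤ (r (i + 1) - r i) / 30

/-- the self-similar tree function built from disc data -/
structure TreeFun {A Dp : ℝ} (P : DiscData A Dp) where
  v : E2 → ℝ
  M : ℝ
  M_nonneg : 0 ≤ M
  sm : ∀ z ∈ B2, Sm v z
  supp : ∀ z ∈ B2, ‖z 1‖ ^ 2 < 1 - P.s ^ 2 → v z = 0
  jb : ∀ G, IsU G → JB (fun y => v (act G y)) 0 M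
  psh : ∀ G, IsU G → ∀ X, 0 ≤ (Lv (fun y => v (act G y)) 0 X X).re
  step : ∀ i, ∀ b ∈ P.ring i, ∀ z ∈ Wset P.s, v (kapInv b z) = P.χ (tau b (z 0)) + v z
  flat : ∀ z : E2, ‖z 1‖ < 1 → ‖z 0‖ ^ 2 ≤ (1 - ‖z 1‖ ^ 2) / 4 → v z = P.χ (z 1)

/-- what the constructions need from a tree -/
structure TreeData (J : ℝ) where
  v : E2 → ℝ
  s : ℝ
  M : ℝ
  μ0 : ℝ
  s_pos : 0 < s
  s_le : s ≤ 1 / 8
  M_nonneg : 0 ≤ M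
  μ0_pos : 0 < μ0
  sm : ∀ z ∈ B2, Sm v z
  supp : ∀ z ∈ B2, ‖z 1‖ ^ 2 < 1 - s ^ 2 → v z = 0
  jb : ∀ G, IsU G → JB (fun y => v (act G y)) 0 M
  psh : ∀ G, IsU G → ∀ X, 0 ≤ (Lv (fun y => v (act G y)) 0 X X).re
  kill : ∀ (μ lam C : ℝ) (a : E2 → ℂ), 0 ≤ μ → μ ≤ μ0 → 1 / 2 ≤ lam → lam ≤ J → Hol a (Wset s) →
    (∀ z ∈ Wset s, ‖a z‖ ≤ C * Real.exp (lam * (μ * psi z + v z))) → ∀ᶠ z in 𝓝 (0 : E2), a z = 0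

/-- the base data for S0379 -/
structure BaseData where
  b : E2 → ℝ
  d : E2 → ℝ
  u : E2 → ℝ
  c : ℝ
  L : ℝ
  c_pos : 0 < c
  sm : ∀ z ∈ B2, Sm b z ∧ Sm d z ∧ Sm u z
  core : ∀ z ∈ B2, ‖z 0‖ ^ 2 < 19 / 20 → b z = psi z ∧ d z = 1 ∧ u z = psi z
  good : ∀ p ∈ dom u, Good (pot b d u) p c L
  very : ∀ B : ℝ, ∃ p ∈ dom u, 9 / 10 < ‖p 0‖ ^ 2 ∧ Very (pot b d u) p B
  proper : ∀ c' : ℝ, ∃ r t : ℝ, r < 1 ∧ t < 1 ∧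
    ∀ p ∈ dom u, pot b d u p ≤ c' → nsq (pr p) ≤ r ∧ tt u p ≤ t
  kill : ∀ (k : ℕ) (C : ℝ) (a : E2 → ℂ), 1 ≤ k → Hol a {z | z ∈ B2 ∧ ‖z 1‖ < 1 / 2} →
    (∀ z ∈ B2, 9 / 10 < ‖z 0‖ ^ 2 → ‖a z‖ ≤ C * Real.exp (k / 2 * u z)) →
    ∃ z0, (z0 ∈ B2 ∧ ‖z0 1‖ < 1 / 2) ∧ ∀ᶠ z in 𝓝 z0, a z = 0

/-- `k`-th derivative in the fibre direction along the zero section -/
def coef (f : E3 → ℂ) (k : ℕ) (z : E2) : ℂ := iteratedDeriv k (fun w => f (mk3 z w)) 0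

def toBall {n : ℕ} (x : Fin n → ℂ) : Fin n → ℂ := ((Real.sqrt (1 + nsq x))⁻¹ : ℝ) • x
def ofBall {n : ℕ} (x : Fin n → ℂ) : Fin n → ℂ := ((Real.sqrt (1 - nsq x))⁻¹ : ℝ) • x

end
end Crest.Agent.R245
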