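import Crest.Agent.R245.Wirt
import Crest.Agent.R245.Alg0

/-! Row 245: behaviour of the jets under holomorphic maps. -/

set_option linter.unusedSectionVars false

open Complex Filter Topology Set Metric Matrix
open scoped ComplexConjugate ContDiff

namespace Crest.Agent.R245
noncomputable section

variable {E E' : Type*} [NormedAddCommGroup E] [NormedSpace ℝ E] [NormedSpace ℂ E]
  [IsScalarTower ℝ ℂ E] [FiniteDimensional ℂ E]
  [NormedAddCommGroup E'] [NormedSpace ℝ E'] [NormedSpace ℂ E']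
  [IsScalarTower ℝ ℂ E'] [FiniteDimensional ℂ E'] {p : E} {φ : E → E'} {F : E' → ℂ} {Φ : E' → ℝ}

/-- second complex derivative -/
def d2 (φ : E → E') (p X Z : E) : E' := fderiv ℂ (fun q => fderiv ℂ φ q Z) p X

theorem pull_D (hφ : DifferentiableAt ℂ φ p) (hF : DifferentiableAt ℝ F (φ p)) (X : E) :
    D X (fun q => F (φ q)) p = D (fderiv ℂ φ p X) F (φ p) := by
  have h : HasFDerivAt (fun q => F (φ q)) _ p :=
    hF.hasFDerivAt.comp p (hφ.hasFDerivAt.restrictScalars ℝ)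
  simp [D, h.fderiv]

theorem pull_Db (hφ : DifferentiableAt ℂ φ p) (hF : DifferentiableAt ℝ F (φ p)) (X : E) :
    Db X (fun q => F (φ q)) p = Db (fderiv ℂ φ p X) F (φ p) := by
  have h : HasFDerivAt (fun q => F (φ q)) _ p :=
    hF.hasFDerivAt.comp p (hφ.hasFDerivAt.restrictScalars ℝ)
  simp [Db, h.fderiv]

theorem pull_ev (hφ : AnalyticAt ℂ φ p) (hF : Sm F (φ p)) :
    ∀ᶠ q in 𝓝 p, AnalyticAt ℂ φ q ∧ Sm F (φ q) :=
  have := FiniteDimensional.complete ℂ E'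
  hφ.eventually_analyticAt.and (hφ.continuousAt.eventually hF.eventually)

theorem pull_sm {G : Type*} [NormedAddCommGroup G] [NormedSpace ℝ G] {F : E' → G}
    (hφ : AnalyticAt ℂ φ p) (hF : Sm F (φ p)) : Sm (fun q => F (φ q)) p := by
  have := FiniteDimensional.complete ℂ E'
  exact hF.comp (Sm.of_analyticAt hφ)

theorem pull_D_sum {ι : Type*} [Fintype ι] {a K : ι → E → ℂ}
    (ha : ∀ j, DifferentiableAt ℝ (a j) p) (hK : ∀ j, DifferentiableAt ℝ (K j) p) (X : E) :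
    D X (fun q => ∑ j, a j q * K j q) p = ∑ j, (D X (a j) p * K j p + a j p * D X (K j) p) := by
  simp_rw [← D_mul_apply (ha _) (hK _)]
  simp only [D]
  rw [fderiv_fun_sum fun j _ => (ha j).fun_mul (hK j)]
  simp only [_root_.sum_apply, Finset.mul_sum, ← Finset.sum_sub_distrib,
    Finset.sum_div]

theorem pull_Db_sum {ι : Type*} [Fintype ι] {a K : ι → E → ℂ}
    (ha : ∀ j, DifferentiableAt ℝ (a j) p) (hK : ∀ j, DifferentiableAt ℝ (K j) p) (X : E) :
    Db X (fun q => ∑ j, a j q * K j q) p = ∑ j, (Db X (a j) p * K j p + a j p * Db X (K j) p) := by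
  simp_rw [← Db_mul_apply (ha _) (hK _)]
  simp only [Db]
  rw [fderiv_fun_sum fun j _ => (ha j).fun_mul (hK j)]
  simp only [_root_.sum_apply, Finset.mul_sum, ← Finset.sum_add_distrib,
    Finset.sum_div]

theorem pull_D_anti {ι : Type*} [Fintype ι] {a K : ι → E → ℂ} {G : E → ℂ}
    (ha : ∀ j, AnalyticAt ℂ (a j) p) (hK : ∀ j, Sm (K j) p)
    (hG : G =ᶠ[𝓝 p] fun q => ∑ j, conj (a j q) * K j q) (X : E) :
    D X G =ᶠ[𝓝 p] fun q => ∑ j, conj (a j q) * D X (K j) q := by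
  filter_upwards [D_congr hG X, eventually_all.2 fun j => (ha j).eventually_analyticAt,
    eventually_all.2 fun j => (hK j).eventually] with q h1 h2 h3
  rw [h1, pull_D_sum (fun j => (Sm.of_analyticAt (h2 j)).conj.differentiableAt)
    (fun j => (h3 j).differentiableAt)]
  refine Finset.sum_congr rfl fun j _ => ?_
  rw [D_conj]
  simp [Db_holo (h2 j).differentiableAt]

theorem pull_Db_anti {ι : Type*} [Fintype ι] {a K : ι → E → ℂ} {G : E → ℂ}
    (ha : ∀ j, AnalyticAt ℂ (a j) p) (hK : ∀ j, Sm (K j) p)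
    (hG : G =ᶠ[𝓝 p] fun q => ∑ j, conj (a j q) * K j q) (X : E) :
    Db X G p = ∑ j, (conj (fderiv ℂ (a j) p X) * K j p + conj (a j p) * Db X (K j) p) := by
  rw [(Db_congr hG X).eq_of_nhds,
    pull_Db_sum (fun j => (Sm.of_analyticAt (ha j)).conj.differentiableAt)
    (fun j => (hK j).differentiableAt)]
  refine Finset.sum_congr rfl fun j _ => ?_
  rw [Db_conj]
  simp [D_holo (ha j).differentiableAt]

theorem pull_D_holo {ι : Type*} [Fintype ι] {a K : ι → E → ℂ} {G : E → ℂ}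
    (ha : ∀ j, AnalyticAt ℂ (a j) p) (hK : ∀ j, Sm (K j) p)
    (hG : G =ᶠ[𝓝 p] fun q => ∑ j, a j q * K j q) (X : E) :
    D X G p = ∑ j, (fderiv ℂ (a j) p X * K j p + a j p * D X (K j) p) := by
  rw [(D_congr hG X).eq_of_nhds,
    pull_D_sum (fun j => (Sm.of_analyticAt (ha j)).differentiableAt)
    (fun j => (hK j).differentiableAt)]
  refine Finset.sum_congr rfl fun j _ => ?_
  rw [D_holo (ha j).differentiableAt]

variable (E') in
/-- a basis of the target -/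
def pullE : Module.Basis (Fin (Module.finrank ℂ E')) ℂ E' := Module.finBasis ℂ E'

/-- coordinates in the basis -/
def pullC (j : Fin (Module.finrank ℂ E')) : E' →L[ℂ] ℂ :=
  LinearMap.toContinuousLinearMap ((pullE E').coord j)

theorem pull_expand (f : E' → ℂ) (σ : ℂ → ℂ) (hadd : ∀ v w, f (v + w) = f v + f w)
    (hsmul : ∀ c v, f (c • v) = σ c * f v) (v : E') :
    f v = ∑ j, σ (pullC j v) * f (pullE E' j) := by
  let g : E' →+ ℂ := AddMonoidHom.mk' f hadd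
  conv_lhs => rw [← (pullE E').sum_repr v]
  change g _ = _
  rw [map_sum]
  exact Finset.sum_congr rfl fun j _ => hsmul _ _

theorem pull_D_basis (v : E') (F : E' → ℂ) (y : E') :
    D v F y = ∑ j, pullC j v * D (pullE E' j) F y :=
  pull_expand (fun v => D v F y) id (fun v w => by rw [D_add_vec]) (fun c v => by
    rw [D_smul_vec]; rfl) v

theorem pull_Db_basis (v : E') (F : E' → ℂ) (y : E') :
    Db v F y = ∑ j, conj (pullC j v) * Db (pullE E' j) F y :=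
  pull_expand (fun v => Db v F y) conj (fun v w => by rw [Db_add_vec]) (fun c v => by
    rw [Db_smul_vec]) v

theorem pull_an (hφ : AnalyticAt ℂ φ p) (Z : E) : AnalyticAt ℂ (fun q => fderiv ℂ φ q Z) p := by
  have := FiniteDimensional.complete ℂ E'
  exact ((ContinuousLinearMap.apply ℂ E' Z).analyticAt _).comp hφ.fderiv

theorem pull_anC (hφ : AnalyticAt ℂ φ p) (Z : E) (j : Fin (Module.finrank ℂ E')) :
    AnalyticAt ℂ (fun q => pullC j (fderiv ℂ φ q Z)) p :=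
  ((pullC j).analyticAt _).comp (pull_an hφ Z)

theorem pull_fdC (hφ : AnalyticAt ℂ φ p) (X Z : E) (j : Fin (Module.finrank ℂ E')) :
    fderiv ℂ (fun q => pullC j (fderiv ℂ φ q Z)) p X = pullC j (d2 φ p X Z) := by
  have h : HasFDerivAt (fun q => pullC j (fderiv ℂ φ q Z)) _ p :=
    (pullC j).hasFDerivAt.comp p (pull_an hφ Z).differentiableAt.hasFDerivAt
  rw [h.fderiv]
  rfl

theorem d2_symm (hφ : AnalyticAt ℂ φ p) (X Z : E) : d2 φ p X Z = d2 φ p Z X := by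
  have := FiniteDimensional.complete ℂ E'
  have key : ∀ X Z, d2 φ p X Z = fderiv ℂ (fderiv ℂ φ) p X Z := fun X Z => by
    have h : HasFDerivAt (fun q => fderiv ℂ φ q Z) _ p :=
      (ContinuousLinearMap.apply ℂ E' Z).hasFDerivAt.comp p hφ.fderiv.differentiableAt.hasFDerivAt
    rw [d2, h.fderiv]
    rfl
  rw [key, key]
  exact (hφ.contDiffAt (n := ω)).isSymmSndFDerivAt le_top X Z

theorem pull_P0 (hφ : AnalyticAt ℂ φ p) (hF : Sm F (φ p)) (Y : E) :
    Db Y (fun q => F (φ q)) =ᶠ[𝓝 p]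
      fun q => ∑ j, conj (pullC j (fderiv ℂ φ q Y)) * Db (pullE E' j) F (φ q) := by
  filter_upwards [pull_ev hφ hF] with q h
  rw [pull_Db h.1.differentiableAt h.2.differentiableAt, pull_Db_basis]

theorem pull_P0' (hφ : AnalyticAt ℂ φ p) (hF : Sm F (φ p)) (Y : E) :
    D Y (fun q => F (φ q)) =ᶠ[𝓝 p]
      fun q => ∑ j, pullC j (fderiv ℂ φ q Y) * D (pullE E' j) F (φ q) := by
  filter_upwards [pull_ev hφ hF] with q h
  rw [pull_D h.1.differentiableAt h.2.differentiableAt, pull_D_basis]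

theorem j22_eq_j21 {F : E → ℂ} (hF : Sm F p) (X Z Y W : E) :
    j22 F p X Z Y W = j21 (Db Y F) p X Z W :=
  ((D_Db_comm ((hF.Db Y).D Z) X W).symm.trans
    (D_congr (D_Db_comm (hF.Db Y) Z W).symm X)).eq_of_nhds

theorem j12_eq_j11 {F : E → ℂ} (hF : Sm F p) (X Y W : E) :
    j12 F p X Y W = j11 (Db Y F) p X W := (D_Db_comm (hF.Db Y) X W).symm.eq_of_nhds

theorem pull_R0 {y : E'} (v : E') :
    Db v F =ᶠ[𝓝 y] fun y => ∑ j, conj ((fun j _ => pullC j v) j y) * Db (pullE E' j) F y :=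
  Eventually.of_forall (pull_Db_basis v F)

theorem j20_basis {y : E'} (hF : Sm F y) (u v : E') :
    j20 F y u v = ∑ j, pullC j v * j20 F y u (pullE E' j) := by
  rw [j20, pull_D_holo (a := fun j _ => pullC j v) (fun _ => analyticAt_const) (fun j => hF.D _)
    (Eventually.of_forall (pull_D_basis v F))]
  simp [j20]

theorem j11_basis {y : E'} (hF : Sm F y) (u v : E') :
    j11 F y u v = ∑ j, conj (pullC j v) * j11 F y u (pullE E' j) :=
  (pull_D_anti (fun _ => analyticAt_const) (fun _ => hF.Db _) (pull_R0 v) u).eq_of_nhds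

theorem j21_basis {y : E'} (hF : Sm F y) (u u' v : E') :
    j21 F y u u' v = ∑ j, conj (pullC j v) * j21 F y u u' (pullE E' j) :=
  (pull_D_anti (fun _ => analyticAt_const) (fun _ => (hF.Db _).D _)
    (pull_D_anti (fun _ => analyticAt_const) (fun _ => hF.Db _) (pull_R0 v) u') u).eq_of_nhds

theorem j12_basis {y : E'} (hF : Sm F y) (u v w : E') :
    j12 F y u v w = ∑ j, conj (pullC j v) * j12 F y u (pullE E' j) w := by
  rw [j12, pull_Db_anti (fun _ => analyticAt_const) (fun _ => (hF.Db _).D _)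
    (pull_D_anti (fun _ => analyticAt_const) (fun _ => hF.Db _) (pull_R0 v) u)]
  simp [j12]

theorem j22_basis {y : E'} (hF : Sm F y) (u u' v w : E') :
    j22 F y u u' v w = ∑ j, conj (pullC j v) * j22 F y u u' (pullE E' j) w := by
  rw [j22, pull_Db_anti (fun _ => analyticAt_const) (fun _ => ((hF.Db _).D _).D _)
    (pull_D_anti (fun _ => analyticAt_const) (fun _ => (hF.Db _).D _)
      (pull_D_anti (fun _ => analyticAt_const) (fun _ => hF.Db _) (pull_R0 v) u') u)]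
  simp [j22]

theorem j20_pull (hφ : AnalyticAt ℂ φ p) (hF : Sm F (φ p)) (X Z : E) :
    j20 (fun q => F (φ q)) p X Z =
      j20 F (φ p) (fderiv ℂ φ p X) (fderiv ℂ φ p Z) + j1 F (φ p) (d2 φ p X Z) := by
  rw [j20, pull_D_holo (pull_anC hφ Z) (fun j => pull_sm hφ (hF.D _)) (pull_P0' hφ hF Z),
    j20_basis hF, j1, pull_D_basis, ← Finset.sum_add_distrib]
  refine Finset.sum_congr rfl fun j _ => ?_
  rw [pull_fdC hφ, pull_D hφ.differentiableAt (hF.D _).differentiableAt, j20, add_comm]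

theorem j1_pull (hφ : AnalyticAt ℂ φ p) (hF : Sm F (φ p)) (X : E) :
    j1 (fun q => F (φ q)) p X = j1 F (φ p) (fderiv ℂ φ p X) :=
  pull_D hφ.differentiableAt hF.differentiableAt X

theorem j11_pull (hφ : AnalyticAt ℂ φ p) (hF : Sm F (φ p)) (X Y : E) :
    j11 (fun q => F (φ q)) p X Y = j11 F (φ p) (fderiv ℂ φ p X) (fderiv ℂ φ p Y) := by
  rw [j11, (pull_D_anti (pull_anC hφ Y) (fun j => pull_sm hφ (hF.Db _)) (pull_P0 hφ hF Y)
    X).eq_of_nhds, j11_basis hF]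
  refine Finset.sum_congr rfl fun j _ => ?_
  rw [pull_D hφ.differentiableAt (hF.Db _).differentiableAt, j11]

theorem j21_pull (hφ : AnalyticAt ℂ φ p) (hF : Sm F (φ p)) (X Z Y : E) :
    j21 (fun q => F (φ q)) p X Z Y =
      j21 F (φ p) (fderiv ℂ φ p X) (fderiv ℂ φ p Z) (fderiv ℂ φ p Y)
        + j11 F (φ p) (d2 φ p X Z) (fderiv ℂ φ p Y) := by
  rw [j21, (pull_D_anti (pull_anC hφ Y) (fun j => (pull_sm hφ (hF.Db _)).D _)
    (pull_D_anti (pull_anC hφ Y) (fun j => pull_sm hφ (hF.Db _)) (pull_P0 hφ hF Y) Z)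
    X).eq_of_nhds, j11_basis hF, j21_basis hF, ← Finset.sum_add_distrib]
  refine Finset.sum_congr rfl fun j _ => ?_
  rw [← mul_add]
  congr 1
  exact j20_pull hφ (hF.Db _) X Z

theorem j22_pull (hφ : AnalyticAt ℂ φ p) (hF : Sm F (φ p)) (X Z Y W : E) :
    j22 (fun q => F (φ q)) p X Z Y W =
      j22 F (φ p) (fderiv ℂ φ p X) (fderiv ℂ φ p Z) (fderiv ℂ φ p Y) (fderiv ℂ φ p W)
        + j21 F (φ p) (fderiv ℂ φ p X) (fderiv ℂ φ p Z) (d2 φ p Y W)
        + j12 F (φ p) (d2 φ p X Z) (fderiv ℂ φ p Y) (fderiv ℂ φ p W)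
        + j11 F (φ p) (d2 φ p X Z) (d2 φ p Y W) := by
  rw [j22, pull_Db_anti (pull_anC hφ Y) (fun j => ((pull_sm hφ (hF.Db _)).D _).D _)
    (pull_D_anti (pull_anC hφ Y) (fun j => (pull_sm hφ (hF.Db _)).D _)
    (pull_D_anti (pull_anC hφ Y) (fun j => pull_sm hφ (hF.Db _)) (pull_P0 hφ hF Y) Z) X),
    j11_basis hF, j21_basis hF, j12_basis hF, j22_basis hF, ← Finset.sum_add_distrib,
    ← Finset.sum_add_distrib, ← Finset.sum_add_distrib]
  refine Finset.sum_congr rfl fun j _ => ?_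
  have hs := pull_sm hφ (hF.Db (pullE E' j))
  have h1 : D X (D Z fun q => Db (pullE E' j) F (φ q)) p = _ := j20_pull hφ (hF.Db _) X Z
  have h2 : Db W (D X (D Z fun q => Db (pullE E' j) F (φ q))) p =
      j21 (fun q => Db (pullE E' j) F (φ q)) p X Z W :=
    ((D_Db_comm (hs.D Z) X W).symm.trans (D_congr (D_Db_comm hs Z W).symm X)).eq_of_nhds
  rw [pull_fdC hφ, d2_symm hφ W Y, h1, h2, j21_pull hφ (hF.Db _), j22_eq_j21 hF, j12_eq_j11 hF]
  simp only [j20, j1, j21, j11]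
  ring

theorem pull_D_clm (A : E →L[ℂ] E') {G : E → ℂ} (hF : Sm F (A p))
    (hG : G =ᶠ[𝓝 p] fun q => F (A q)) (X : E) : D X G =ᶠ[𝓝 p] fun q => D (A X) F (A q) := by
  filter_upwards [D_congr hG X, pull_ev (A.analyticAt p) hF] with q h1 h2
  rw [h1, pull_D A.differentiableAt h2.2.differentiableAt, A.fderiv]

theorem pull_Db_clm (A : E →L[ℂ] E') {G : E → ℂ} (hF : Sm F (A p))
    (hG : G =ᶠ[𝓝 p] fun q => F (A q)) (X : E) : Db X G =ᶠ[𝓝 p] fun q => Db (A X) F (A q) := by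
  filter_upwards [Db_congr hG X, pull_ev (A.analyticAt p) hF] with q h1 h2
  rw [h1, pull_Db A.differentiableAt h2.2.differentiableAt, A.fderiv]

/-- all jets under a complex linear map -/
theorem jets_clm (A : E →L[ℂ] E') (hF : Sm F (A p)) :
    (∀ X, j1 (fun q => F (A q)) p X = j1 F (A p) (A X)) ∧
    (∀ Y, jb (fun q => F (A q)) p Y = jb F (A p) (A Y)) ∧
    (∀ X Z, j20 (fun q => F (A q)) p X Z = j20 F (A p) (A X) (A Z)) ∧
    (∀ X Y, j11 (fun q => F (A q)) p X Y = j11 F (A p) (A X) (A Y)) ∧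
    (∀ Y W, j02 (fun q => F (A q)) p Y W = j02 F (A p) (A Y) (A W)) ∧
    (∀ X Z Y, j21 (fun q => F (A q)) p X Z Y = j21 F (A p) (A X) (A Z) (A Y)) ∧
    (∀ X Y W, j12 (fun q => F (A q)) p X Y W = j12 F (A p) (A X) (A Y) (A W)) ∧
    (∀ X Z Y W, j22 (fun q => F (A q)) p X Z Y W = j22 F (A p) (A X) (A Z) (A Y) (A W)) := by
  have h1 := pull_D_clm A hF EventuallyEq.rfl
  have hb := pull_Db_clm A hF EventuallyEq.rfl
  have h11 := fun X Y => pull_D_clm A (hF.Db _) (hb Y) X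
  have h21 := fun X Z Y => pull_D_clm A ((hF.Db _).D _) (h11 Z Y) X
  exact ⟨fun X => (h1 X).eq_of_nhds, fun Y => (hb Y).eq_of_nhds,
    fun X Z => (pull_D_clm A (hF.D _) (h1 Z) X).eq_of_nhds, fun X Y => (h11 X Y).eq_of_nhds,
    fun Y W => (pull_Db_clm A (hF.Db _) (hb Y) W).eq_of_nhds,
    fun X Z Y => (h21 X Z Y).eq_of_nhds,
    fun X Y W => (pull_Db_clm A ((hF.Db _).D _) (h11 X Y) W).eq_of_nhds,
    fun X Z Y W => (pull_Db_clm A (((hF.Db _).D _).D _) (h21 X Z Y) W).eq_of_nhds⟩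

/-- subharmonic of holomorphic is plurisubharmonic -/
theorem Lv_comp_nonneg {k : ℂ → ℝ} {f : E → ℂ} (hf : AnalyticAt ℂ f p) (hk : Sm k (f p))
    (h0 : 0 ≤ (Lv k (f p) 1 1).re) (X : E) : 0 ≤ (Lv (fun q => k (f q)) p X X).re := by
  have h1 : Lv (fun q => k (f q)) p X X = Lv k (f p) (fderiv ℂ f p X) (fderiv ℂ f p X) :=
    j11_pull hf hk.cx X X
  have hj := isJet_of_sm hk
  have h2 := hj.H_smul (fderiv ℂ f p X) 1 (fderiv ℂ f p X)
  have h3 := hj.H_smul_right (fderiv ℂ f p X) 1 1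
  rw [smul_eq_mul, mul_one] at h2 h3
  rw [h1, h2, h3, ← mul_assoc, mul_conj, re_ofReal_mul]
  exact mul_nonneg (normSq_nonneg _) h0

section Alg
variable {V : Type*} [AddCommGroup V] [Module ℂ V] {H H' : V → V → ℂ} {T T' : V → V → V → ℂ}
  {Q Q' : V → V → V → V → ℂ} {A : V → V} {d : V → V → V}

/-- the transformation law of the mixed jets -/
structure PullLaw (H H' : V → V → ℂ) (T T' : V → V → V → ℂ) (Q Q' : V → V → V → V → ℂ)
    (A : V → V) (d : V → V → V) : Prop where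
  jet : IsJet H T Q
  surj : Function.Surjective A
  hH : ∀ X Y, H' X Y = H (A X) (A Y)
  hT : ∀ X Z Y, T' X Z Y = T (A X) (A Z) (A Y) + H (d X Z) (A Y)
  hQ : ∀ X Z Y W, Q' X Z Y W = Q (A X) (A Z) (A Y) (A W) + T (A X) (A Z) (d Y W)
    + conj (T (A Y) (A W) (d X Z)) + H (d X Z) (d Y W)

theorem PullLaw.solve (h : PullLaw H H' T T' Q Q' A d) {X Y G G' : V} (e : A G' = G + d X Y) :
    (∀ W, H' G' W = T' X Y W) ↔ ∀ W, H G W = T (A X) (A Y) W := by
  refine Iff.trans (forall_congr' fun W => ?_) h.surj.forall.symm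
  rw [h.hH, h.hT, e, h.jet.H_add, add_left_inj]

theorem PullLaw.solves (h : PullLaw H H' T T' Q Q' A d) {X Y G1 G2 G3 G1' G2' G3' : V}
    (e1 : A G1' = G1 + d X Y) (e2 : A G2' = G2 + d X X) (e3 : A G3' = G3 + d Y Y) :
    Solves H' T' X Y G1' G2' G3' ↔ Solves H T (A X) (A Y) G1 G2 G3 :=
  and_congr (h.solve e1) (and_congr (h.solve e2) (h.solve e3))

theorem PullLaw.den (h : PullLaw H H' T T' Q Q' A d) (X Y : V) :
    den H' X Y = den H (A X) (A Y) := by simp only [R245.den, h.hH]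

theorem PullLaw.num (h : PullLaw H H' T T' Q Q' A d) {X Y G1 G2 G3 G1' G2' G3' : V}
    (e1 : A G1' = G1 + d X Y) (e2 : A G2' = G2 + d X X) (e3 : A G3' = G3 + d Y Y)
    (hs : Solves H T (A X) (A Y) G1 G2 G3) :
    num H' Q' X Y G1' G2' G3' = num H Q (A X) (A Y) G1 G2 G3 := by
  simp only [R245.num, h.hH, h.hQ, e1, e2, e3, h.jet.H_add, h.jet.H_add_right]
  rw [h.jet.H_symm G1 (d X Y), h.jet.H_symm G2 (d Y Y), hs.1 (d X Y), hs.2.1 (d Y Y),
    hs.2.2 (d X X)]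
  congr 1
  ring

end Alg

theorem pullLaw {φ : E → E} {Φ : E → ℝ} (hφ : AnalyticAt ℂ φ p) (hΦ : Sm Φ (φ p))
    (hp : PosF (Lv (fun q => Φ (φ q)) p)) :
    PullLaw (Lv Φ (φ p)) (Lv (fun q => Φ (φ q)) p) (T3 Φ (φ p)) (T3 (fun q => Φ (φ q)) p)
      (Q4 Φ (φ p)) (Q4 (fun q => Φ (φ q)) p) (fderiv ℂ φ p) (d2 φ p) := by
  have hj := isJet_of_sm hΦ
  have hH : ∀ X Y, Lv (fun q => Φ (φ q)) p X Y =
      Lv Φ (φ p) (fderiv ℂ φ p X) (fderiv ℂ φ p Y) := j11_pull (F := cx Φ) hφ hΦ.cx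
  refine ⟨hj, ?_, hH, j21_pull (F := cx Φ) hφ hΦ.cx, fun X Z Y W => ?_⟩
  · refine (LinearMap.injective_iff_surjective (f := (fderiv ℂ φ p).toLinearMap)).1 ?_
    rw [injective_iff_map_eq_zero]
    intro X hX
    by_contra h0
    have h1 := hp X h0
    have h2 := hj.H_smul 0 0 0
    rw [hH, show fderiv ℂ φ p X = 0 from hX] at h1
    rw [zero_smul, zero_mul] at h2
    simp [h2] at h1
  · rw [← j12_cx hΦ]
    exact j22_pull hφ hΦ.cx X Z Y W

/-! transfer along a holomorphic self-map whose pull-back is positive definite -/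
theorem Good.of_pull {φ : E → E} {Φ : E → ℝ} {c L : ℝ} (hφ : AnalyticAt ℂ φ p) (hΦ : Sm Φ (φ p))
    (h : Good (fun q => Φ (φ q)) p c L) : Good Φ (φ p) c L := by
  have hl := pullLaw hφ hΦ h.pos
  refine ⟨hΦ, fun X hX => ?_, fun X Y G1 G2 G3 hs => ?_, fun X => ?_⟩
  · obtain ⟨X, rfl⟩ := hl.surj X
    rw [← hl.hH]
    exact h.pos X fun h0 => hX (by rw [h0, map_zero])
  · obtain ⟨X, rfl⟩ := hl.surj X
    obtain ⟨Y, rfl⟩ := hl.surj Y
    obtain ⟨G1', e1⟩ := hl.surj (G1 + d2 φ p X Y)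
    obtain ⟨G2', e2⟩ := hl.surj (G2 + d2 φ p X X)
    obtain ⟨G3', e3⟩ := hl.surj (G3 + d2 φ p Y Y)
    rw [← hl.den, ← hl.num e1 e2 e3 hs]
    exact h.neg _ _ _ _ _ ((hl.solves e1 e2 e3).2 hs)
  · obtain ⟨X, rfl⟩ := hl.surj X
    rw [← hl.hH, J1, ← j1_pull hφ hΦ.cx]
    exact h.grad X

theorem Low.of_pull {φ : E → E} {Φ : E → ℝ} {B : ℝ} (hφ : AnalyticAt ℂ φ p) (hΦ : Sm Φ (φ p))
    (hp : PosF (Lv (fun q => Φ (φ q)) p)) (h : Low (fun q => Φ (φ q)) p B) : Low Φ (φ p) B := by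
  have hl := pullLaw hφ hΦ hp
  intro X Y G1 G2 G3 hs
  obtain ⟨X, rfl⟩ := hl.surj X
  obtain ⟨Y, rfl⟩ := hl.surj Y
  obtain ⟨G1', e1⟩ := hl.surj (G1 + d2 φ p X Y)
  obtain ⟨G2', e2⟩ := hl.surj (G2 + d2 φ p X X)
  obtain ⟨G3', e3⟩ := hl.surj (G3 + d2 φ p Y Y)
  rw [← hl.den, ← hl.num e1 e2 e3 hs]
  exact h _ _ _ _ _ ((hl.solves e1 e2 e3).2 hs)

theorem Very.of_pull {φ : E → E} {Φ : E → ℝ} {B : ℝ} (hφ : AnalyticAt ℂ φ p) (hΦ : Sm Φ (φ p))
    (hp : PosF (Lv (fun q => Φ (φ q)) p)) (h : Very (fun q => Φ (φ q)) p B) : Very Φ (φ p) B := by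
  have hl := pullLaw hφ hΦ hp
  obtain ⟨X, Y, G1, G2, G3, hs, h1, h2⟩ := h
  have e1 := (sub_add_cancel (fderiv ℂ φ p G1) (d2 φ p X Y)).symm
  have e2 := (sub_add_cancel (fderiv ℂ φ p G2) (d2 φ p X X)).symm
  have e3 := (sub_add_cancel (fderiv ℂ φ p G3) (d2 φ p Y Y)).symm
  have hs' := (hl.solves e1 e2 e3).1 hs
  rw [hl.den] at h1 h2
  rw [hl.num e1 e2 e3 hs'] at h2
  exact ⟨_, _, _, _, _, hs', h1, h2⟩

theorem Good.comp_equiv {Φ : E → ℝ} {c L : ℝ} (A : E ≃L[ℂ] E) (h : Good Φ (A p) c L) :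
    Good (fun q => Φ (A q)) p c L := by
  have h1 : Sm (fun q => Φ (A q)) p := pull_sm ((A : E →L[ℂ] E).analyticAt p) h.sm
  have := Good.of_pull (p := A p) (φ := A.symm) (Φ := fun q => Φ (A q)) (c := c) (L := L)
    ((A.symm : E →L[ℂ] E).analyticAt _) (by simpa using h1) (by simpa using h)
  simpa using this

end
end Crest.Agent.R245
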