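import Crest.Agent.R245.JetRules
import Crest.Agent.R245.Pull

/-! Row 245: the profile function used for the function on the disc. -/

open Complex Filter Topology Set Metric
open scoped ComplexConjugate ContDiff

namespace Crest.Agent.R245
noncomputable section

/-- smooth and subharmonic at `p` -/
def DiscSH (k : ℂ → ℝ) (p : ℂ) : Prop := Sm k p ∧ 0 ≤ (Lv k p 1 1).re

theorem DiscSH.congr {k k' : ℂ → ℝ} {p : ℂ} (h : DiscSH k p) (he : k =ᶠ[𝓝 p] k') :
    DiscSH k' p := ⟨h.1.congr he, Lv_congr he ▸ h.2⟩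

theorem DiscSH.const (c : ℝ) (p : ℂ) : DiscSH (fun _ => c) p :=
  ⟨Sm.const c, by rw [Lv_const]; exact le_rfl⟩

theorem DiscSH.add {k k' : ℂ → ℝ} {p : ℂ} (h : DiscSH k p) (h' : DiscSH k' p) :
    DiscSH (fun q => k q + k' q) p :=
  ⟨h.1.add h'.1, by rw [Lv_add h.1 h'.1, add_re]; exact add_nonneg h.2 h'.2⟩

theorem DiscSH.comp {k : ℂ → ℝ} {f : ℂ → ℂ} {p : ℂ} (hf : AnalyticAt ℂ f p)
    (h : DiscSH k (f p)) : DiscSH (fun q => k (f q)) p :=
  ⟨h.1.comp (Sm.of_analyticAt hf), Lv_comp_nonneg hf h.1 h.2 1⟩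

theorem DiscSH.sum {ι : Type*} (s : Finset ι) {k : ι → ℂ → ℝ} {p : ℂ}
    (h : ∀ i ∈ s, DiscSH (k i) p) : DiscSH (fun q => ∑ i ∈ s, k i q) p := by
  classical
  induction s using Finset.induction_on with
  | empty => simpa using DiscSH.const 0 p
  | insert i s hi ih =>
    simp only [Finset.sum_insert hi]
    exact (h i (Finset.mem_insert_self _ _)).add (ih fun j hj => h j (Finset.mem_insert_of_mem hj))

/-- a smooth convex function, `0` on the left and `t - c` on the right -/
def discH (t : ℝ) : ℝ := ∫ u in (0 : ℝ)..t, Real.smoothTransition u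

theorem discH_deriv : deriv discH = Real.smoothTransition := by
  funext t
  exact Real.smoothTransition.continuous.deriv_integral _ 0 t

theorem discH_contDiff : ContDiff ℝ ∞ discH := by
  refine contDiff_infty_iff_deriv.2 ⟨fun t => ?_, discH_deriv ▸ Real.smoothTransition.contDiff⟩
  exact (Real.smoothTransition.continuous.integral_hasStrictDerivAt 0 t).hasDerivAt.differentiableAt

theorem discH_nonpos {t : ℝ} (ht : t ≤ 0) : discH t = 0 := by
  unfold discH
  rw [intervalIntegral.integral_congr (g := fun _ => 0), intervalIntegral.integral_zero]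
  intro u hu
  rw [uIcc_of_ge ht] at hu
  exact Real.smoothTransition.zero_of_nonpos hu.2

theorem discH_one_le {t : ℝ} (ht : 1 ≤ t) : discH t = t - (1 - discH 1) := by
  unfold discH
  have hi := Real.smoothTransition.continuous.intervalIntegrable (μ := MeasureTheory.volume)
  rw [← intervalIntegral.integral_add_adjacent_intervals (hi 0 1) (hi 1 t),
    intervalIntegral.integral_congr (a := 1) (b := t) (g := fun _ => 1)]
  · simp only [intervalIntegral.integral_const, smul_eq_mul, mul_one]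
    ring
  · intro u hu
    rw [uIcc_of_le ht] at hu
    exact Real.smoothTransition.one_of_one_le hu.1

theorem discH_le {t : ℝ} (ht : 0 ≤ t) : discH t ≤ t := by
  have := intervalIntegral.integral_mono_on (μ := MeasureTheory.volume) ht
    (Real.smoothTransition.continuous.intervalIntegrable 0 t)
    (continuous_const.intervalIntegrable 0 t) fun u _ => Real.smoothTransition.le_one u
  simpa [discH] using this

theorem discSH_re (w : ℂ) : DiscSH (fun q => discH q.re) w := by
  have h1 : Sm discH w.re := Sm.of_contDiff discH_contDiff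
  have h2 : Sm (fun q : ℂ => q.re) w := Sm.of_contDiff reCLM.contDiff
  refine ⟨h1.comp h2, ?_⟩
  have h3 : j11 (cx fun q : ℂ => q.re) w 1 1 = 0 := Lv_re (h := fun q => q) analyticAt_id 1 1
  have h4 := j11_comp (Φ := fun q : ℂ => q.re) h1 h2 1 1
  unfold Lv
  rw [h4, h3, mul_zero, add_zero, jb_cx]
  unfold J1
  rw [mul_conj, kd, ← ofReal_mul, ofReal_re]
  refine mul_nonneg ?_ (normSq_nonneg _)
  rw [iteratedDeriv_succ, iteratedDeriv_one, discH_deriv]
  exact Real.smoothTransition.monotone.deriv_nonneg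

theorem discSH_log (w : ℂ) : DiscSH (fun q => discH (Real.log ‖q‖)) w := by
  rcases eq_or_ne w 0 with rfl | hw
  · refine (DiscSH.const 0 0).congr ?_
    filter_upwards [ball_mem_nhds (0 : ℂ) one_pos] with q hq
    rw [discH_nonpos (Real.log_nonpos (norm_nonneg _) (mem_ball_zero_iff.1 hq).le)]
  · have ha : AnalyticAt ℂ (fun q : ℂ => (Real.log ‖w‖ : ℂ) + Complex.log (q / w)) w := by
      refine analyticAt_const.add (AnalyticAt.clog (by fun_prop) ?_)
      simp [hw]
    refine ((discSH_re _).comp ha).congr ?_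
    filter_upwards [isOpen_ne.mem_nhds hw] with q hq
    rw [add_re, ofReal_re, log_re, norm_div, Real.log_div (norm_ne_zero_iff.2 hq)
      (norm_ne_zero_iff.2 hw)]
    congr 1
    ring

def discQ (ξ : ℂ) : ℂ := 192 * (1 - ξ) * ξ ^ 4

theorem norm_discQ (ξ : ℂ) : ‖discQ ξ‖ = 192 * ‖1 - ξ‖ * ‖ξ‖ ^ 4 := by
  simp [discQ]

theorem disc_one_le_log {x : ℝ} (h : 3 ≤ x) : 1 ≤ Real.log x := by
  rw [Real.le_log_iff_exp_le (by linarith)]
  exact (Real.exp_one_lt_d9.le.trans (by norm_num)).trans h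

theorem exists_discX {Dp : ℝ} (hD : 0 < Dp) : ∃ (X : ℂ → ℝ) (c : ℝ), (∀ ξ, DiscSH X ξ) ∧
    (∀ ξ, ‖ξ‖ ≤ 1 / 4 → X ξ = 0) ∧ (∀ ξ, ‖ξ - 1‖ ≤ Real.exp (-Dp) / 1000 → X ξ = -Dp) ∧
    (∀ ξ, 2 ≤ ‖ξ‖ → X ξ = Real.log ‖discQ ξ‖ - c) ∧ ∀ ξ, X ξ ≤ ‖discQ ξ‖ := by
  have aQ : ∀ ξ, AnalyticAt ℂ discQ ξ := fun ξ => by unfold discQ; fun_prop
  have big : ∀ ξ, 3 ≤ ‖discQ ξ‖ → discH (Real.log ‖(Real.exp Dp : ℂ) * discQ ξ‖) + -Dp =
      Real.log ‖discQ ξ‖ - (1 - discH 1) := fun ξ h => by
    have := disc_one_le_log h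
    rw [norm_mul, Complex.norm_real, Real.norm_eq_abs, abs_of_pos (Real.exp_pos _),
      Real.log_mul (Real.exp_pos _).ne' (by linarith), Real.log_exp, discH_one_le (by linarith)]
    ring
  refine ⟨fun ξ => if ‖ξ‖ < 1 / 2 then discH (Real.log ‖discQ ξ‖)
    else discH (Real.log ‖(Real.exp Dp : ℂ) * discQ ξ‖) + -Dp, 1 - discH 1, fun ξ => ?_,
    fun ξ h => ?_, fun ξ h => ?_, fun ξ h => ?_, fun ξ => ?_⟩
  · rcases lt_or_ge ‖ξ‖ (3 / 4) with h | h
    · refine ((discSH_log _).comp (aQ ξ)).congr ?_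
      filter_upwards [(isOpen_lt continuous_norm continuous_const).mem_nhds h] with q hq
      split_ifs with h'
      · rfl
      · have h3 : 3 ≤ ‖discQ q‖ := by
          rw [norm_discQ]
          have h1 : 1 / 4 ≤ ‖1 - q‖ := by
            have := norm_sub_norm_le 1 q
            rw [norm_one] at this
            linarith [show ‖q‖ < 3 / 4 from hq]
          have h2 : (1 / 2 : ℝ) ^ 4 ≤ ‖q‖ ^ 4 := pow_le_pow_left₀ (by norm_num) (not_lt.1 h') 4
          nlinarith
        rw [big q h3, discH_one_le (disc_one_le_log h3)]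
    · refine ((((discSH_log _).comp (analyticAt_const.mul (aQ ξ) :
        AnalyticAt ℂ (fun q => (Real.exp Dp : ℂ) * discQ q) ξ))).add (DiscSH.const (-Dp) ξ)).congr ?_
      have h' : 1 / 2 < ‖ξ‖ := by linarith
      filter_upwards [(isOpen_lt continuous_const continuous_norm).mem_nhds h'] with q hq
      rw [if_neg (not_lt.2 (le_of_lt hq))]
      rfl
  · simp only
    rw [if_pos (by linarith)]
    refine discH_nonpos (Real.log_nonpos (norm_nonneg _) ?_)
    rw [norm_discQ]
    have h1 : ‖1 - ξ‖ ≤ 5 / 4 := by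
      have := norm_sub_le 1 ξ
      rw [norm_one] at this
      linarith
    have h2 : ‖ξ‖ ^ 4 ≤ (1 / 4 : ℝ) ^ 4 := pow_le_pow_left₀ (norm_nonneg _) h 4
    have h3 : 0 ≤ ‖ξ‖ ^ 4 := by positivity
    nlinarith [norm_nonneg (1 - ξ)]
  · have e1 : Real.exp (-Dp) ≤ 1 := Real.exp_le_one_iff.2 (by linarith)
    have h1 := abs_norm_sub_norm_le ξ 1
    rw [norm_one, abs_le] at h1
    simp only
    rw [if_neg (by linarith [h1.1]), discH_nonpos (Real.log_nonpos (norm_nonneg _) ?_), zero_add]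
    rw [norm_mul, Complex.norm_real, Real.norm_eq_abs, abs_of_pos (Real.exp_pos _), norm_discQ,
      norm_sub_rev]
    have h2 : ‖ξ‖ ^ 4 ≤ (3 / 2 : ℝ) ^ 4 := pow_le_pow_left₀ (norm_nonneg _) (by linarith [h1.2]) 4
    have h3 : Real.exp Dp * ‖ξ - 1‖ ≤ 1 / 1000 := by
      have := mul_le_mul_of_nonneg_left h (Real.exp_pos Dp).le
      rwa [← mul_div_assoc, ← Real.exp_add, add_neg_cancel, Real.exp_zero] at this
    have h4 : 0 ≤ Real.exp Dp * ‖ξ - 1‖ := by positivity
    have h5 : 0 ≤ ‖ξ‖ ^ 4 := by positivity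
    nlinarith
  · simp only
    rw [if_neg (by linarith), big]
    rw [norm_discQ]
    have h1 : 1 ≤ ‖1 - ξ‖ := by
      have := norm_sub_norm_le ξ 1
      rw [norm_one, norm_sub_rev] at this
      linarith
    have h2 : (2 : ℝ) ^ 4 ≤ ‖ξ‖ ^ 4 := pow_le_pow_left₀ (by norm_num) h 4
    nlinarith
  · have q0 := norm_nonneg (discQ ξ)
    have hl := Real.log_le_self q0
    simp only
    split_ifs
    · rcases le_total (Real.log ‖discQ ξ‖) 0 with h | h
      · rwa [discH_nonpos h]
      · exact (discH_le h).trans hl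
    · rcases le_total (Real.log ‖(Real.exp Dp : ℂ) * discQ ξ‖) 0 with h | h
      · rw [discH_nonpos h]; linarith
      · have := discH_le h
        rcases q0.eq_or_lt with h0 | h0
        · rw [norm_mul, ← h0, mul_zero, Real.log_zero] at this ⊢
          linarith
        · rw [norm_mul, Complex.norm_real, Real.norm_eq_abs, abs_of_pos (Real.exp_pos _),
            Real.log_mul (Real.exp_pos _).ne' h0.ne', Real.log_exp] at this ⊢
          linarith

end
end Crest.Agent.R245
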