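import Crest.Agent.R245.Wirt
import Crest.Agent.R245.Alg0

/-! Row 245: calculus of jet bounds. -/

open Complex Filter Topology Set Metric Matrix
open scoped ComplexConjugate ContDiff

namespace Crest.Agent.R245
noncomputable section

section Real
variable {E G G' : Type*} [NormedAddCommGroup E] [NormedSpace ℝ E]
  [NormedAddCommGroup G] [NormedSpace ℝ G] [NormedAddCommGroup G'] [NormedSpace ℝ G']
  {p : E} {A B : ℝ}

theorem jb_le_top (i : ℕ) : (i : WithTop ℕ∞) ≤ ∞ := by exact_mod_cast le_top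
theorem jb_cda {F : E → G} (h : Sm F p) (i : ℕ) : ContDiffAt ℝ i F p :=
  h.contDiffAt.of_le (jb_le_top i)
theorem jb_open {F : E → G} (h : Sm F p) : ∃ s, IsOpen s ∧ p ∈ s ∧ ContDiffOn ℝ ∞ F s := by
  obtain ⟨s, h1, h2, h3⟩ := _root_.eventually_nhds_iff.1 h
  exact ⟨s, h2, h3, fun q hq => (h1 q hq).contDiffWithinAt⟩

theorem JB.sm {F : E → G} (h : JB F p A) : Sm F p := h.1
theorem JB.nonneg {F : E → G} (h : JB F p A) : 0 ≤ A :=
  (norm_nonneg _).trans (h.2 1 le_rfl (by norm_num))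
theorem JB.mono {F : E → G} (h : JB F p A) (hAB : A ≤ B) : JB F p B :=
  ⟨h.1, fun i h1 h4 => (h.2 i h1 h4).trans hAB⟩
theorem JB.congr {F F' : E → G} (h : JB F p A) (he : F =ᶠ[𝓝 p] F') : JB F' p A :=
  ⟨h.1.congr he, fun i h1 h4 => by
    rw [← (he.iteratedFDeriv ℝ i).eq_of_nhds]; exact h.2 i h1 h4⟩
theorem JB.const (c : G) : JB (fun _ : E => c) p 0 :=
  ⟨Sm.const c, fun i h1 _ => by rw [iteratedFDeriv_const_of_ne (by omega)]; simp⟩
theorem JB.add {F F' : E → G} (h : JB F p A) (h' : JB F' p B) :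
    JB (fun q => F q + F' q) p (A + B) :=
  ⟨h.1.add h'.1, fun i h1 h4 => by
    rw [fun_iteratedFDeriv_add_apply (jb_cda h.1 i) (jb_cda h'.1 i)]
    exact (norm_add_le _ _).trans (add_le_add (h.2 i h1 h4) (h'.2 i h1 h4))⟩
theorem JB.neg {F : E → G} (h : JB F p A) : JB (fun q => -F q) p A :=
  ⟨h.1.neg, fun i h1 h4 => by
    have : iteratedFDeriv ℝ i (fun q => -F q) p = -iteratedFDeriv ℝ i F p := iteratedFDeriv_neg_apply
    rw [this, norm_neg]; exact h.2 i h1 h4⟩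
theorem JB.add_const {F : E → G} (h : JB F p A) (c : G) : JB (fun q => F q + c) p A := by
  simpa using h.add (JB.const c)
theorem JB.clm_comp {F : E → G} (h : JB F p A) (L : G →L[ℝ] G') :
    JB (fun q => L (F q)) p (‖L‖ * A) :=
  ⟨Sm.comp (g := L) (Sm.of_contDiff L.contDiff) h.1, fun i h1 h4 =>
    (L.norm_iteratedFDeriv_comp_left (jb_cda h.1 i) le_rfl).trans
      (mul_le_mul_of_nonneg_left (h.2 i h1 h4) (norm_nonneg _))⟩
theorem JB.clm (L : E →L[ℝ] G) : JB L p ‖L‖ :=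
  ⟨Sm.of_contDiff L.contDiff, fun i h1 _ => by
    obtain ⟨k, rfl⟩ : ∃ k, i = k + 1 := ⟨i - 1, by omega⟩
    have e : fderiv ℝ L = fun _ => L := funext fun _ => L.fderiv
    rw [← norm_iteratedFDeriv_fderiv, e]
    rcases Nat.eq_zero_or_pos k with rfl | hk
    · simp
    · rw [iteratedFDeriv_const_of_ne hk.ne']; simp⟩
theorem JB.const_mul {F : E → ℝ} (h : JB F p A) (a : ℝ) :
    JB (fun q => a * F q) p (|a| * A) := by
  simpa using h.clm_comp (ContinuousLinearMap.mul ℝ ℝ a)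
theorem JB.const_mul_complex {F : E → ℂ} (h : JB F p A) (a : ℂ) :
    JB (fun q => a * F q) p (‖a‖ * A) := by
  simpa using h.clm_comp (ContinuousLinearMap.mul ℝ ℂ a)
theorem JB.sum {ι : Type*} (s : Finset ι) {F : ι → E → G} {A : ι → ℝ}
    (h : ∀ i ∈ s, JB (F i) p (A i)) : JB (fun q => ∑ i ∈ s, F i q) p (∑ i ∈ s, A i) := by
  classical
  induction s using Finset.induction_on with
  | empty => simpa using JB.const (0 : G)
  | insert a s ha ih =>
    simp only [Finset.sum_insert ha]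
    exact (h a (Finset.mem_insert_self _ _)).add (ih fun i hi => h i (Finset.mem_insert_of_mem hi))
theorem JB.mul {F F' : E → ℝ} (h : JB F p A) (h' : JB F' p B) {A0 B0 : ℝ} (h0 : |F p| ≤ A0)
    (h0' : |F' p| ≤ B0) : JB (fun q => F q * F' q) p (A0 * B + A * B0 + 14 * (A * B)) := by
  refine ⟨h.1.mul h'.1, fun n h1 h4 => ?_⟩
  obtain ⟨s, so, sp, sc⟩ := jb_open h.1
  obtain ⟨t, tO, tp, tc⟩ := jb_open h'.1
  have o := so.inter tO
  have m : p ∈ s ∩ t := ⟨sp, tp⟩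
  have key := norm_iteratedFDerivWithin_mul_le (sc.mono inter_subset_left)
    (tc.mono inter_subset_right) o.uniqueDiffOn m (jb_le_top n)
  simp only [iteratedFDerivWithin_of_isOpen _ o m] at key
  refine key.trans ?_
  have hA := h.nonneg
  have hB := h'.nonneg
  have hA0 := (abs_nonneg _).trans h0
  have hB0 := (abs_nonneg _).trans h0'
  have e0 : ∀ j, 1 ≤ j → j ≤ 4 →
      ‖iteratedFDeriv ℝ 0 F p‖ * ‖iteratedFDeriv ℝ j F' p‖ ≤ A0 * B := fun j j1 j4 =>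
    mul_le_mul (by simpa using h0) (h'.2 j j1 j4) (norm_nonneg _) hA0
  have e1 : ∀ j, 1 ≤ j → j ≤ 4 →
      ‖iteratedFDeriv ℝ j F p‖ * ‖iteratedFDeriv ℝ 0 F' p‖ ≤ A * B0 := fun j j1 j4 =>
    mul_le_mul (h.2 j j1 j4) (by simpa using h0') (norm_nonneg _) hA
  have e2 : ∀ i j, 1 ≤ i → i ≤ 4 → 1 ≤ j → j ≤ 4 →
      ‖iteratedFDeriv ℝ i F p‖ * ‖iteratedFDeriv ℝ j F' p‖ ≤ A * B := fun i j i1 i4 j1 j4 =>
    mul_le_mul (h.2 i i1 i4) (h'.2 j j1 j4) (norm_nonneg _) hA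
  have hAB := mul_nonneg hA hB
  have a0 := e0 n h1 h4
  have a1 := e1 n h1 h4
  have b11 := e2 1 1 (by omega) (by omega) (by omega) (by omega)
  have b12 := e2 1 2 (by omega) (by omega) (by omega) (by omega)
  have b21 := e2 2 1 (by omega) (by omega) (by omega) (by omega)
  have b13 := e2 1 3 (by omega) (by omega) (by omega) (by omega)
  have b31 := e2 3 1 (by omega) (by omega) (by omega) (by omega)
  have b22 := e2 2 2 (by omega) (by omega) (by omega) (by omega)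
  interval_cases n <;>
    simp only [Finset.sum_range_succ, Finset.sum_range_zero, Nat.choose, Nat.reduceSub,
      Nat.reduceAdd] <;> push_cast <;> linarith
theorem jb_root {B : ℝ} (hB : 0 ≤ B) {n : ℕ} (h1 : 1 ≤ n) (h4 : n ≤ 4) :
    ∃ D : ℝ, 0 ≤ D ∧ (∀ i, 1 ≤ i → i ≤ n → B ≤ D ^ i) ∧ D ^ n ≤ max B (B ^ 4) := by
  rcases le_total B 1 with h | h
  · have e : (B ^ (n : ℝ)⁻¹) ^ n = B := Real.rpow_inv_natCast_pow hB (by omega)
    have d0 : 0 ≤ B ^ (n : ℝ)⁻¹ := Real.rpow_nonneg hB _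
    refine ⟨B ^ (n : ℝ)⁻¹, d0, fun i _ hi => ?_, by rw [e]; exact le_max_left _ _⟩
    exact e.symm.trans_le (pow_le_pow_of_le_one d0 (Real.rpow_le_one hB h (by positivity)) hi)
  · exact ⟨B, hB, fun i hi _ => le_self_pow₀ h (by omega),
      (pow_le_pow_right₀ h h4).trans (le_max_right _ _)⟩
theorem JB.comp {g : G → G'} {f : E → G} (hg : JB g (f p) A) (hf : JB f p B) :
    JB (fun q => g (f q)) p (24 * A * max B (B ^ 4)) := by
  have hg' := hg.add_const (-g (f p))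
  suffices H : JB (fun q => g (f q) + -g (f p)) p (24 * A * max B (B ^ 4)) by
    simpa using H.add_const (g (f p))
  refine ⟨hg'.1.comp hf.1, fun n h1 h4 => ?_⟩
  obtain ⟨t, tO, tp, tc⟩ := jb_open hg'.1
  obtain ⟨s, so, sp, sc⟩ := jb_open hf.1
  have o : IsOpen (s ∩ f ⁻¹' t) := sc.continuousOn.isOpen_inter_preimage so tO
  have m : p ∈ s ∩ f ⁻¹' t := ⟨sp, tp⟩
  obtain ⟨D, D0, D1, D2⟩ := jb_root hf.nonneg h1 h4
  have hA := hg.nonneg
  have key := norm_iteratedFDerivWithin_comp_le (C := A) (D := D) tc (sc.mono inter_subset_left)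
    (jb_le_top n) tO.uniqueDiffOn o.uniqueDiffOn (fun q hq => hq.2) m
    (fun i hi => by
      rw [iteratedFDerivWithin_of_isOpen _ tO tp]
      rcases Nat.eq_zero_or_pos i with rfl | h0
      · simpa using hA
      · exact hg'.2 i h0 (hi.trans h4))
    (fun i i1 hi => by
      rw [iteratedFDerivWithin_of_isOpen _ o m]
      exact (hf.2 i i1 (hi.trans h4)).trans (D1 i i1 hi))
  rw [iteratedFDerivWithin_of_isOpen _ o m] at key
  refine key.trans ?_
  have : (n.factorial : ℝ) ≤ 24 := by exact_mod_cast Nat.factorial_le h4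
  gcongr
/-- uniform bounds at the points of a compact set -/
theorem JB.compact_pts {K : Set E} (hK : IsCompact K) {F : E → G} (h : ∀ x ∈ K, Sm F x) :
    ∃ C, ∀ x ∈ K, JB F x C := by
  have hb : ∀ i : ℕ, ∃ C, ∀ x ∈ K, ‖iteratedFDeriv ℝ i F x‖ ≤ C := fun i =>
    hK.exists_bound_of_continuousOn fun x hx =>
      ((h x hx).contDiffAt.continuousAt_iteratedFDeriv (jb_le_top i)).continuousWithinAt
  choose C hC using hb
  refine ⟨∑ i ∈ Finset.range 5, |C i|, fun x hx => ⟨h x hx, fun i _ h4 => ?_⟩⟩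
  exact (hC i x hx).trans ((le_abs_self _).trans (Finset.single_le_sum
    (f := fun i => |C i|) (fun _ _ => abs_nonneg _) (Finset.mem_range.2 (by omega))))
/-- uniform bounds for a compact family -/
theorem JB.compact {P : Type*} [NormedAddCommGroup P] [NormedSpace ℝ P] {K : Set P}
    (hK : IsCompact K) {F : P × E → G} (h : ∀ θ ∈ K, Sm F (θ, p)) :
    ∃ C, ∀ θ ∈ K, JB (fun y => F (θ, y)) p C := by
  obtain ⟨C, hC⟩ := JB.compact_pts (hK.prod (isCompact_singleton (x := p))) (F := F) (by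
    rintro ⟨θ, y⟩ ⟨h1, h2⟩
    obtain rfl : y = p := h2
    exact h θ h1)
  refine ⟨_, fun θ hθ => JB.comp (f := fun y => (θ, y)) (hC (θ, p) ⟨hθ, rfl⟩)
    (B := ‖ContinuousLinearMap.inr ℝ P E‖) ?_⟩
  simpa using (JB.clm (p := p) (ContinuousLinearMap.inr ℝ P E)).add_const (θ, 0)
/-- Cauchy estimates -/
theorem JB.holo {f : ℂ → ℂ} (hf : DifferentiableOn ℂ f (ball 0 (1 / 2)))
    (hA : ∀ y ∈ ball (0 : ℂ) (1 / 2), ‖f y - f 0‖ ≤ A) : JB f 0 (10000 * A) := by
  have hA0 : 0 ≤ A := (norm_nonneg _).trans (hA 0 (mem_ball_self (by norm_num)))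
  have hg : DifferentiableOn ℂ (fun y => f y - f 0) (ball 0 (1 / 2)) := hf.sub_const _
  have ha : AnalyticAt ℂ (fun y => f y - f 0) 0 := hg.analyticAt (ball_mem_nhds _ (by norm_num))
  suffices H : JB (fun y => f y - f 0) 0 (10000 * A) by simpa using H.add_const (f 0)
  refine ⟨Sm.of_analyticAt ha, fun i h1 h4 => ?_⟩
  rw [← (ha.contDiffAt (n := i)).restrictScalars_iteratedFDeriv (𝕜 := ℝ), Function.comp_apply,
    ContinuousMultilinearMap.norm_restrictScalars, norm_iteratedFDeriv_eq_norm_iteratedDeriv]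
  have hsub : closedBall (0 : ℂ) (1 / 4) ⊆ ball 0 (1 / 2) := closedBall_subset_ball (by norm_num)
  refine (Complex.norm_iteratedDeriv_le_of_forall_mem_sphere_norm_le i (R := 1 / 4) (by norm_num)
    (hg.diffContOnCl_ball hsub) fun z hz => hA z (hsub (sphere_subset_closedBall hz))).trans ?_
  rw [div_le_iff₀ (by positivity)]
  interval_cases i <;> simp only [Nat.factorial] <;> push_cast <;> linarith

end Real

section Jets
variable {E : Type*} [NormedAddCommGroup E] [NormedSpace ℝ E] [NormedSpace ℂ E]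
  [IsScalarTower ℝ ℂ E] {p : E} {Φ : E → ℝ} {A : ℝ}

omit [IsScalarTower ℝ ℂ E] in
theorem jb_wirt {F : E → ℂ} (h : Sm F p) (X : E) {c : ℂ} (hc : ‖c‖ = 1) (i : ℕ) :
    ‖iteratedFDeriv ℝ i (fun q => (fderiv ℝ F q X + c * fderiv ℝ F q (I • X)) / 2) p‖ ≤
      ‖X‖ * ‖iteratedFDeriv ℝ (i + 1) F p‖ := by
  let L : (E →L[ℝ] ℂ) →L[ℝ] ℂ := (2⁻¹ : ℂ) • (ContinuousLinearMap.apply ℝ ℂ X +
    c • ContinuousLinearMap.apply ℝ ℂ (I • X))
  have hL : ∀ φ, L φ = (φ X + c * φ (I • X)) / 2 := fun φ => by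
    simp [L, div_eq_inv_mul, mul_add]
  have hn : ‖L‖ ≤ ‖X‖ := by
    refine L.opNorm_le_bound (norm_nonneg _) fun φ => ?_
    have h1 := φ.le_opNorm X
    have h2 := φ.le_opNorm (I • X)
    rw [norm_smul, norm_I, one_mul] at h2
    have h3 := norm_add_le (φ X) (c * φ (I • X))
    rw [norm_mul, hc, one_mul] at h3
    rw [hL, norm_div, Complex.norm_ofNat]
    linarith
  have e : (fun q => (fderiv ℝ F q X + c * fderiv ℝ F q (I • X)) / 2) = L ∘ fderiv ℝ F :=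
    funext fun q => (hL _).symm
  have hd : ContDiffAt ℝ i (fderiv ℝ F) p := (jb_cda h (i + 1)).fderiv_right (by norm_cast)
  rw [e, ← norm_iteratedFDeriv_fderiv]
  exact (L.norm_iteratedFDeriv_comp_left hd le_rfl).trans
    (mul_le_mul_of_nonneg_right hn (norm_nonneg _))

omit [IsScalarTower ℝ ℂ E] in
theorem jb_D {F : E → ℂ} (h : Sm F p) (X : E) {i : ℕ} {C : ℝ}
    (hC : ‖iteratedFDeriv ℝ (i + 1) F p‖ ≤ C) : ‖iteratedFDeriv ℝ i (D X F) p‖ ≤ ‖X‖ * C := by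
  have e : D X F = fun q => (fderiv ℝ F q X + -I * fderiv ℝ F q (I • X)) / 2 :=
    funext fun q => by rw [D]; ring
  rw [e]
  exact (jb_wirt h X (by simp) i).trans (mul_le_mul_of_nonneg_left hC (norm_nonneg _))

omit [IsScalarTower ℝ ℂ E] in
theorem jb_Db {F : E → ℂ} (h : Sm F p) (X : E) {i : ℕ} {C : ℝ}
    (hC : ‖iteratedFDeriv ℝ (i + 1) F p‖ ≤ C) : ‖iteratedFDeriv ℝ i (Db X F) p‖ ≤ ‖X‖ * C :=
  (jb_wirt h X norm_I i).trans (mul_le_mul_of_nonneg_left hC (norm_nonneg _))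

omit [NormedSpace ℂ E] [IsScalarTower ℝ ℂ E] in
theorem JB.cx (h : JB Φ p A) : JB (cx Φ) p A := by
  have := h.clm_comp Complex.ofRealCLM
  rw [Complex.ofRealCLM_norm, one_mul] at this
  exact this

theorem JB.norm_J1 (h : JB Φ p A) (X : E) : ‖J1 Φ p X‖ ≤ A * ‖X‖ := by
  have := jb_D h.cx.1 X (i := 0) (h.cx.2 1 le_rfl (by norm_num))
  rw [norm_iteratedFDeriv_zero] at this
  exact this.trans_eq (by ring)
theorem JB.norm_J20 (h : JB Φ p A) (X Z : E) : ‖J20 Φ p X Z‖ ≤ A * (‖X‖ * ‖Z‖) := by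
  have := jb_D (h.cx.1.D Z) X (i := 0) (jb_D h.cx.1 Z (h.cx.2 2 (by norm_num) (by norm_num)))
  rw [norm_iteratedFDeriv_zero] at this
  exact this.trans_eq (by ring)
theorem JB.norm_Lv (h : JB Φ p A) (X Y : E) : ‖Lv Φ p X Y‖ ≤ A * (‖X‖ * ‖Y‖) := by
  have := jb_D (h.cx.1.Db Y) X (i := 0) (jb_Db h.cx.1 Y (h.cx.2 2 (by norm_num) (by norm_num)))
  rw [norm_iteratedFDeriv_zero] at this
  exact this.trans_eq (by ring)
theorem JB.norm_T3 (h : JB Φ p A) (X Z Y : E) : ‖T3 Φ p X Z Y‖ ≤ A * (‖X‖ * ‖Z‖ * ‖Y‖) := by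
  have := jb_D ((h.cx.1.Db Y).D Z) X (i := 0) (jb_D (h.cx.1.Db Y) Z
    (jb_Db h.cx.1 Y (h.cx.2 3 (by norm_num) (by norm_num))))
  rw [norm_iteratedFDeriv_zero] at this
  exact this.trans_eq (by ring)
theorem JB.norm_Q4 (h : JB Φ p A) (X Z Y W : E) :
    ‖Q4 Φ p X Z Y W‖ ≤ A * (‖X‖ * ‖Z‖ * ‖Y‖ * ‖W‖) := by
  have := jb_Db (((h.cx.1.Db Y).D Z).D X) W (i := 0) (jb_D ((h.cx.1.Db Y).D Z) X
    (jb_D (h.cx.1.Db Y) Z (jb_Db h.cx.1 Y (h.cx.2 4 (by norm_num) (by norm_num)))))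
  rw [norm_iteratedFDeriv_zero] at this
  exact this.trans_eq (by ring)

end Jets

theorem JB.near_zero {e : E2 → ℝ} {x : E2} {κ : ℝ} (h : JB e x κ) :
    (jetsOf e x).Near (std 0) κ := by
  have hκ := h.nonneg
  refine ⟨fun X Y => ?_, fun X Z Y => ?_, fun X Z Y W => ?_⟩
  · simp only [jetsOf, std, Complex.ofReal_zero, zero_mul, sub_zero]
    refine (h.norm_Lv X Y).trans ?_
    have := nr_nonneg X
    gcongr <;> exact norm_le_nr _
  · simp only [jetsOf, std, sub_zero]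
    refine (h.norm_T3 X Z Y).trans ?_
    have := nr_nonneg X
    have := nr_nonneg Z
    gcongr <;> exact norm_le_nr _
  · simp only [jetsOf, std, Complex.ofReal_zero, zero_mul, sub_zero]
    refine (h.norm_Q4 X Z Y W).trans ?_
    have := nr_nonneg X
    have := nr_nonneg Z
    have := nr_nonneg Y
    gcongr <;> exact norm_le_nr _
theorem JB.small {d : E2 → ℝ} {x : E2} {κ : ℝ} (h : JB d x κ) : (djetsOf d x).Small κ := by
  have hκ := h.nonneg
  refine ⟨fun X => (h.norm_J1 X).trans ?_, fun X Z => (h.norm_J20 X Z).trans ?_, h.near_zero⟩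
  · gcongr; exact norm_le_nr _
  · have := nr_nonneg X
    gcongr <;> exact norm_le_nr _

end
end Crest.Agent.R245
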