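import Crest.Agent.R245.Frame
import Crest.Agent.R245.JB
import Crest.Agent.R245.DiscAux1

/-! Row 245: dyadic powers on the disc. -/

open Complex Filter Topology Set Metric
open scoped ComplexConjugate ContDiff

namespace Crest.Agent.R245
noncomputable section

theorem disc_pow_sub {z w : ℂ} (hz : ‖z‖ ≤ 1) (hw : ‖w‖ ≤ 1) (n : ℕ) :
    ‖z ^ n - w ^ n‖ ≤ n * ‖z - w‖ := by
  induction n with
  | zero => simp
  | succ n ih =>
    have e : z ^ (n + 1) - w ^ (n + 1) = z * (z ^ n - w ^ n) + w ^ n * (z - w) := by ring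
    have h1 : ‖w‖ ^ n ≤ 1 := pow_le_one₀ (norm_nonneg _) hw
    rw [e]
    refine (norm_add_le _ _).trans ?_
    rw [norm_mul, norm_mul, norm_pow]
    push_cast
    nlinarith [norm_nonneg (z ^ n - w ^ n), norm_nonneg (z - w), norm_nonneg z]

theorem disc_root {u : ℂ} {n : ℕ} (hn : 0 < n) (h1 : u ^ n = 1) (h2 : ‖u‖ ≤ 1)
    (h3 : n * ‖u - 1‖ < 1) : u = 1 := by
  by_contra hne
  have h4 : ∑ k ∈ Finset.range n, u ^ k = 0 := by
    have := mul_geom_sum u n
    rw [h1, sub_self] at this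
    exact (mul_eq_zero.1 this).resolve_left (sub_ne_zero.2 hne)
  have h5 : ∑ k ∈ Finset.range n, (u ^ k - 1 ^ k) = -n := by
    rw [Finset.sum_sub_distrib, h4]; simp
  have h6 : ‖∑ k ∈ Finset.range n, (u ^ k - 1 ^ k)‖ ≤ ∑ _k ∈ Finset.range n, n * ‖u - 1‖ := by
    refine norm_sum_le_of_le _ fun k hk => (disc_pow_sub h2 (by simp) k).trans ?_
    exact mul_le_mul_of_nonneg_right (Nat.cast_le.2 (Finset.mem_range.1 hk).le) (norm_nonneg _)
  rw [h5, norm_neg, Complex.norm_natCast, Finset.sum_const, Finset.card_range, nsmul_eq_mul] at h6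
  have : (0 : ℝ) < n := Nat.cast_pos.2 hn
  nlinarith

theorem disc_tau_sub {a y : ℂ} (ha : ‖a‖ < 1) (hy : ‖y‖ ≤ 1 / 2) :
    ‖tau a y - a‖ ≤ 2 * (1 - ‖a‖ ^ 2) * ‖y‖ := by
  have h0 := one_add_conj_mul_ne ha (by linarith : ‖y‖ < 1)
  have e : tau a y - a = ((1 - ‖a‖ ^ 2 : ℝ) : ℂ) * y / (1 + conj a * y) := by
    unfold tau
    push_cast
    rw [← mul_conj', div_sub' h0]
    congr 1
    ring
  have hq : 0 ≤ 1 - ‖a‖ ^ 2 := by nlinarith [norm_nonneg a]
  have h1 : 1 / 2 ≤ ‖1 + conj a * y‖ := by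
    have := norm_sub_norm_le 1 (-(conj a * y))
    rw [norm_one, norm_neg, sub_neg_eq_add, norm_mul, Complex.norm_conj] at this
    nlinarith [norm_nonneg a, norm_nonneg y]
  rw [e, norm_div, norm_mul, Complex.norm_real, Real.norm_eq_abs, abs_of_nonneg hq,
    div_le_iff₀ (by linarith)]
  nlinarith [mul_nonneg hq (norm_nonneg y)]

theorem disc_tau_analytic {a y : ℂ} (ha : ‖a‖ < 1) (hy : ‖y‖ < 1) : AnalyticAt ℂ (tau a) y := by
  have h0 := one_add_conj_mul_ne ha hy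
  unfold tau
  fun_prop (disch := exact h0)

theorem disc_E : (400 : ℝ) ≤ Real.exp 400 := by linarith [Real.add_one_le_exp 400]

def discXi (N j : ℕ) (ζ : ℂ) : ℂ := (Real.exp 400 : ℂ) * ζ ^ (N * 2 ^ j)

theorem discXi_analytic (N j : ℕ) (ζ : ℂ) : AnalyticAt ℂ (discXi N j) ζ := by
  unfold discXi; fun_prop

theorem norm_discXi (N j : ℕ) (ζ : ℂ) : ‖discXi N j ζ‖ = Real.exp 400 * ‖ζ‖ ^ (N * 2 ^ j) := by
  rw [discXi, norm_mul, Complex.norm_real, Real.norm_eq_abs, abs_of_pos (Real.exp_pos _), norm_pow]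

theorem discXi_le (N j : ℕ) {ζ : ℂ} (h : ‖ζ‖ ≤ 1) : ‖discXi N j ζ‖ ≤ Real.exp 400 := by
  rw [norm_discXi]
  exact mul_le_of_le_one_right (Real.exp_pos _).le (pow_le_one₀ (norm_nonneg _) h)

theorem discXi_anti (N : ℕ) {i j : ℕ} (hij : i ≤ j) {ζ : ℂ} (h : ‖ζ‖ ≤ 1) :
    ‖discXi N j ζ‖ ≤ ‖discXi N i ζ‖ := by
  rw [norm_discXi, norm_discXi]
  exact mul_le_mul_of_nonneg_left (pow_le_pow_of_le_one (norm_nonneg _) h
    (Nat.mul_le_mul_left _ (Nat.pow_le_pow_right two_pos hij))) (Real.exp_pos _).le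

theorem discXi_sq (N : ℕ) {i j : ℕ} (hij : j < i) {ζ : ℂ} (h : ‖ζ‖ ≤ 1) :
    400 * ‖discXi N i ζ‖ ≤ ‖discXi N j ζ‖ ^ 2 := by
  have h1 := discXi_anti N (Nat.succ_le_of_lt hij) h
  have h2 : Real.exp 400 * ‖discXi N (j + 1) ζ‖ = ‖discXi N j ζ‖ ^ 2 := by
    rw [norm_discXi, norm_discXi, pow_succ 2 j, ← mul_assoc N, pow_mul]; ring
  nlinarith [disc_E, norm_nonneg (discXi N i ζ)]

theorem discXi_le_exp (N j : ℕ) {ζ : ℂ} {q : ℝ} (h : ‖ζ‖ ^ 2 ≤ 1 - q) :
    ‖discXi N j ζ‖ ≤ Real.exp (400 - (N * 2 ^ j : ℕ) * q / 2) := by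
  have h1 : ‖ζ‖ ≤ Real.exp (-q / 2) := by
    refine pow_le_pow_iff_left₀ (norm_nonneg _) (Real.exp_pos _).le two_ne_zero |>.1 ?_
    rw [← Real.exp_nat_mul]
    have := Real.add_one_le_exp (-q)
    push_cast
    rw [show 2 * (-q / 2) = -q by ring]
    linarith
  rw [norm_discXi, sub_eq_add_neg, Real.exp_add]
  refine mul_le_mul_of_nonneg_left ((pow_le_pow_left₀ (norm_nonneg _) h1 _).trans_eq ?_)
    (Real.exp_pos _).le
  rw [← Real.exp_nat_mul]
  congr 1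
  ring

theorem discXi_tau (N j : ℕ) {a y : ℂ} (ha : ‖a‖ < 1) (hy : ‖y‖ ≤ 1 / 2) :
    ‖discXi N j (tau a y) - discXi N j a‖ ≤
      Real.exp 400 * ((N * 2 ^ j : ℕ) * (1 - ‖a‖ ^ 2)) * (2 * ‖y‖) := by
  unfold discXi
  rw [← mul_sub, norm_mul, Complex.norm_real, Real.norm_eq_abs, abs_of_pos (Real.exp_pos _),
    mul_assoc]
  refine mul_le_mul_of_nonneg_left ?_ (Real.exp_pos _).le
  refine (disc_pow_sub (norm_tau_lt ha (by linarith)).le ha.le _).trans ?_
  rw [mul_assoc]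
  exact mul_le_mul_of_nonneg_left ((disc_tau_sub ha hy).trans_eq (by ring)) (Nat.cast_nonneg _)

def discR (N i : ℕ) : ℝ := Real.exp (-(400 / (N * 2 ^ i : ℕ)))

section
variable {N : ℕ} (hN : 0 < N)
include hN

theorem discN_pos (i : ℕ) : (0 : ℝ) < (N * 2 ^ i : ℕ) := by positivity

theorem discR_pow (i : ℕ) : Real.exp 400 * discR N i ^ (N * 2 ^ i) = 1 := by
  have := discN_pos hN i
  rw [discR, ← Real.exp_nat_mul, ← Real.exp_add, Real.exp_eq_one_iff]
  field_simp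
  ring

theorem discR_lt_one (i : ℕ) : discR N i < 1 := by
  have := discN_pos hN i
  rw [discR, Real.exp_lt_one_iff, neg_lt_zero]
  positivity

theorem discR_norm {i : ℕ} {b : ℂ} (hb : discXi N i b = 1) : ‖b‖ = discR N i := by
  have h1 := norm_discXi N i b
  rw [hb, norm_one, ← discR_pow hN i] at h1
  exact (pow_left_inj₀ (norm_nonneg _) (Real.exp_pos _).le (by positivity)).1
    (mul_left_cancel₀ (Real.exp_pos _).ne' h1).symm

theorem discXi_le_one {i : ℕ} {ζ : ℂ} (h : ‖ζ‖ ≤ discR N i) : ‖discXi N i ζ‖ ≤ 1 := by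
  rw [norm_discXi, ← discR_pow hN i]
  exact mul_le_mul_of_nonneg_left (pow_le_pow_left₀ (norm_nonneg _) h _) (Real.exp_pos _).le

omit hN in
theorem discR_sq (i : ℕ) : discR N i ^ 2 = Real.exp (-(800 / (N * 2 ^ i : ℕ))) := by
  rw [discR, ← Real.exp_nat_mul]
  congr 1
  push_cast
  ring

theorem discR_up (i : ℕ) : (N * 2 ^ i : ℕ) * (1 - discR N i ^ 2) ≤ 800 := by
  have h0 := discN_pos hN i
  have h1 := Real.add_one_le_exp (-(800 / (N * 2 ^ i : ℕ)))
  rw [discR_sq, ← le_div_iff₀' h0]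
  linarith

theorem discR_low (h : 800 ≤ N) (i : ℕ) : 400 / N / 2 ^ i ≤ 1 - discR N i ^ 2 := by
  have h0 := discN_pos hN i
  set x : ℝ := 800 / (N * 2 ^ i : ℕ) with hx
  have x0 : 0 < x := by positivity
  have x1 : x ≤ 1 := by
    rw [hx, div_le_one h0]
    exact_mod_cast h.trans (Nat.le_mul_of_pos_right _ (by positivity))
  have e : (400 : ℝ) / N / 2 ^ i = x / 2 := by rw [hx]; push_cast; ring
  have h1 := Real.add_one_le_exp x
  have h2 : Real.exp (-x) * Real.exp x = 1 := by rw [← Real.exp_add]; simp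
  have h3 := Real.exp_pos (-x)
  rw [discR_sq, e]
  by_contra hc
  push Not at hc
  nlinarith

theorem discR_step (i : ℕ) :
    discR N i * (200 / (N * 2 ^ i : ℕ)) ≤ discR N (i + 1) - discR N i := by
  have h0 := discN_pos hN i
  have e : discR N (i + 1) = discR N i * Real.exp (200 / (N * 2 ^ i : ℕ)) := by
    rw [discR, discR, ← Real.exp_add]
    congr 1
    push_cast
    ring
  have h1 := Real.add_one_le_exp (200 / (N * 2 ^ i : ℕ))
  have h2 : 0 < discR N i := Real.exp_pos _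
  rw [e]
  nlinarith

theorem discR_tendsto : Tendsto (discR N) atTop (𝓝 1) := by
  have h1 : Tendsto (fun i : ℕ => ((N * 2 ^ i : ℕ) : ℝ)) atTop atTop := by
    refine tendsto_natCast_atTop_atTop.comp ?_
    exact Tendsto.const_mul_atTop' hN (tendsto_pow_atTop_atTop_of_one_lt one_lt_two)
  have h2 := (Real.continuous_exp.tendsto _).comp (h1.const_div_atTop (400 : ℝ)).neg
  rw [neg_zero, Real.exp_zero] at h2
  exact h2

theorem discR_dense (i : ℕ) {ζ : ℂ} (h : ‖ζ‖ = discR N i) :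
    ∃ b, discXi N i b = 1 ∧ ‖ζ - b‖ ≤ (discR N (i + 1) - discR N i) / 30 := by
  have h0 := discN_pos hN i
  have h1 : ‖discXi N i ζ‖ = 1 := by rw [norm_discXi, h, discR_pow hN]
  set θ := arg (discXi N i ζ)
  refine ⟨ζ * exp (I * (-θ / (N * 2 ^ i : ℕ) : ℝ)), ?_, ?_⟩
  · have h2 := norm_mul_exp_arg_mul_I (discXi N i ζ)
    rw [h1, ofReal_one, one_mul] at h2
    have h3 : ((N * 2 ^ i : ℕ) : ℂ) ≠ 0 := by exact_mod_cast h0.ne'
    rw [discXi, mul_pow, ← mul_assoc, ← discXi, ← h2, ← exp_nat_mul, ← exp_add, ofReal_div,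
      ofReal_natCast, ofReal_neg]
    rw [show (θ : ℂ) * I + (N * 2 ^ i : ℕ) * (I * (-θ / (N * 2 ^ i : ℕ))) = 0 by field_simp; ring,
      exp_zero]
  · rw [← mul_one_sub, norm_mul, norm_sub_rev, h]
    have h2 := Real.norm_exp_I_mul_ofReal_sub_one_le (x := -θ / (N * 2 ^ i : ℕ))
    rw [Real.norm_eq_abs, abs_div, abs_neg, abs_of_pos h0] at h2
    have h3 : |θ| / (N * 2 ^ i : ℕ) ≤ 200 / (N * 2 ^ i : ℕ) / 30 := by
      rw [div_right_comm]
      exact div_le_div_of_nonneg_right ((abs_arg_le_pi _).trans (by linarith [Real.pi_le_four]))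
        h0.le
    have h4 := discR_step hN i
    have h5 := mul_le_mul_of_nonneg_left (h2.trans h3) (show 0 ≤ discR N i from (Real.exp_pos _).le)
    linarith

theorem discXi_exists {a : ℂ} (ha : ‖a‖ < 1) : ∃ m, ‖discXi N m a‖ < 1 / 4 := by
  obtain ⟨i, hi⟩ := ((discR_tendsto hN).eventually (lt_mem_nhds ha)).exists
  have h1 := discXi_le_one hN hi.le
  have h2 := discXi_sq N i.lt_succ_self ha.le
  exact ⟨i + 1, by nlinarith [norm_nonneg (discXi N i a)]⟩

end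

def discChi (X : ℂ → ℝ) (N : ℕ) (ζ : ℂ) : ℝ := ∑' j, X (discXi N j ζ)

theorem discChi_eq {X : ℂ → ℝ} (h0 : ∀ ξ, ‖ξ‖ ≤ 1 / 4 → X ξ = 0) {N m : ℕ} {ζ : ℂ} (h : ‖ζ‖ ≤ 1)
    (hm : ‖discXi N m ζ‖ ≤ 1 / 4) : discChi X N ζ = ∑ j ∈ Finset.range m, X (discXi N j ζ) :=
  tsum_eq_sum fun _ hj => h0 _ ((discXi_anti N (not_lt.1 (mt Finset.mem_range.2 hj)) h).trans hm)

theorem discChi_ev {X : ℂ → ℝ} (h0 : ∀ ξ, ‖ξ‖ ≤ 1 / 4 → X ξ = 0) {N m : ℕ} {a : ℂ} (h : ‖a‖ < 1)
    (hm : ‖discXi N m a‖ < 1 / 4) :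
    (fun ζ => ∑ j ∈ Finset.range m, X (discXi N j ζ)) =ᶠ[𝓝 a] discChi X N := by
  filter_upwards [continuous_norm.continuousAt.eventually (gt_mem_nhds h),
    (discXi_analytic N m a).continuousAt.norm.eventually (gt_mem_nhds hm)] with ζ h1 h2
  exact (discChi_eq h0 h1.le h2.le).symm

theorem discChi_SH {X : ℂ → ℝ} (hX : ∀ ξ, DiscSH X ξ) (h0 : ∀ ξ, ‖ξ‖ ≤ 1 / 4 → X ξ = 0) {N : ℕ}
    (hN : 0 < N) {a : ℂ} (h : ‖a‖ < 1) : DiscSH (discChi X N) a := by
  obtain ⟨m, hm⟩ := discXi_exists hN h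
  exact (DiscSH.sum _ fun j _ => (hX _).comp (discXi_analytic N j a)).congr (discChi_ev h0 h hm)

theorem discChi_jb {X : ℂ → ℝ} (hX : ∀ ξ, DiscSH X ξ) (h0 : ∀ ξ, ‖ξ‖ ≤ 1 / 4 → X ξ = 0) {N : ℕ}
    (hN : 0 < N) : ∃ M : ℝ, 0 ≤ M ∧ ∀ a : ℂ, ‖a‖ < 1 → JB (fun y => discChi X N (tau a y)) 0 M := by
  classical
  obtain ⟨C, hC⟩ := JB.compact_pts (isCompact_closedBall (0 : ℂ) (Real.exp 400))
    fun x _ => (hX x).1
  have C0 : 0 ≤ C := (hC 0 (mem_closedBall_self (Real.exp_pos _).le)).nonneg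
  set E := Real.exp 400 with hE
  have E0 : 0 < E := Real.exp_pos _
  set B := 10000 * (E * 806) with hB
  refine ⟨24 * C * (1 + B ^ 3) * (10000 * E) * 1612, by positivity, fun a ha => ?_⟩
  set m := Nat.find (discXi_exists hN ha)
  have hm : ‖discXi N m a‖ < 1 / 4 := Nat.find_spec (discXi_exists hN ha)
  set q := 1 - ‖a‖ ^ 2 with hq
  have q0 : 0 ≤ q := by nlinarith [norm_nonneg a]
  have hj : ∀ j < m, (N * 2 ^ j : ℕ) * q ≤ 806 := fun j hj => by
    have h1 := not_lt.1 (Nat.find_min (discXi_exists hN ha) hj)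
    have h2 := discXi_le_exp N j (ζ := a) (q := q) (by rw [hq]; linarith)
    have h3 := Real.add_one_le_exp (-(400 - (N * 2 ^ j : ℕ) * q / 2))
    have h4 : Real.exp (-(400 - (N * 2 ^ j : ℕ) * q / 2)) ≤ 4 := by
      rw [Real.exp_neg, inv_le_comm₀ (Real.exp_pos _) (by norm_num)]
      linarith
    linarith
  have key : ∀ j ∈ Finset.range m, JB (fun y => X (discXi N j (tau a y))) 0
      (24 * C * (1 + B ^ 3) * (10000 * E) * ((N * 2 ^ j : ℕ) * q)) := fun j hj' => by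
    have h1 : JB (fun y => discXi N j (tau a y)) 0 (10000 * (E * ((N * 2 ^ j : ℕ) * q))) := by
      refine JB.holo (fun y hy => ?_) fun y hy => ?_
      · exact ((discXi_analytic N j _).comp (disc_tau_analytic ha
          ((mem_ball_zero_iff.1 hy).trans (by norm_num)))).differentiableAt.differentiableWithinAt
      · have hy' := (mem_ball_zero_iff.1 hy).le
        rw [tau_zero]
        exact (discXi_tau N j ha hy').trans (mul_le_of_le_one_right (by positivity) (by linarith))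
    have h2 := (hC (discXi N j (tau a 0)) (mem_closedBall_zero_iff.2
      (discXi_le N j (by rw [tau_zero]; exact ha.le)))).comp
        (f := fun y => discXi N j (tau a y)) h1
    refine h2.mono ?_
    set b := 10000 * (E * ((N * 2 ^ j : ℕ) * q)) with hb
    have b0 : 0 ≤ b := by positivity
    have bB : b ≤ B := by
      have := hj j (Finset.mem_range.1 hj')
      rw [hb, hB]; gcongr
    have h3 : b ^ 3 ≤ B ^ 3 := pow_le_pow_left₀ b0 bB 3
    have h4 : max b (b ^ 4) ≤ (1 + B ^ 3) * b := by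
      have : 0 ≤ b ^ 3 := by positivity
      refine max_le ?_ ?_ <;> nlinarith
    refine (mul_le_mul_of_nonneg_left h4 (by positivity)).trans_eq ?_
    rw [hb]; ring
  have ht : Tendsto (tau a) (𝓝 0) (𝓝 a) := by
    have := (disc_tau_analytic (y := 0) ha (by simp)).continuousAt.tendsto
    rwa [tau_zero] at this
  refine ((JB.sum _ key).congr (ht.eventually (discChi_ev h0 ha hm))).mono ?_
  rw [← Finset.mul_sum]
  refine mul_le_mul_of_nonneg_left ?_ (by positivity)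
  have hs : ∀ n : ℕ, ∑ j ∈ Finset.range (n + 1), (N * 2 ^ j : ℕ) * q ≤ 2 * ((N * 2 ^ n : ℕ) * q) := by
    intro n
    induction n with
    | zero => simp only [zero_add, Finset.sum_range_one]; linarith [show 0 ≤ (N * 2 ^ 0 : ℕ) * q by positivity]
    | succ n ih =>
      rw [Finset.sum_range_succ]
      push_cast at ih ⊢
      rw [pow_succ]
      linarith
  rcases hmm : m with _ | n
  · simp
  · have := hj n (by omega)
    linarith [hs n]

end
end Crest.Agent.R245
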