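import Crest.Agent.R245.Wirt

/-! Row 245: Leibniz and Faà di Bruno formulas for the jets of type (a,b), a,b ≤ 2. -/

open Complex Filter Topology Set Metric Matrix
open scoped ComplexConjugate ContDiff

namespace Crest.Agent.R245
noncomputable section

variable {E : Type*} [NormedAddCommGroup E] [NormedSpace ℝ E] [NormedSpace ℂ E]
  [IsScalarTower ℝ ℂ E] [FiniteDimensional ℝ E] {p : E} {F G : E → ℂ} {Φ : E → ℝ} {k : ℝ → ℝ}

/-- `F` is differentiable at `p` and `D X F p = v` -/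
structure JrD (X : E) (F : E → ℂ) (p : E) (v : ℂ) : Prop where
  diff : DifferentiableAt ℝ F p
  eq : D X F p = v

/-- `F` is differentiable at `p` and `Db X F p = v` -/
structure JrB (X : E) (F : E → ℂ) (p : E) (v : ℂ) : Prop where
  diff : DifferentiableAt ℝ F p
  eq : Db X F p = v

section JrAux
omit [FiniteDimensional ℝ E]
variable {X W : E} {u v : ℂ}

theorem JrD.add (h : JrD X F p u) (h' : JrD X G p v) : JrD X (fun q => F q + G q) p (u + v) :=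
  ⟨h.diff.add h'.diff, by rw [D_add_apply h.diff h'.diff, h.eq, h'.eq]⟩
theorem JrD.mul (h : JrD X F p u) (h' : JrD X G p v) :
    JrD X (fun q => F q * G q) p (u * G p + F p * v) :=
  ⟨h.diff.mul h'.diff, by rw [D_mul_apply h.diff h'.diff, h.eq, h'.eq]⟩
theorem JrD.of_ev (h : JrD X G p v) (e : ∀ᶠ q in 𝓝 p, F q = G q) : D X F p = v :=
  (D_congr e X).eq_of_nhds.trans h.eq
theorem JrB.add (h : JrB W F p u) (h' : JrB W G p v) : JrB W (fun q => F q + G q) p (u + v) :=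
  ⟨h.diff.add h'.diff, by rw [Db_add_apply h.diff h'.diff, h.eq, h'.eq]⟩
theorem JrB.mul (h : JrB W F p u) (h' : JrB W G p v) :
    JrB W (fun q => F q * G q) p (u * G p + F p * v) :=
  ⟨h.diff.mul h'.diff, by rw [Db_mul_apply h.diff h'.diff, h.eq, h'.eq]⟩
theorem JrB.of_ev (h : JrB W G p v) (e : ∀ᶠ q in 𝓝 p, F q = G q) : Db W F p = v :=
  (Db_congr e W).eq_of_nhds.trans h.eq

theorem Sm.jrD0 (h : Sm F p) (X : E) : JrD X F p (j1 F p X) := ⟨h.differentiableAt, rfl⟩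
theorem Sm.jrD1 (h : Sm F p) (X Z : E) : JrD X (fun q => j1 F q Z) p (j20 F p X Z) :=
  ⟨(h.D Z).differentiableAt, rfl⟩
theorem Sm.jrDb (h : Sm F p) (X Y : E) : JrD X (fun q => jb F q Y) p (j11 F p X Y) :=
  ⟨(h.Db Y).differentiableAt, rfl⟩
theorem Sm.jrD11 (h : Sm F p) (X Z Y : E) : JrD X (fun q => j11 F q Z Y) p (j21 F p X Z Y) :=
  ⟨((h.Db Y).D Z).differentiableAt, rfl⟩
theorem Sm.jrB0 (h : Sm F p) (W : E) : JrB W F p (jb F p W) := ⟨h.differentiableAt, rfl⟩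
theorem Sm.jrB1 (h : Sm F p) (W X : E) : JrB W (fun q => j1 F q X) p (j11 F p X W) :=
  ⟨(h.D X).differentiableAt, (D_Db_comm h X W).eq_of_nhds.symm⟩
theorem Sm.jrBb (h : Sm F p) (W Y : E) : JrB W (fun q => jb F q Y) p (j02 F p Y W) :=
  ⟨(h.Db Y).differentiableAt, rfl⟩
theorem Sm.jrB11 (h : Sm F p) (W X Y : E) : JrB W (fun q => j11 F q X Y) p (j12 F p X Y W) :=
  ⟨((h.Db Y).D X).differentiableAt, rfl⟩
theorem Sm.jrB20 (h : Sm F p) (W X Z : E) : JrB W (fun q => j20 F q X Z) p (j21 F p X Z W) :=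
  ⟨((h.D Z).D X).differentiableAt,
    ((D_congr (D_Db_comm h Z W) X).eq_of_nhds.trans (D_Db_comm (h.D Z) X W).eq_of_nhds).symm⟩
theorem Sm.jrB21 (h : Sm F p) (W X Z Y : E) :
    JrB W (fun q => j21 F q X Z Y) p (j22 F p X Z Y W) :=
  ⟨(((h.Db Y).D Z).D X).differentiableAt, rfl⟩

end JrAux

theorem j1_mul (hF : Sm F p) (hG : Sm G p) (X : E) :
    j1 (fun q => F q * G q) p X = j1 F p X * G p + F p * j1 G p X :=
  D_mul_apply hF.differentiableAt hG.differentiableAt X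
theorem jb_mul (hF : Sm F p) (hG : Sm G p) (Y : E) :
    jb (fun q => F q * G q) p Y = jb F p Y * G p + F p * jb G p Y :=
  Db_mul_apply hF.differentiableAt hG.differentiableAt Y
theorem j20_mul (hF : Sm F p) (hG : Sm G p) (X Z : E) :
    j20 (fun q => F q * G q) p X Z = j20 F p X Z * G p + j1 F p X * j1 G p Z + j1 F p Z * j1 G p X
      + F p * j20 G p X Z :=
  ((((hF.jrD1 X Z).mul (hG.jrD0 X)).add ((hF.jrD0 X).mul (hG.jrD1 X Z))).of_ev
    ((hF.eventually.and hG.eventually).mono fun q hq => j1_mul hq.1 hq.2 Z)).trans (by ring)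
theorem j11_mul (hF : Sm F p) (hG : Sm G p) (X Y : E) :
    j11 (fun q => F q * G q) p X Y = j11 F p X Y * G p + j1 F p X * jb G p Y + jb F p Y * j1 G p X
      + F p * j11 G p X Y :=
  ((((hF.jrDb X Y).mul (hG.jrD0 X)).add ((hF.jrD0 X).mul (hG.jrDb X Y))).of_ev
    ((hF.eventually.and hG.eventually).mono fun q hq => jb_mul hq.1 hq.2 Y)).trans (by ring)
theorem j02_mul (hF : Sm F p) (hG : Sm G p) (Y W : E) :
    j02 (fun q => F q * G q) p Y W = j02 F p Y W * G p + jb F p Y * jb G p W + jb F p W * jb G p Y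
      + F p * j02 G p Y W :=
  ((((hF.jrBb W Y).mul (hG.jrB0 W)).add ((hF.jrB0 W).mul (hG.jrBb W Y))).of_ev
    ((hF.eventually.and hG.eventually).mono fun q hq => jb_mul hq.1 hq.2 Y)).trans (by ring)
theorem j21_mul (hF : Sm F p) (hG : Sm G p) (X Z Y : E) :
    j21 (fun q => F q * G q) p X Z Y = j21 F p X Z Y * G p
      + j20 F p X Z * jb G p Y + j11 F p X Y * j1 G p Z + j11 F p Z Y * j1 G p X
      + j1 F p X * j11 G p Z Y + j1 F p Z * j11 G p X Y + jb F p Y * j20 G p X Z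
      + F p * j21 G p X Z Y :=
  ((((((hF.jrD11 X Z Y).mul (hG.jrD0 X)).add ((hF.jrD1 X Z).mul (hG.jrDb X Y))).add
    ((hF.jrDb X Y).mul (hG.jrD1 X Z))).add ((hF.jrD0 X).mul (hG.jrD11 X Z Y))).of_ev
    ((hF.eventually.and hG.eventually).mono fun q hq => j11_mul hq.1 hq.2 Z Y)).trans (by ring)
theorem j12_mul (hF : Sm F p) (hG : Sm G p) (X Y W : E) :
    j12 (fun q => F q * G q) p X Y W = j12 F p X Y W * G p
      + j02 F p Y W * j1 G p X + j11 F p X Y * jb G p W + j11 F p X W * jb G p Y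
      + jb F p Y * j11 G p X W + jb F p W * j11 G p X Y + j1 F p X * j02 G p Y W
      + F p * j12 G p X Y W :=
  ((((((hF.jrB11 W X Y).mul (hG.jrB0 W)).add ((hF.jrB1 W X).mul (hG.jrBb W Y))).add
    ((hF.jrBb W Y).mul (hG.jrB1 W X))).add ((hF.jrB0 W).mul (hG.jrB11 W X Y))).of_ev
    ((hF.eventually.and hG.eventually).mono fun q hq => j11_mul hq.1 hq.2 X Y)).trans (by ring)
theorem j22_mul (hF : Sm F p) (hG : Sm G p) (X Z Y W : E) :
    j22 (fun q => F q * G q) p X Z Y W = j22 F p X Z Y W * G p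
      + j21 F p X Z Y * jb G p W + j21 F p X Z W * jb G p Y
      + j12 F p X Y W * j1 G p Z + j12 F p Z Y W * j1 G p X
      + j20 F p X Z * j02 G p Y W + j02 F p Y W * j20 G p X Z
      + j11 F p X Y * j11 G p Z W + j11 F p X W * j11 G p Z Y
      + j11 F p Z Y * j11 G p X W + j11 F p Z W * j11 G p X Y
      + j1 F p X * j12 G p Z Y W + j1 F p Z * j12 G p X Y W
      + jb F p Y * j21 G p X Z W + jb F p W * j21 G p X Z Y
      + F p * j22 G p X Z Y W :=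
  ((((((((((hF.jrB21 W X Z Y).mul (hG.jrB0 W)).add ((hF.jrB20 W X Z).mul (hG.jrBb W Y))).add
    ((hF.jrB11 W X Y).mul (hG.jrB1 W Z))).add ((hF.jrB11 W Z Y).mul (hG.jrB1 W X))).add
    ((hF.jrB1 W X).mul (hG.jrB11 W Z Y))).add ((hF.jrB1 W Z).mul (hG.jrB11 W X Y))).add
    ((hF.jrBb W Y).mul (hG.jrB20 W X Z))).add ((hF.jrB0 W).mul (hG.jrB21 W X Z Y))).of_ev
    ((hF.eventually.and hG.eventually).mono fun q hq => j21_mul hq.1 hq.2 X Z Y)).trans (by ring)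

/-- `kd k n x` is the `n`-th derivative of `k` at `x`, as a complex number -/
def kd (k : ℝ → ℝ) (n : ℕ) (x : ℝ) : ℂ := ((iteratedDeriv n k x : ℝ) : ℂ)

section JrAux2
omit [FiniteDimensional ℝ E]

theorem Sm.jr_deriv {x : ℝ} (hk : Sm k x) : Sm (deriv k) x := by
  filter_upwards [hk] with y hy
  have h1 : ContDiffAt ℝ ∞ (fderiv ℝ k) y := hy.fderiv_right (m := ∞) (by simp)
  exact h1.clm_apply (contDiffAt_const (c := (1 : ℝ)))

theorem Sm.jr_iteratedDeriv {x : ℝ} (hk : Sm k x) (n : ℕ) : Sm (iteratedDeriv n k) x := by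
  induction n with
  | zero => simpa using hk
  | succ n ih => rw [iteratedDeriv_succ]; exact ih.jr_deriv

theorem jrD_kd (hk : Sm k (Φ p)) (h : Sm Φ p) (n : ℕ) (X : E) :
    JrD X (fun q => kd k n (Φ q)) p (kd k (n + 1) (Φ p) * j1 (cx Φ) p X) :=
  ⟨((hk.jr_iteratedDeriv n).comp h).cx.differentiableAt, by
    have := D_comp_real (hk.jr_iteratedDeriv n).differentiableAt h.differentiableAt X
    rw [← iteratedDeriv_succ] at this
    exact this⟩

theorem jrB_kd (hk : Sm k (Φ p)) (h : Sm Φ p) (n : ℕ) (X : E) :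
    JrB X (fun q => kd k n (Φ q)) p (kd k (n + 1) (Φ p) * jb (cx Φ) p X) :=
  ⟨((hk.jr_iteratedDeriv n).comp h).cx.differentiableAt, by
    have := Db_comp_real (hk.jr_iteratedDeriv n).differentiableAt h.differentiableAt X
    rw [← iteratedDeriv_succ] at this
    exact this⟩

omit [NormedSpace ℂ E] [IsScalarTower ℝ ℂ E] in
theorem jr_ev (hk : Sm k (Φ p)) (h : Sm Φ p) : ∀ᶠ q in 𝓝 p, Sm k (Φ q) ∧ Sm Φ q :=
  (h.continuousAt.eventually hk.eventually).and h.eventually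

end JrAux2

theorem j1_comp (hk : Sm k (Φ p)) (h : Sm Φ p) (X : E) :
    j1 (cx fun q => k (Φ q)) p X = kd k 1 (Φ p) * j1 (cx Φ) p X := by
  have := D_comp_real hk.differentiableAt h.differentiableAt X
  rw [← iteratedDeriv_one] at this
  exact this
theorem jb_comp (hk : Sm k (Φ p)) (h : Sm Φ p) (Y : E) :
    jb (cx fun q => k (Φ q)) p Y = kd k 1 (Φ p) * jb (cx Φ) p Y := by
  have := Db_comp_real hk.differentiableAt h.differentiableAt Y
  rw [← iteratedDeriv_one] at this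
  exact this
theorem j20_comp (hk : Sm k (Φ p)) (h : Sm Φ p) (X Z : E) :
    j20 (cx fun q => k (Φ q)) p X Z = kd k 2 (Φ p) * (j1 (cx Φ) p X * j1 (cx Φ) p Z)
      + kd k 1 (Φ p) * j20 (cx Φ) p X Z :=
  (((jrD_kd hk h 1 X).mul (h.cx.jrD1 X Z)).of_ev
    ((jr_ev hk h).mono fun q hq => j1_comp hq.1 hq.2 Z)).trans (by ring)
theorem j11_comp (hk : Sm k (Φ p)) (h : Sm Φ p) (X Y : E) :
    j11 (cx fun q => k (Φ q)) p X Y = kd k 2 (Φ p) * (j1 (cx Φ) p X * jb (cx Φ) p Y)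
      + kd k 1 (Φ p) * j11 (cx Φ) p X Y :=
  (((jrD_kd hk h 1 X).mul (h.cx.jrDb X Y)).of_ev
    ((jr_ev hk h).mono fun q hq => jb_comp hq.1 hq.2 Y)).trans (by ring)
theorem j02_comp (hk : Sm k (Φ p)) (h : Sm Φ p) (Y W : E) :
    j02 (cx fun q => k (Φ q)) p Y W = kd k 2 (Φ p) * (jb (cx Φ) p Y * jb (cx Φ) p W)
      + kd k 1 (Φ p) * j02 (cx Φ) p Y W :=
  (((jrB_kd hk h 1 W).mul (h.cx.jrBb W Y)).of_ev
    ((jr_ev hk h).mono fun q hq => jb_comp hq.1 hq.2 Y)).trans (by ring)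
theorem j21_comp (hk : Sm k (Φ p)) (h : Sm Φ p) (X Z Y : E) :
    j21 (cx fun q => k (Φ q)) p X Z Y =
      kd k 3 (Φ p) * (j1 (cx Φ) p X * j1 (cx Φ) p Z * jb (cx Φ) p Y)
      + kd k 2 (Φ p) * (j20 (cx Φ) p X Z * jb (cx Φ) p Y + j11 (cx Φ) p X Y * j1 (cx Φ) p Z
          + j11 (cx Φ) p Z Y * j1 (cx Φ) p X)
      + kd k 1 (Φ p) * j21 (cx Φ) p X Z Y :=
  ((((jrD_kd hk h 2 X).mul ((h.cx.jrD1 X Z).mul (h.cx.jrDb X Y))).add
    ((jrD_kd hk h 1 X).mul (h.cx.jrD11 X Z Y))).of_ev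
    ((jr_ev hk h).mono fun q hq => j11_comp hq.1 hq.2 Z Y)).trans (by ring)
theorem j12_comp (hk : Sm k (Φ p)) (h : Sm Φ p) (X Y W : E) :
    j12 (cx fun q => k (Φ q)) p X Y W =
      kd k 3 (Φ p) * (j1 (cx Φ) p X * jb (cx Φ) p Y * jb (cx Φ) p W)
      + kd k 2 (Φ p) * (j02 (cx Φ) p Y W * j1 (cx Φ) p X + j11 (cx Φ) p X Y * jb (cx Φ) p W
          + j11 (cx Φ) p X W * jb (cx Φ) p Y)
      + kd k 1 (Φ p) * j12 (cx Φ) p X Y W :=
  ((((jrB_kd hk h 2 W).mul ((h.cx.jrB1 W X).mul (h.cx.jrBb W Y))).add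
    ((jrB_kd hk h 1 W).mul (h.cx.jrB11 W X Y))).of_ev
    ((jr_ev hk h).mono fun q hq => j11_comp hq.1 hq.2 X Y)).trans (by ring)
theorem j22_comp (hk : Sm k (Φ p)) (h : Sm Φ p) (X Z Y W : E) :
    j22 (cx fun q => k (Φ q)) p X Z Y W =
      kd k 4 (Φ p) * (j1 (cx Φ) p X * j1 (cx Φ) p Z * jb (cx Φ) p Y * jb (cx Φ) p W)
      + kd k 3 (Φ p) * (j20 (cx Φ) p X Z * jb (cx Φ) p Y * jb (cx Φ) p W
          + j02 (cx Φ) p Y W * j1 (cx Φ) p X * j1 (cx Φ) p Z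
          + j11 (cx Φ) p X Y * j1 (cx Φ) p Z * jb (cx Φ) p W
          + j11 (cx Φ) p X W * j1 (cx Φ) p Z * jb (cx Φ) p Y
          + j11 (cx Φ) p Z Y * j1 (cx Φ) p X * jb (cx Φ) p W
          + j11 (cx Φ) p Z W * j1 (cx Φ) p X * jb (cx Φ) p Y)
      + kd k 2 (Φ p) * (j20 (cx Φ) p X Z * j02 (cx Φ) p Y W
          + j11 (cx Φ) p X Y * j11 (cx Φ) p Z W + j11 (cx Φ) p X W * j11 (cx Φ) p Z Y
          + j21 (cx Φ) p X Z Y * jb (cx Φ) p W + j21 (cx Φ) p X Z W * jb (cx Φ) p Y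
          + j12 (cx Φ) p X Y W * j1 (cx Φ) p Z + j12 (cx Φ) p Z Y W * j1 (cx Φ) p X)
      + kd k 1 (Φ p) * j22 (cx Φ) p X Z Y W :=
  (((((jrB_kd hk h 3 W).mul (((h.cx.jrB1 W X).mul (h.cx.jrB1 W Z)).mul (h.cx.jrBb W Y))).add
    ((jrB_kd hk h 2 W).mul ((((h.cx.jrB20 W X Z).mul (h.cx.jrBb W Y)).add
      ((h.cx.jrB11 W X Y).mul (h.cx.jrB1 W Z))).add ((h.cx.jrB11 W Z Y).mul (h.cx.jrB1 W X))))).add
    ((jrB_kd hk h 1 W).mul (h.cx.jrB21 W X Z Y))).of_ev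
    ((jr_ev hk h).mono fun q hq => j21_comp hq.1 hq.2 X Z Y)).trans (by ring)

end
end Crest.Agent.R245
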