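import Crest.Agent.R245.Frame
import Crest.Agent.R245.JB
import Crest.Agent.R245.JetRules
import Crest.Agent.R245.Pull
import Crest.Agent.R245.DiscAux2

/-! Row 245: the function on the disc. -/

open Complex Filter Topology Set Metric Matrix
open scoped ComplexConjugate ContDiff

namespace Crest.Agent.R245
noncomputable section

set_option maxHeartbeats 1600000 in
theorem exists_discData : ∃ A : ℝ, 0 < A ∧ ∀ Dp : ℝ, 0 < Dp → Nonempty (DiscData A Dp) := by
  have hE := disc_E
  set E := Real.exp 400 with hEdef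
  refine ⟨192 * (1 + E) * E ^ 4, by positivity, fun Dp hD => ?_⟩
  set A := 192 * (1 + E) * E ^ 4 with hA
  obtain ⟨X, c, hX, h0, h1, h2, h3⟩ := exists_discX hD
  set w := Real.exp (-Dp) / 1000 with hw
  have w0 : 0 < w := by positivity
  have w1 : w ≤ 1 / 1000 := by
    have : Real.exp (-Dp) ≤ 1 := Real.exp_le_one_iff.2 (by linarith)
    rw [hw]; linarith
  set s := w / (3200 * E) with hs
  have s0 : 0 < s := by positivity
  have sw : 3200 * E * s = w := by rw [hs]; field_simp
  have s1 : s ≤ 1 / 100000 := by nlinarith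
  obtain ⟨N, hNs⟩ := exists_nat_ge (1600 / s ^ 2)
  rw [div_le_iff₀ (by positivity)] at hNs
  have N8 : (800 : ℝ) ≤ N := by
    have : s ^ 2 ≤ 1 := by nlinarith
    nlinarith [mul_le_mul_of_nonneg_left this (Nat.cast_nonneg (α := ℝ) N)]
  have N8' : 800 ≤ N := by exact_mod_cast N8
  have hN : 0 < N := by omega
  obtain ⟨M, M0, hM⟩ := discChi_jb hX h0 hN
  have hXA : ∀ j ζ, ‖ζ‖ ≤ 1 → X (discXi N j ζ) ≤ A := fun j ζ h => by
    have h4 := discXi_le N j h
    refine (h3 _).trans ?_
    rw [norm_discQ, hA]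
    have h5 : ‖1 - discXi N j ζ‖ ≤ 1 + E := (norm_sub_le _ _).trans (by rw [norm_one]; linarith)
    gcongr
  have rpos : ∀ i, 0 < discR N i := fun i => Real.exp_pos _
  have rq : ∀ i, 1 - discR N i ^ 2 ≤ s ^ 2 / 2 := fun i => by
    have h4 := discR_up hN i
    have h5 : (N : ℝ) ≤ (N * 2 ^ i : ℕ) := by
      exact_mod_cast Nat.le_mul_of_pos_right _ (by positivity)
    have h6 : 0 ≤ 1 - discR N i ^ 2 := by nlinarith [discR_lt_one hN i, rpos i]
    have h7 := mul_le_mul_of_nonneg_right h5 h6
    by_contra hc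
    push Not at hc
    nlinarith
  have blt : ∀ {i b}, discXi N i b = 1 → ‖b‖ < 1 := fun {i b} hb => by
    rw [discR_norm hN hb]; exact discR_lt_one hN i
  have dipw : ∀ {i b}, discXi N i b = 1 → ∀ {y : ℂ}, ‖y‖ < 2 * s →
      ‖discXi N i (tau b y) - 1‖ ≤ w := fun {i b} hb y hy => by
    have h4 := discXi_tau N i (blt hb) (y := y) (by linarith)
    rw [hb, discR_norm hN hb] at h4
    have h5 := discR_up hN i
    refine h4.trans ?_
    calc _ ≤ E * 800 * (2 * (2 * s)) := by gcongr
      _ = w := by rw [← sw]; ring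
  have dipn : ∀ {i b}, discXi N i b = 1 → ∀ {y : ℂ}, ‖y‖ < 2 * s →
      1 / 2 ≤ ‖discXi N i (tau b y)‖ ∧ ‖discXi N i (tau b y)‖ ≤ 3 / 2 := fun {i b} hb y hy => by
    have h4 := (abs_norm_sub_norm_le _ _).trans (dipw hb hy)
    rw [norm_one, abs_le] at h4
    constructor <;> linarith [h4.1, h4.2]
  have tlt : ∀ {i b}, discXi N i b = 1 → ∀ {y : ℂ}, ‖y‖ < 2 * s → ‖tau b y‖ < 1 :=
    fun hb y hy => norm_tau_lt (blt hb) (by linarith)
  have dipχ : ∀ {i b}, discXi N i b = 1 → ∀ {y : ℂ}, ‖y‖ < 2 * s → discChi X N (tau b y) =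
      ∑ j ∈ Finset.range i, X (discXi N j (tau b y)) - Dp := fun {i b} hb y hy => by
    have h4 := discXi_sq N i.lt_succ_self (tlt hb hy).le
    have h5 := dipn hb hy
    rw [discChi_eq h0 (m := i + 1) (tlt hb hy).le (by nlinarith), Finset.sum_range_succ,
      h1 _ (dipw hb hy), sub_eq_add_neg]
  have diff : ∀ {i i' b b'}, discXi N i b = 1 → discXi N i' b' = 1 → ∀ {y y' : ℂ}, ‖y‖ < 2 * s →
      ‖y'‖ < 2 * s → tau b y = tau b' y' → ¬ i < i' := fun {i i' b b'} hb hb' y y' hy hy' e hi => by
    have h4 := discXi_sq N hi (tlt hb hy).le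
    have h5 := dipn hb hy
    have h6 := dipn hb' hy'
    rw [← e] at h6
    nlinarith
  refine ⟨
    { χ := discChi X N
      ring := fun i => {b | discXi N i b = 1}
      r := discR N
      s := s
      R := Real.log (N / 400)
      M := M
      s_pos := s0
      s_le := by linarith
      R_nonneg := Real.log_nonneg (by linarith)
      M_nonneg := M0
      sm := fun ζ h => (discChi_SH hX h0 hN h).1
      zero := fun ζ h => ?_
      psh := fun ζ h => (discChi_SH hX h0 hN h).2
      jb := hM
      norm_ring := fun i b hb => discR_norm hN hb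
      r_pos := rpos
      r_lt := fun i => ?_
      r_lt_one := discR_lt_one hN
      r_tendsto := discR_tendsto hN
      r_low := fun i => ?_
      r_up := fun i => by nlinarith [rq i]
      outer := fun i b hb y hy => ?_
      uniq := fun i i' b hb b' hb' y y' hy hy' e => ?_
      harm := fun i b hb => ?_
      upper := fun i ζ h => ?_
      dip := fun i b hb => ?_
      dense := fun i ζ h => discR_dense hN i h }⟩
  · have h4 := discXi_le_exp N 0 h
    have h5 : Real.exp (400 - (N * 2 ^ 0 : ℕ) * s ^ 2 / 2) ≤ Real.exp (-400) :=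
      Real.exp_le_exp.2 (by rw [pow_zero, mul_one]; linarith)
    have h6 : Real.exp (-400) ≤ 1 / 4 := by
      rw [Real.exp_neg, inv_le_comm₀ (Real.exp_pos _) (by norm_num)]
      linarith
    rw [discChi_eq h0 (m := 0) (by nlinarith [norm_nonneg ζ]) (by linarith), Finset.sum_range_zero]
  · have h4 := discR_step hN i
    have h5 : 0 < discR N i * (200 / (N * 2 ^ i : ℕ)) := mul_pos (rpos i) (by positivity)
    linarith
  · rw [Real.exp_neg, Real.exp_log (by linarith), inv_div]
    exact discR_low hN N8' i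
  · have hb1 := blt hb
    have h4 := one_sub_norm_tau hb1 (y := y) (by linarith)
    have h5 : 3 / 4 ≤ ‖1 + conj b * y‖ := by
      have := norm_sub_norm_le 1 (-(conj b * y))
      rw [norm_one, norm_neg, sub_neg_eq_add, norm_mul, Complex.norm_conj] at this
      nlinarith [norm_nonneg b, norm_nonneg y]
    have h6 := rq i
    rw [← discR_norm hN hb] at h6
    have h7 : (1 - ‖b‖ ^ 2) * (1 - ‖y‖ ^ 2) / ‖1 + conj b * y‖ ^ 2 < s ^ 2 := by
      rw [div_lt_iff₀ (by positivity)]
      have h8 : (3 / 4) ^ 2 ≤ ‖1 + conj b * y‖ ^ 2 := by gcongr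
      have h9 : 0 ≤ (1 - ‖b‖ ^ 2) * ‖y‖ ^ 2 :=
        mul_nonneg (by nlinarith [norm_nonneg b]) (sq_nonneg _)
      have h10 : 0 < s ^ 2 := by positivity
      nlinarith
    linarith
  · obtain rfl : i = i' :=
      le_antisymm (not_lt.1 (diff hb' hb hy' hy e.symm)) (not_lt.1 (diff hb hb' hy hy' e))
    have n1 := discR_norm hN hb
    have n2 := discR_norm hN hb'
    have r0 := rpos i
    have b0 : b ≠ 0 := by rw [← norm_pos_iff, n1]; exact r0
    have h4 := disc_tau_sub (blt hb) (y := y) (by linarith)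
    have h5 := disc_tau_sub (blt hb') (y := y') (by linarith)
    rw [n1] at h4
    rw [n2, ← e] at h5
    have h6 : ‖b' - b‖ ≤ 8 * (1 - discR N i ^ 2) * s := by
      have h7 := norm_sub_le (tau b y - b) (tau b y - b')
      rw [show tau b y - b - (tau b y - b') = b' - b by ring] at h7
      have h8 : 0 ≤ 1 - discR N i ^ 2 := by nlinarith [discR_lt_one hN i]
      nlinarith
    have h7 : b' / b = 1 := by
      refine disc_root (n := N * 2 ^ i) (by positivity) ?_ (by rw [norm_div, n1, n2, div_self r0.ne'])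
        ?_
      · have hE0 : (Real.exp 400 : ℂ) ≠ 0 := ofReal_ne_zero.2 (Real.exp_pos _).ne'
        have e1 : discXi N i b' = discXi N i b := hb'.trans hb.symm
        rw [div_pow, mul_left_cancel₀ hE0 e1, div_self (pow_ne_zero _ b0)]
      · rw [div_sub_one b0, norm_div, n1, ← mul_div_assoc, div_lt_one r0]
        have h8 := discR_up hN i
        have h9 := mul_le_mul_of_nonneg_left h6 (discN_pos hN i).le
        have h10 : 1 / 2 ≤ discR N i := by nlinarith [rq i]
        nlinarith
    exact ((div_eq_one_iff_eq b0).1 h7).symm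
  · have big : ∀ y ∈ ball (0 : ℂ) (2 * s), ∀ j ∈ Finset.range i, 2 ≤ ‖discXi N j (tau b y)‖ := by
      intro y hy j hj
      have hy' := mem_ball_zero_iff.1 hy
      have h4 := discXi_sq N (Finset.mem_range.1 hj) (tlt hb hy').le
      have h5 := dipn hb hy'
      nlinarith [norm_nonneg (discXi N j (tau b y))]
    have ne : ∀ y ∈ ball (0 : ℂ) (2 * s), ∀ j ∈ Finset.range i,
        discQ (discXi N j (tau b y)) ≠ 0 := by
      intro y hy j hj
      have h4 := big y hy j hj
      have h5 := norm_sub_norm_le (discXi N j (tau b y)) 1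
      rw [norm_one, norm_sub_rev] at h5
      rw [← norm_pos_iff, norm_discQ]
      have h6 : 0 < ‖1 - discXi N j (tau b y)‖ := by linarith
      have h7 : 0 < ‖discXi N j (tau b y)‖ := by linarith
      positivity
    have hh : InnerProductSpace.HarmonicOnNhd
        (fun y => Real.log ‖∏ j ∈ Finset.range i, discQ (discXi N j (tau b y))‖)
        (ball (0 : ℂ) (2 * s)) := by
      intro y hy
      refine AnalyticAt.harmonicAt_log_norm (f := fun y => ∏ j ∈ Finset.range i,
        discQ (discXi N j (tau b y))) (Finset.analyticAt_fun_prod _ fun j _ => ?_)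
        (Finset.prod_ne_zero_iff.2 (ne y hy))
      have aQ : ∀ ξ, AnalyticAt ℂ discQ ξ := fun ξ => by unfold discQ; fun_prop
      exact (aQ _).comp ((discXi_analytic N j _).comp (disc_tau_analytic (blt hb)
        ((mem_ball_zero_iff.1 hy).trans (by linarith))))
    obtain ⟨G, hG, hG'⟩ := hh.exists_analyticOnNhd_ball_re_eq
    refine ⟨fun y => G y - (i * c + Dp : ℝ), hG.differentiableOn.sub_const _, fun y hy => ?_⟩
    have h4 := hG' hy
    simp only at h4
    rw [sub_re, ofReal_re, h4, norm_prod, Real.log_prod fun j hj => norm_ne_zero_iff.2 (ne y hy j hj),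
      dipχ hb (mem_ball_zero_iff.1 hy), Finset.sum_congr rfl fun j hj => h2 _ (big y hy j hj),
      Finset.sum_sub_distrib]
    simp only [Finset.sum_const, Finset.card_range, nsmul_eq_mul]
    ring
  · have h4 : ‖ζ‖ ≤ 1 := h.trans (discR_lt_one hN i).le
    have h5 := discXi_le_one hN h
    have h6 := discXi_sq N i.lt_succ_self h4
    rw [discChi_eq h0 (m := i + 1) h4 (by nlinarith [norm_nonneg (discXi N i ζ)])]
    refine (Finset.sum_le_card_nsmul _ _ A fun j _ => hXA j ζ h4).trans_eq ?_
    simp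
  · have h4 := dipχ hb (y := 0) (by rw [norm_zero]; linarith)
    rw [tau_zero] at h4
    rw [h4]
    refine sub_le_sub_right
      ((Finset.sum_le_card_nsmul _ _ A fun j _ => hXA j b (blt hb).le).trans_eq ?_) _
    simp

end
end Crest.Agent.R245
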