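import Crest.Agent.R245.JetRules
import Crest.Agent.R245.Pull

/-! Row 245: the jets of the potential at a normalised point. -/

open Complex Filter Topology Set Metric Matrix
open scoped ComplexConjugate ContDiff

namespace Crest.Agent.R245
noncomputable section

section aux
variable {E : Type*} [NormedAddCommGroup E] [NormedSpace ℝ E] [NormedSpace ℂ E]
  [IsScalarTower ℝ ℂ E] [FiniteDimensional ℝ E] {p : E} {Φ Ψ : E → ℝ} {k : ℝ → ℝ}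

theorem potjets_cx_mul {α : Type*} (Φ Ψ : α → ℝ) :
    (cx fun q => Φ q * Ψ q) = fun q => cx Φ q * cx Ψ q := by
  funext q; simp [cx]

/-- Leibniz rule for real functions -/
theorem potjets_mul (h : Sm Φ p) (h' : Sm Ψ p) :
    (∀ X, J1 (fun q => Φ q * Ψ q) p X = J1 Φ p X * Ψ p + Φ p * J1 Ψ p X) ∧
    (∀ X Z, J20 (fun q => Φ q * Ψ q) p X Z = J20 Φ p X Z * Ψ p + J1 Φ p X * J1 Ψ p Z
      + J1 Φ p Z * J1 Ψ p X + Φ p * J20 Ψ p X Z) ∧
    (∀ X Y, Lv (fun q => Φ q * Ψ q) p X Y = Lv Φ p X Y * Ψ p + J1 Φ p X * conj (J1 Ψ p Y)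
      + conj (J1 Φ p Y) * J1 Ψ p X + Φ p * Lv Ψ p X Y) ∧
    (∀ X Z Y, T3 (fun q => Φ q * Ψ q) p X Z Y = T3 Φ p X Z Y * Ψ p
      + J20 Φ p X Z * conj (J1 Ψ p Y) + Lv Φ p X Y * J1 Ψ p Z + Lv Φ p Z Y * J1 Ψ p X
      + J1 Φ p X * Lv Ψ p Z Y + J1 Φ p Z * Lv Ψ p X Y + conj (J1 Φ p Y) * J20 Ψ p X Z
      + Φ p * T3 Ψ p X Z Y) ∧
    (∀ X Z Y W, Q4 (fun q => Φ q * Ψ q) p X Z Y W = Q4 Φ p X Z Y W * Ψ p
      + T3 Φ p X Z Y * conj (J1 Ψ p W) + T3 Φ p X Z W * conj (J1 Ψ p Y)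
      + conj (T3 Φ p Y W X) * J1 Ψ p Z + conj (T3 Φ p Y W Z) * J1 Ψ p X
      + J20 Φ p X Z * conj (J20 Ψ p Y W) + conj (J20 Φ p Y W) * J20 Ψ p X Z
      + Lv Φ p X Y * Lv Ψ p Z W + Lv Φ p X W * Lv Ψ p Z Y
      + Lv Φ p Z Y * Lv Ψ p X W + Lv Φ p Z W * Lv Ψ p X Y
      + J1 Φ p X * conj (T3 Ψ p Y W Z) + J1 Φ p Z * conj (T3 Ψ p Y W X)
      + conj (J1 Φ p Y) * T3 Ψ p X Z W + conj (J1 Φ p W) * T3 Ψ p X Z Y
      + Φ p * Q4 Ψ p X Z Y W) := by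
  refine ⟨fun X => ?_, fun X Z => ?_, fun X Y => ?_, fun X Z Y => ?_, fun X Z Y W => ?_⟩
  · rw [J1, potjets_cx_mul, j1_mul h.cx h'.cx]; rfl
  · rw [J20, potjets_cx_mul, j20_mul h.cx h'.cx]; rfl
  · rw [Lv, potjets_cx_mul, j11_mul h.cx h'.cx, jb_cx, jb_cx]; rfl
  · rw [T3, potjets_cx_mul, j21_mul h.cx h'.cx, jb_cx, jb_cx]; rfl
  · rw [Q4, potjets_cx_mul, j22_mul h.cx h'.cx]
    simp only [jb_cx, j02_cx h, j02_cx h', j12_cx h, j12_cx h']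
    rfl

/-- Faà di Bruno for real functions -/
theorem potjets_comp (hk : Sm k (Φ p)) (h : Sm Φ p) :
    (∀ X, J1 (fun q => k (Φ q)) p X = kd k 1 (Φ p) * J1 Φ p X) ∧
    (∀ X Z, J20 (fun q => k (Φ q)) p X Z = kd k 2 (Φ p) * (J1 Φ p X * J1 Φ p Z)
      + kd k 1 (Φ p) * J20 Φ p X Z) ∧
    (∀ X Y, Lv (fun q => k (Φ q)) p X Y = kd k 2 (Φ p) * (J1 Φ p X * conj (J1 Φ p Y))
      + kd k 1 (Φ p) * Lv Φ p X Y) ∧
    (∀ X Z Y, T3 (fun q => k (Φ q)) p X Z Y =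
      kd k 3 (Φ p) * (J1 Φ p X * J1 Φ p Z * conj (J1 Φ p Y))
      + kd k 2 (Φ p) * (J20 Φ p X Z * conj (J1 Φ p Y) + Lv Φ p X Y * J1 Φ p Z
          + Lv Φ p Z Y * J1 Φ p X)
      + kd k 1 (Φ p) * T3 Φ p X Z Y) ∧
    (∀ X Z Y W, Q4 (fun q => k (Φ q)) p X Z Y W =
      kd k 4 (Φ p) * (J1 Φ p X * J1 Φ p Z * conj (J1 Φ p Y) * conj (J1 Φ p W))
      + kd k 3 (Φ p) * (J20 Φ p X Z * conj (J1 Φ p Y) * conj (J1 Φ p W)
          + conj (J20 Φ p Y W) * J1 Φ p X * J1 Φ p Z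
          + Lv Φ p X Y * J1 Φ p Z * conj (J1 Φ p W)
          + Lv Φ p X W * J1 Φ p Z * conj (J1 Φ p Y)
          + Lv Φ p Z Y * J1 Φ p X * conj (J1 Φ p W)
          + Lv Φ p Z W * J1 Φ p X * conj (J1 Φ p Y))
      + kd k 2 (Φ p) * (J20 Φ p X Z * conj (J20 Φ p Y W)
          + Lv Φ p X Y * Lv Φ p Z W + Lv Φ p X W * Lv Φ p Z Y
          + T3 Φ p X Z Y * conj (J1 Φ p W) + T3 Φ p X Z W * conj (J1 Φ p Y)
          + conj (T3 Φ p Y W X) * J1 Φ p Z + conj (T3 Φ p Y W Z) * J1 Φ p X)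
      + kd k 1 (Φ p) * Q4 Φ p X Z Y W) := by
  refine ⟨fun X => ?_, fun X Z => ?_, fun X Y => ?_, fun X Z Y => ?_, fun X Z Y W => ?_⟩
  · exact j1_comp hk h X
  · exact j20_comp hk h X Z
  · rw [Lv, j11_comp hk h, jb_cx]; rfl
  · rw [T3, j21_comp hk h, jb_cx]; rfl
  · rw [Q4, j22_comp hk h]
    simp only [jb_cx, j02_cx h, j12_cx h]
    rfl

omit [FiniteDimensional ℝ E] in
theorem potjets_sm_normSq (A : E →L[ℂ] ℂ) (p : E) : Sm (fun q => ‖A q‖ ^ 2) p :=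
  Sm.of_contDiff ((A.restrictScalars ℝ).contDiff.norm_sq ℂ)

omit [FiniteDimensional ℝ E] in
/-- jets of the squared modulus of a linear form -/
theorem potjets_normSq (A : E →L[ℂ] ℂ) (p : E) :
    (∀ X, J1 (fun q => ‖A q‖ ^ 2) p X = A X * conj (A p)) ∧
    (∀ X Z, J20 (fun q => ‖A q‖ ^ 2) p X Z = 0) ∧
    (∀ X Y, Lv (fun q => ‖A q‖ ^ 2) p X Y = A X * conj (A Y)) ∧
    (∀ X Z Y, T3 (fun q => ‖A q‖ ^ 2) p X Z Y = 0) ∧
    (∀ X Z Y W, Q4 (fun q => ‖A q‖ ^ 2) p X Z Y W = 0) := by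
  have hc : (cx fun q => ‖A q‖ ^ 2) = fun q => A q * conj (A q) := by
    funext q; simp [cx, Complex.mul_conj']
  have hA : ∀ q, DifferentiableAt ℝ (fun q => A q) q := fun q =>
    (A.restrictScalars ℝ).differentiableAt
  have hA' : ∀ q, DifferentiableAt ℝ (fun q => conj (A q)) q := fun q =>
    (Complex.conjCLE.differentiableAt).comp q (hA q)
  have h1 : ∀ X, D X (fun q => A q) = fun _ => A X := fun X => by
    funext q; rw [D_holo A.differentiableAt, A.fderiv]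
  have h2 : ∀ X, Db X (fun q => A q) = fun _ => 0 := fun X => by
    funext q; exact Db_holo A.differentiableAt X
  have h3 : ∀ X, D X (fun q => A q * conj (A q)) = fun q => A X * conj (A q) := fun X => by
    funext q; rw [D_mul_apply (hA q) (hA' q), D_conj, h1, h2]; simp
  have h4 : ∀ X, Db X (fun q => A q * conj (A q)) = fun q => A q * conj (A X) := fun X => by
    funext q; rw [Db_mul_apply (hA q) (hA' q), Db_conj, h1, h2]; simp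
  have h5 : ∀ X (c : ℂ), D X (fun q => c * conj (A q)) = fun _ => 0 := fun X c => by
    funext q; rw [D_mul_apply (differentiableAt_const c) (hA' q), D_conj, D_const, h2]; simp
  have h6 : ∀ X (c : ℂ), D X (fun q => A q * c) = fun _ => A X * c := fun X c => by
    funext q; rw [D_mul_apply (hA q) (differentiableAt_const c), D_const, h1]; simp
  simp only [J1, J20, Lv, T3, Q4, j1, j20, j11, j21, j22, hc, h3, h4, h5, h6, D_const, Db_const,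
    implies_true, and_self]

end aux

/-- the profile `-log (1 - x)` -/
def potjetsK (x : ℝ) : ℝ := -Real.log (1 - x)

theorem potjets_sm_K {x : ℝ} (hx : x < 1) : Sm potjetsK x := by
  refine Sm.of_forall (s := Iio 1) (fun q hq => ?_) isOpen_Iio hx
  have : 1 - q ≠ 0 := (sub_pos.mpr hq).ne'
  exact ((contDiffAt_const.sub contDiffAt_id).log this).neg

theorem potjets_iter_K (n : ℕ) : ∀ x : ℝ, x < 1 →
    iteratedDeriv (n + 1) potjetsK x = n.factorial * (1 - x)⁻¹ ^ (n + 1) := by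
  induction n with
  | zero =>
    intro x hx
    have h0 : 1 - x ≠ 0 := (sub_pos.mpr hx).ne'
    have h := (((hasDerivAt_id x).const_sub 1).log h0).neg
    rw [zero_add, iteratedDeriv_one]
    refine (HasDerivAt.deriv (f := potjetsK) h).trans ?_
    simp [div_eq_mul_inv]
  | succ n ih =>
    intro x hx
    have h0 : 1 - x ≠ 0 := (sub_pos.mpr hx).ne'
    have he : iteratedDeriv (n + 1) potjetsK =ᶠ[𝓝 x]
        fun y => n.factorial * (1 - y)⁻¹ ^ (n + 1) := by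
      filter_upwards [Iio_mem_nhds hx] with y hy using ih y hy
    have h := ((((hasDerivAt_id x).const_sub 1).inv h0).pow (n + 1)).const_mul (n.factorial : ℝ)
    rw [iteratedDeriv_succ, he.deriv_eq]
    refine (HasDerivAt.deriv h).trans ?_
    simp only [Nat.factorial_succ, id, Pi.inv_apply, Nat.add_sub_cancel, neg_neg, one_div,
      ← inv_pow]
    push_cast
    ring

theorem potjets_kd_K {x : ℝ} (hx : x < 1) :
    kd potjetsK 1 x = ((1 - x)⁻¹ : ℝ) ∧ kd potjetsK 2 x = (((1 - x)⁻¹ : ℝ) : ℂ) ^ 2 ∧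
      kd potjetsK 3 x = 2 * (((1 - x)⁻¹ : ℝ) : ℂ) ^ 3 ∧
      kd potjetsK 4 x = 6 * (((1 - x)⁻¹ : ℝ) : ℂ) ^ 4 := by
  refine ⟨?_, ?_, ?_, ?_⟩
  · rw [kd, potjets_iter_K 0 x hx]; simp
  · rw [kd, potjets_iter_K 1 x hx]; simp
  · rw [kd, potjets_iter_K 2 x hx]; simp
  · rw [kd, potjets_iter_K 3 x hx]; simp [Nat.factorial]

theorem potjets_kd_exp (n : ℕ) : kd Real.exp n 0 = 1 := by
  rw [kd, iteratedDeriv_eq_iterate, Real.iter_deriv_exp]; simp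

/-- the projection as a complex linear map -/
def potjetsPr : E3 →L[ℂ] E2 :=
  ContinuousLinearMap.pi ![ContinuousLinearMap.proj 0, ContinuousLinearMap.proj 1]

theorem potjetsPr_apply (p : E3) : potjetsPr p = pr p := by
  funext i; fin_cases i <;> rfl

theorem potjets_sm_pr (p : E3) : Sm pr p := by
  have : pr = fun q => potjetsPr.restrictScalars ℝ q := by
    funext q; exact (potjetsPr_apply q).symm
  rw [this]
  exact Sm.of_contDiff (potjetsPr.restrictScalars ℝ).contDiff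

theorem potjets_pr {b : E2 → ℝ} {p : E3} (hb : Sm b (pr p)) :
    (∀ X, J1 (fun q => b (pr q)) p X = J1 b (pr p) (pr X)) ∧
    (∀ X Z, J20 (fun q => b (pr q)) p X Z = J20 b (pr p) (pr X) (pr Z)) ∧
    (∀ X Y, Lv (fun q => b (pr q)) p X Y = Lv b (pr p) (pr X) (pr Y)) ∧
    (∀ X Z Y, T3 (fun q => b (pr q)) p X Z Y = T3 b (pr p) (pr X) (pr Z) (pr Y)) ∧
    (∀ X Z Y W, Q4 (fun q => b (pr q)) p X Z Y W = Q4 b (pr p) (pr X) (pr Z) (pr Y) (pr W)) := by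
  have h := jets_clm (p := p) (F := cx b) potjetsPr (by rw [potjetsPr_apply]; exact hb.cx)
  simp only [potjetsPr_apply] at h
  exact ⟨h.1, h.2.2.1, h.2.2.2.1, h.2.2.2.2.2.1, h.2.2.2.2.2.2.2⟩

theorem potjets_sm_tt {u : E2 → ℝ} {p : E3} (hu : Sm u (pr p)) : Sm (tt u) p :=
  (potjets_sm_normSq (ContinuousLinearMap.proj 2 : E3 →L[ℂ] ℂ) p).mul
    ((Sm.of_contDiff Real.contDiff_exp).comp (hu.comp (potjets_sm_pr p)))

theorem potjets_pr_mk3 (w : ℂ) : pr (mk3 0 w) = 0 := by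
  funext i; fin_cases i <;> rfl

/-- jets of `t = |w|² e^u` -/
theorem potjets_tt {u : E2 → ℝ} {w : ℂ} (hu : Sm u 0)
    (hu0 : u 0 = 0) (hu1 : ∀ X, J1 u 0 X = 0) (hu2 : ∀ X Z, J20 u 0 X Z = 0) :
    tt u (mk3 0 w) = ‖w‖ ^ 2 ∧
    (∀ X, J1 (tt u) (mk3 0 w) X = X 2 * conj w) ∧
    (∀ X Z, J20 (tt u) (mk3 0 w) X Z = 0) ∧
    (∀ X Y, Lv (tt u) (mk3 0 w) X Y = X 2 * conj (Y 2) + w * conj w * Lv u 0 (pr X) (pr Y)) ∧
    (∀ X Z Y, T3 (tt u) (mk3 0 w) X Z Y =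
      conj w * (X 2 * Lv u 0 (pr Z) (pr Y) + Z 2 * Lv u 0 (pr X) (pr Y))
        + w * conj w * T3 u 0 (pr X) (pr Z) (pr Y)) ∧
    (∀ X Z Y W, Q4 (tt u) (mk3 0 w) X Z Y W =
      X 2 * conj (Y 2) * Lv u 0 (pr Z) (pr W) + X 2 * conj (W 2) * Lv u 0 (pr Z) (pr Y)
        + Z 2 * conj (Y 2) * Lv u 0 (pr X) (pr W) + Z 2 * conj (W 2) * Lv u 0 (pr X) (pr Y)
        + conj w * (X 2 * conj (T3 u 0 (pr Y) (pr W) (pr Z))
          + Z 2 * conj (T3 u 0 (pr Y) (pr W) (pr X)))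
        + w * (conj (Y 2) * T3 u 0 (pr X) (pr Z) (pr W) + conj (W 2) * T3 u 0 (pr X) (pr Z) (pr Y))
        + w * conj w * (Lv u 0 (pr X) (pr Y) * Lv u 0 (pr Z) (pr W)
          + Lv u 0 (pr X) (pr W) * Lv u 0 (pr Z) (pr Y)
          + Q4 u 0 (pr X) (pr Z) (pr Y) (pr W))) := by
  have hse : Sm (fun z => Real.exp (u z)) 0 := (Sm.of_contDiff Real.contDiff_exp).comp hu
  obtain ⟨e1, e2, e3, e4, e5⟩ := potjets_comp (k := Real.exp) (Sm.of_contDiff Real.contDiff_exp) hu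
  simp only [hu0, potjets_kd_exp, hu1, hu2, map_zero, mul_zero, add_zero, zero_add,
    one_mul] at e1 e2 e3 e4 e5
  have hse' : Sm (fun z => Real.exp (u z)) (pr (mk3 0 w)) := by rw [potjets_pr_mk3]; exact hse
  obtain ⟨p1, p2, p3, p4, p5⟩ := potjets_pr hse'
  simp only [potjets_pr_mk3, e1, e2, e3, e4, e5] at p1 p2 p3 p4 p5
  obtain ⟨n1, n2, n3, n4, n5⟩ :=
    potjets_normSq (ContinuousLinearMap.proj 2 : E3 →L[ℂ] ℂ) (mk3 0 w)
  obtain ⟨m1, m2, m3, m4, m5⟩ := potjets_mul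
    (potjets_sm_normSq (ContinuousLinearMap.proj 2 : E3 →L[ℂ] ℂ) (mk3 0 w))
    (hse'.comp (potjets_sm_pr _))
  have hw : (mk3 0 w) 2 = w := rfl
  have hρ : ((‖w‖ ^ 2 : ℝ) : ℂ) = w * conj w := by rw [Complex.mul_conj']; simp
  simp only [n1, n2, n3, n4, n5, p1, p2, p3, p4, p5] at m1 m2 m3 m4 m5
  simp only [ContinuousLinearMap.proj_apply, hw, hρ, potjets_pr_mk3, hu0, Real.exp_zero,
    ofReal_one, map_zero, mul_zero, add_zero, zero_add, mul_one, map_mul,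
    Complex.conj_conj] at m1 m2 m3 m4 m5
  refine ⟨by simp [tt, hw, potjets_pr_mk3, hu0], m1, m2, m3, fun X Z Y => ?_, fun X Z Y W => ?_⟩
  · refine (m4 X Z Y).trans ?_
    ring
  · refine (m5 X Z Y W).trans ?_
    ring

/-- jets of `-log (1 - t)` -/
theorem potjets_F {u : E2 → ℝ} {w : ℂ} (hu : Sm u 0)
    (hu0 : u 0 = 0) (hu1 : ∀ X, J1 u 0 X = 0) (hu2 : ∀ X Z, J20 u 0 X Z = 0) (hw : ‖w‖ < 1) :
    potjetsK (tt u (mk3 0 w)) = F0 w ∧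
    (∀ X, J1 (fun q => potjetsK (tt u q)) (mk3 0 w) X = F1 w X) ∧
    (∀ X Z, J20 (fun q => potjetsK (tt u q)) (mk3 0 w) X Z = F20 w X Z) ∧
    (∀ X Y, Lv (fun q => potjetsK (tt u q)) (mk3 0 w) X Y = F11 w (jetsOf u 0) X Y) ∧
    (∀ X Z Y, T3 (fun q => potjetsK (tt u q)) (mk3 0 w) X Z Y = F21 w (jetsOf u 0) X Z Y) ∧
    (∀ X Z Y W, Q4 (fun q => potjetsK (tt u q)) (mk3 0 w) X Z Y W
      = F22 w (jetsOf u 0) X Z Y W) := by
  obtain ⟨t0, t1, t2, t3, t4, t5⟩ := potjets_tt (w := w) hu hu0 hu1 hu2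
  have hρ1 : ‖w‖ ^ 2 < 1 := pow_lt_one₀ (norm_nonneg w) hw two_ne_zero
  have hu' : Sm u (pr (mk3 0 w)) := by rw [potjets_pr_mk3]; exact hu
  obtain ⟨c1, c2, c3, c4, c5⟩ := potjets_comp (k := potjetsK)
    (potjets_sm_K (by rw [t0]; exact hρ1)) (potjets_sm_tt hu')
  obtain ⟨k1, k2, k3, k4⟩ := potjets_kd_K hρ1
  have hsym : ∀ X Y, conj (Lv u 0 X Y) = Lv u 0 Y X := fun X Y =>
    ((isJet_of_sm hu).H_symm X Y).symm
  have hρ : (‖w‖ : ℂ) ^ 2 = w * conj w := (Complex.mul_conj' w).symm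
  have hθ : (th w : ℂ) * (1 - w * conj w) = 1 := by
    have h0 : 1 - ‖w‖ ^ 2 ≠ 0 := (sub_pos.mpr hρ1).ne'
    have h1 : th w * (1 - ‖w‖ ^ 2) = 1 := inv_mul_cancel₀ h0
    rw [← hρ]
    exact_mod_cast h1
  have hτ : (ta w : ℂ) = w * conj w * th w := by rw [ta, ← hρ]; push_cast; rfl
  have hth : ((1 - ‖w‖ ^ 2)⁻¹ : ℝ) = th w := rfl
  simp only [t0, k1, k2, k3, k4, hth, t1, t2, t3, t4, t5, map_add, map_mul, Complex.conj_conj,
    map_zero, hsym] at c1 c2 c3 c4 c5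
  have hne : 1 - w * conj w ≠ 0 := right_ne_zero_of_mul_eq_one hθ
  have hθ' : (th w : ℂ) = (1 - w * conj w)⁻¹ := eq_inv_of_mul_eq_one_left hθ
  refine ⟨by rw [t0]; rfl, fun X => ?_, fun X Z => ?_, fun X Y => ?_, fun X Z Y => ?_,
    fun X Z Y W => ?_⟩
  · rw [c1, F1]; ring
  · rw [c2, F20]; ring
  · rw [c3, F11, hτ, hθ']
    simp only [jetsOf]
    field_simp
    ring
  · rw [c4, F21, hτ, hθ']
    simp only [jetsOf]
    field_simp
    ring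
  · rw [c5, F22, hτ, hρ, hθ']
    simp only [jetsOf]
    field_simp
    ring

theorem sm_pot {b d u : E2 → ℝ} {p : E3} (hb : Sm b (pr p)) (hd : Sm d (pr p)) (hu : Sm u (pr p))
    (hp : tt u p < 1) : Sm (pot b d u) p :=
  (hb.comp (potjets_sm_pr p)).add ((hd.comp (potjets_sm_pr p)).mul
    ((potjets_sm_K hp).comp (potjets_sm_tt hu)))

theorem pot_jets {b d u : E2 → ℝ} {w : ℂ} (hb : Sm b 0) (hd : Sm d 0) (hu : Sm u 0)
    (hu0 : u 0 = 0) (hu1 : ∀ X, J1 u 0 X = 0) (hu2 : ∀ X Z, J20 u 0 X Z = 0) (hw : ‖w‖ < 1) :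
    (∀ X, J1 (pot b d u) (mk3 0 w) X = J1 b 0 (pr X) + J1 d 0 (pr X) * F0 w + d 0 * F1 w X) ∧
    Lv (pot b d u) (mk3 0 w) = totH w (jetsOf b 0) (jetsOf u 0) (djetsOf d 0) ∧
    T3 (pot b d u) (mk3 0 w) = totT w (jetsOf b 0) (jetsOf u 0) (djetsOf d 0) ∧
    Q4 (pot b d u) (mk3 0 w) = totQ w (jetsOf b 0) (jetsOf u 0) (djetsOf d 0) := by
  obtain ⟨f0, f1, f2, f3, f4, f5⟩ := potjets_F hu hu0 hu1 hu2 hw
  have hb' : Sm b (pr (mk3 0 w)) := by rw [potjets_pr_mk3]; exact hb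
  have hd' : Sm d (pr (mk3 0 w)) := by rw [potjets_pr_mk3]; exact hd
  have hu' : Sm u (pr (mk3 0 w)) := by rw [potjets_pr_mk3]; exact hu
  have ht : tt u (mk3 0 w) < 1 := by
    rw [(potjets_tt hu hu0 hu1 hu2).1]
    exact pow_lt_one₀ (norm_nonneg w) hw two_ne_zero
  have sb := hb'.comp (potjets_sm_pr _)
  have sd := hd'.comp (potjets_sm_pr _)
  have sk := (potjets_sm_K ht).comp (potjets_sm_tt hu')
  obtain ⟨b1, -, b3, b4, b5⟩ := potjets_pr hb'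
  obtain ⟨d1, d2, d3, d4, d5⟩ := potjets_pr hd'
  obtain ⟨m1, -, m3, m4, m5⟩ := potjets_mul sd sk
  simp only [f0, f1, f2, f3, f4, f5, d1, d2, d3, d4, d5, potjets_pr_mk3] at m1 m3 m4 m5
  simp only [potjets_pr_mk3] at b1 b3 b4 b5
  have hpot : pot b d u = fun q => b (pr q) + d (pr q) * potjetsK (tt u q) := rfl
  rw [hpot]
  refine ⟨fun X => ?_, ?_, ?_, ?_⟩
  · rw [J1_add sb (sd.mul sk), b1, m1]; ring
  · funext X Y
    rw [Lv_add sb (sd.mul sk), b3, m3]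
    simp only [totH, jetsOf, djetsOf]
    ring
  · funext X Z Y
    rw [T3_add sb (sd.mul sk), b4, m4]
    simp only [totT, jetsOf, djetsOf]
    ring
  · funext X Z Y W
    rw [Q4_add sb (sd.mul sk), b5, m5]
    simp only [totQ, jetsOf, djetsOf]
    ring

theorem jetsOf_psi : jetsOf psi 0 = std 1 := by
  have s0 := potjets_sm_normSq (ContinuousLinearMap.proj 0 : E2 →L[ℂ] ℂ) 0
  have s1 := potjets_sm_normSq (ContinuousLinearMap.proj 1 : E2 →L[ℂ] ℂ) 0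
  obtain ⟨a1, a2, a3, a4, a5⟩ := potjets_normSq (ContinuousLinearMap.proj 0 : E2 →L[ℂ] ℂ) 0
  obtain ⟨b1, b2, b3, b4, b5⟩ := potjets_normSq (ContinuousLinearMap.proj 1 : E2 →L[ℂ] ℂ) 0
  have hn : (nsq : E2 → ℝ) = fun q => ‖(ContinuousLinearMap.proj 0 : E2 →L[ℂ] ℂ) q‖ ^ 2
      + ‖(ContinuousLinearMap.proj 1 : E2 →L[ℂ] ℂ) q‖ ^ 2 := by
    funext q; simp [nsq]
  have sn : Sm (nsq : E2 → ℝ) 0 := hn ▸ s0.add s1
  have n0 : nsq (0 : E2) = 0 := by simp [nsq]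
  have n1 : ∀ X, J1 (nsq : E2 → ℝ) 0 X = 0 := fun X => by
    rw [hn, J1_add s0 s1, a1, b1]; simp
  have n2 : ∀ X Z, J20 (nsq : E2 → ℝ) 0 X Z = 0 := fun X Z => by
    rw [hn, J20_add s0 s1, a2, b2, add_zero]
  have n3 : ∀ X Y, Lv (nsq : E2 → ℝ) 0 X Y = ip X Y := fun X Y => by
    rw [hn, Lv_add s0 s1, a3, b3]; rfl
  have n4 : ∀ X Z Y, T3 (nsq : E2 → ℝ) 0 X Z Y = 0 := fun X Z Y => by
    rw [hn, T3_add s0 s1, a4, b4, add_zero]
  have n5 : ∀ X Z Y W, Q4 (nsq : E2 → ℝ) 0 X Z Y W = 0 := fun X Z Y W => by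
    rw [hn, Q4_add s0 s1, a5, b5, add_zero]
  obtain ⟨-, -, c3, c4, c5⟩ := potjets_comp (k := potjetsK)
    (potjets_sm_K (by rw [n0]; exact one_pos)) sn
  obtain ⟨k1, k2, -, -⟩ := potjets_kd_K (x := 0) one_pos
  simp only [n0, n1, n2, n3, n4, n5, k1, k2, map_zero, mul_zero, add_zero, zero_add,
    sub_zero, inv_one, ofReal_one, one_pow] at c3 c4 c5
  have hpsi : psi = fun q => potjetsK (nsq q) := rfl
  rw [jetsOf, std, hpsi]
  congr 1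
  · funext X Y; rw [c3]; simp
  · funext X Z Y; rw [c4]
  · funext X Z Y W; rw [c5]; simp

end
end Crest.Agent.R245
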