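import Crest.Agent.R245.Frame
import Crest.Agent.R245.JB
import Crest.Agent.R245.PotJets

/-! Row 245: jets of the standard functions in frames. -/

open Complex Filter Topology Set Metric Matrix
open scoped ComplexConjugate ContDiff

namespace Crest.Agent.R245
noncomputable section

theorem fjb_contDiff_normSq : ContDiff ℝ ∞ (fun z : ℂ => ‖z‖ ^ 2) := contDiff_norm_sq ℝ

theorem fjb_contDiff_nsq : ContDiff ℝ ∞ (nsq : E2 → ℝ) := by
  unfold nsq
  exact ContDiff.sum fun i _ => fjb_contDiff_normSq.comp (contDiff_apply ℝ ℂ i)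

/-- the disc potential -/
def fjbK (z : ℂ) : ℝ := -Real.log (1 - ‖z‖ ^ 2)

theorem fjb_sm_K {z : ℂ} (hz : ‖z‖ < 1) : Sm fjbK z := by
  refine Sm.of_forall (s := ball 0 1) ?_ isOpen_ball (by simpa using hz)
  intro q hq
  have hq' : ‖q‖ < 1 := by simpa using hq
  have : 1 - ‖q‖ ^ 2 ≠ 0 := by nlinarith [norm_nonneg q]
  exact ((contDiffAt_const.sub fjb_contDiff_normSq.contDiffAt).log this).neg

theorem fjb_sm_lognorm {z : ℂ} (hz : z ≠ 0) : Sm (fun z : ℂ => 2 * Real.log ‖z‖) z := by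
  refine Sm.of_forall (s := {0}ᶜ) ?_ isOpen_compl_singleton hz
  intro q hq
  have hq' : q ≠ 0 := hq
  exact contDiffAt_const.mul ((contDiffAt_norm ℝ hq').log (norm_ne_zero_iff.mpr hq'))

theorem fjb_sm_inv {z : ℂ} (hz : z ≠ 0) : Sm (fun z : ℂ => z⁻¹) z := by
  refine Sm.of_forall (s := {0}ᶜ) ?_ isOpen_compl_singleton hz
  intro q hq
  exact contDiffAt_inv ℝ hq

theorem sm_psi {z : E2} (hz : z ∈ B2) : Sm psi z := by
  refine Sm.of_forall ?_ isOpen_B2 hz
  intro q hq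
  have hq' : nsq q < 1 := hq
  have : 1 - nsq q ≠ 0 := by linarith
  exact ((contDiffAt_const.sub fjb_contDiff_nsq.contDiffAt).log this).neg

theorem sm_sig {z : E2} (hz : z ∈ B2) : Sm sig z :=
  Sm.comp (g := fjbK) (f := fun z : E2 => z 0) (fjb_sm_K (norm_lt_one_of_mem hz 0))
    (Sm.of_contDiff (contDiff_apply ℝ ℂ 0))

theorem IsU.sm_act {M : M3} (hM : IsU M) {y : E2} (hy : y ∈ B2) : Sm (act M) y :=
  Sm.of_analyticAt (hM.analyticAt hy)

theorem fjb_nhds : B2 ∈ 𝓝 (0 : E2) := isOpen_B2.mem_nhds zero_mem_B2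

theorem fjb_an (i : Fin 2) (y : E2) : AnalyticAt ℂ (fun y : E2 => y i) y :=
  (ContinuousLinearMap.proj (R := ℂ) (φ := fun _ : Fin 2 => ℂ) i).analyticAt y

theorem IsU.jetsOf_psi {M : M3} (hM : IsU M) : jetsOf (fun y => psi (act M y)) 0 = std 1 := by
  obtain ⟨v, -, hv⟩ := hM.psi_eq
  set h : E2 → ℂ := fun y => psi (act M 0) + 2 * Complex.log (1 + (v 0 * y 0 + v 1 * y 1)) with hh
  have han : AnalyticAt ℂ h 0 := by
    refine analyticAt_const.add (analyticAt_const.mul (AnalyticAt.clog ?_ ?_))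
    · exact analyticAt_const.add ((analyticAt_const.mul (fjb_an 0 0)).add
        (analyticAt_const.mul (fjb_an 1 0)))
    · simp
  have he : (fun y => psi (act M y)) =ᶠ[𝓝 0] fun y => psi y + (h y).re := by
    filter_upwards [fjb_nhds] with y hy
    rw [(hv y hy).2]
    simp [hh, Complex.log_re]
    ring
  have h1 : Sm psi (0 : E2) := sm_psi zero_mem_B2
  have h2 : Sm (fun y => (h y).re) (0 : E2) := (Sm.of_analyticAt han).re
  rw [← Crest.Agent.R245.jetsOf_psi]
  unfold jetsOf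
  rw [Lv_congr he, T3_congr he, Q4_congr he]
  congr 1
  · funext X Y
    rw [Lv_add h1 h2, Lv_re han, add_zero]
  · funext X Z Y
    rw [T3_add h1 h2, T3_re han, add_zero]
  · funext X Z Y W
    rw [Q4_add h1 h2, Q4_re han, add_zero]

theorem fjb_norm_le_one {v : E2} (hv : nsq v ≤ 1) : ‖v‖ ≤ 1 :=
  (norm_le_nr v).trans (Real.sqrt_le_one.mpr hv)

theorem exists_jb_psi : ∃ C : ℝ, 1 ≤ C ∧ ∀ M, IsU M → JB (fun y => psi (act M y)) 0 C := by
  obtain ⟨C, hC⟩ := JB.compact (p := (0 : E2)) (isCompact_closedBall (0 : E2) 1)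
    (F := fun q : E2 × E2 => psi q.2 + 2 * Real.log ‖1 + (q.1 0 * q.2 0 + q.1 1 * q.2 1)‖) (by
      intro θ _
      refine Sm.add ?_ ?_
      · exact Sm.comp (g := psi) (f := fun q : E2 × E2 => q.2) (sm_psi zero_mem_B2)
          (Sm.of_contDiff contDiff_snd)
      · refine Sm.comp (g := fun z : ℂ => 2 * Real.log ‖z‖)
          (f := fun q : E2 × E2 => 1 + (q.1 0 * q.2 0 + q.1 1 * q.2 1)) (fjb_sm_lognorm ?_)
          (Sm.of_contDiff ?_)
        · simp
        · fun_prop)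
  refine ⟨max C 1, le_max_right _ _, fun M hM => ?_⟩
  obtain ⟨v, hv1, hv⟩ := hM.psi_eq
  have h1 := (hC v (by simpa using fjb_norm_le_one hv1)).add_const (psi (act M 0))
  refine (h1.congr ?_).mono (le_max_left _ _)
  filter_upwards [fjb_nhds] with y hy
  rw [(hv y hy).2]
  ring

theorem fjb_max_le {C ε : ℝ} (hC : 1 ≤ C) (h0 : 0 ≤ ε) (h1 : ε ≤ 1) :
    max (ε * C) ((ε * C) ^ 4) ≤ C ^ 4 * ε := by
  have h4 : C ≤ C ^ 4 := le_self_pow₀ hC (by norm_num)
  refine max_le ?_ ?_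
  · rw [mul_comm]
    exact mul_le_mul_of_nonneg_right h4 h0
  · rw [mul_pow, mul_comm]
    refine mul_le_mul_of_nonneg_left ?_ (by positivity)
    exact pow_le_of_le_one h0 h1 (by norm_num)

theorem fjb_eps_le_one {x : E2} (hx : x ∈ B2) (i : Fin 2) :
    Real.sqrt ((1 - nsq x) / (1 - ‖x i‖ ^ 2)) ≤ 1 := by
  refine Real.sqrt_le_one.mpr ?_
  have h1 := norm_lt_one_of_mem hx i
  have h2 : 0 < 1 - ‖x i‖ ^ 2 := by nlinarith [norm_nonneg (x i)]
  rw [div_le_one h2]
  have h3 : ‖x i‖ ^ 2 ≤ nsq x := by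
    unfold nsq
    exact Finset.single_le_sum (f := fun j => ‖x j‖ ^ 2) (fun j _ => by positivity)
      (Finset.mem_univ i)
  linarith

/-- functions of one coordinate -/
theorem exists_jb_coord : ∃ C : ℝ, 1 ≤ C ∧ ∀ (M : M3) (i : Fin 2) (k : ℂ → ℝ) (K : ℝ), IsU M →
    JB (fun y => k (tau (act M 0 i) y)) 0 K →
    JB (fun y => k (act M y i)) 0
      (C * K * Real.sqrt ((1 - nsq (act M 0)) / (1 - ‖act M 0 i‖ ^ 2))) := by
  obtain ⟨C, hC⟩ := JB.compact (p := (0 : E2)) (isCompact_closedBall (0 : E2 × E2) 1)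
    (F := fun q : (E2 × E2) × E2 =>
      (q.1.1 0 * q.2 0 + q.1.1 1 * q.2 1) * (1 + (q.1.2 0 * q.2 0 + q.1.2 1 * q.2 1))⁻¹) (by
      intro θ _
      refine Sm.mul (Sm.of_contDiff ?_) ?_
      · fun_prop
      · refine Sm.comp (g := fun z : ℂ => z⁻¹)
          (f := fun q : (E2 × E2) × E2 => 1 + (q.1.2 0 * q.2 0 + q.1.2 1 * q.2 1)) (fjb_sm_inv ?_)
          (Sm.of_contDiff ?_)
        · simp
        · fun_prop)
  have hC1 : 1 ≤ max C 1 := le_max_right _ _
  refine ⟨24 * max C 1 ^ 4, ?_, fun M i k K hM hk => ?_⟩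
  · have : 1 ≤ max C 1 ^ 4 := one_le_pow₀ hC1
    linarith
  obtain ⟨v, v', hv, hv', he⟩ := hM.coord_eq i
  have hε1 := fjb_eps_le_one (hM.act_mem zero_mem_B2) i
  rw [← hv] at hε1 ⊢
  set ε := Real.sqrt (nsq v) with hε
  have hε0 : 0 ≤ ε := Real.sqrt_nonneg _
  obtain ⟨v1, hv1, hvv⟩ : ∃ v1 : E2, ‖v1‖ ≤ 1 ∧ v = (ε : ℂ) • v1 := by
    rcases hε0.eq_or_lt with h0 | h0
    · refine ⟨0, by simp, ?_⟩
      have : ‖v‖ ≤ 0 := (norm_le_nr v).trans (le_of_eq h0.symm)
      simpa using this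
    · refine ⟨(ε : ℂ)⁻¹ • v, ?_, ?_⟩
      · rw [norm_smul, norm_inv, Complex.norm_real, Real.norm_eq_abs, abs_of_pos h0,
          inv_mul_le_iff₀ h0, mul_one]
        exact norm_le_nr v
      · rw [smul_smul, mul_inv_cancel₀ (by exact_mod_cast h0.ne'), one_smul]
  have h1 := ((hC (v1, v') (by
    rw [mem_closedBall_zero_iff, Prod.norm_def]
    exact max_le hv1 (fjb_norm_le_one hv'))).mono (le_max_left C 1)).const_mul_complex (ε : ℂ)
  rw [Complex.norm_real, Real.norm_eq_abs, abs_of_nonneg hε0] at h1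
  have h2 := JB.comp (g := fun y => k (tau (act M 0 i) y)) (A := K) (by simpa using hk) h1
  refine (h2.congr ?_).mono ?_
  · filter_upwards [fjb_nhds] with y hy
    rw [(he y hy).2]
    congr 2
    rw [hvv]
    simp only [Pi.smul_apply, smul_eq_mul, div_eq_mul_inv]
    ring
  · have h3 := mul_le_mul_of_nonneg_left (fjb_max_le hC1 hε0 hε1)
      (mul_nonneg (by norm_num : (0 : ℝ) ≤ 24) hk.nonneg)
    refine h3.trans (le_of_eq ?_)
    ring

theorem Lv_coord_nonneg {M : M3} (hM : IsU M) (i : Fin 2) {k : ℂ → ℝ} (hk : Sm k (act M 0 i))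
    (h0 : 0 ≤ (Lv k (act M 0 i) 1 1).re) (X : E2) :
    0 ≤ (Lv (fun y => k (act M y i)) 0 X X).re :=
  Lv_comp_nonneg (f := fun y => act M y i) (analyticAt_pi_iff.mp (hM.analyticAt zero_mem_B2) i)
    hk h0 X

theorem fjb_exists_K : ∃ K : ℝ, 1 ≤ K ∧ ∀ a : ℂ, ‖a‖ < 1 → JB (fun y => fjbK (tau a y)) 0 K := by
  obtain ⟨C, hC⟩ := JB.compact (p := (0 : ℂ)) (isCompact_closedBall (0 : ℂ) 1)
    (F := fun q : ℂ × ℂ => fjbK q.2 + 2 * Real.log ‖1 + conj q.1 * q.2‖) (by
      intro θ _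
      refine Sm.add ?_ ?_
      · exact Sm.comp (g := fjbK) (f := fun q : ℂ × ℂ => q.2) (fjb_sm_K (by simp))
          (Sm.of_contDiff contDiff_snd)
      · refine Sm.comp (g := fun z : ℂ => 2 * Real.log ‖z‖)
          (f := fun q : ℂ × ℂ => 1 + conj q.1 * q.2) (fjb_sm_lognorm ?_) ?_
        · simp
        · exact (Sm.const _).add ((Sm.of_contDiff contDiff_fst).conj.mul
            (Sm.of_contDiff contDiff_snd)))
  refine ⟨max C 1, le_max_right _ _, fun a ha => ?_⟩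
  have h1 := (hC a (by simpa using ha.le)).add_const (fjbK a)
  refine (h1.congr ?_).mono (le_max_left _ _)
  filter_upwards [ball_mem_nhds (0 : ℂ) one_pos] with y hy
  have hy' : ‖y‖ < 1 := by simpa using hy
  have p1 : 1 - ‖a‖ ^ 2 ≠ 0 := by nlinarith [norm_nonneg a]
  have p2 : 1 - ‖y‖ ^ 2 ≠ 0 := by nlinarith [norm_nonneg y]
  have p3 : ‖1 + conj a * y‖ ≠ 0 := norm_ne_zero_iff.mpr (one_add_conj_mul_ne ha hy')
  unfold fjbK
  rw [one_sub_norm_tau ha hy', Real.log_div (mul_ne_zero p1 p2) (pow_ne_zero 2 p3),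
    Real.log_mul p1 p2, Real.log_pow]
  push_cast
  ring

/-- the collar functions -/
theorem exists_jb_collar : ∃ C : ℝ, 1 ≤ C ∧ ∀ (M : M3) (s0 : ℝ), IsU M →
    JB (fun y => Real.smoothTransition (sig (act M y) - s0)) 0 C ∧
    JB (fun y => Real.smoothTransition (sig (act M y) - s0) * (psi (act M y) - s0)) 0 C := by
  obtain ⟨Cp, hCp1, hCp⟩ := exists_jb_psi
  obtain ⟨Cc, hCc1, hCc⟩ := exists_jb_coord
  obtain ⟨K, hK1, hK⟩ := fjb_exists_K
  obtain ⟨CT, hCT⟩ := JB.compact_pts (isCompact_Icc (a := (0 : ℝ)) (b := 1))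
    (F := Real.smoothTransition) (fun x _ => Sm.of_contDiff Real.smoothTransition.contDiff)
  have hCT0 : 0 ≤ CT := (hCT 0 (by simp)).nonneg
  have hCK : 1 ≤ Cc * K := one_le_mul_of_one_le_of_one_le hCc1 hK1
  set C2 := 24 * CT * (Cc * K) ^ 4 with hC2
  have hC20 : 0 ≤ C2 := by positivity
  have hmul : 0 ≤ C2 * Cp := by positivity
  refine ⟨Cp + 2 * C2 + 14 * (C2 * Cp), by linarith, fun M s0 hM => ?_⟩
  have hx := hM.act_mem zero_mem_B2
  have hcont : ContinuousAt (fun y => sig (act M y) - s0) 0 :=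
    (Sm.comp (g := sig) (sm_sig hx) (hM.sm_act zero_mem_B2)).continuousAt.sub continuousAt_const
  have hpsi : JB (fun y => psi (act M y) - s0) 0 Cp := by
    simpa only [sub_eq_add_neg] using (hCp M hM).add_const (-s0)
  rcases lt_or_ge (sig (act M 0) - s0) 0 with h0 | h0
  · have he : ∀ᶠ y in 𝓝 (0 : E2), Real.smoothTransition (sig (act M y) - s0) = 0 := by
      filter_upwards [hcont.eventually (gt_mem_nhds h0)] with y hy
      exact Real.smoothTransition.zero_of_nonpos hy.le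
    refine ⟨((JB.const (0 : ℝ)).congr ?_).mono (by linarith),
      ((JB.const (0 : ℝ)).congr ?_).mono (by linarith)⟩
    · filter_upwards [he] with y hy using hy.symm
    · filter_upwards [he] with y hy
      rw [hy, zero_mul]
  rcases lt_or_ge 1 (sig (act M 0) - s0) with h1 | h1
  · have he : ∀ᶠ y in 𝓝 (0 : E2), Real.smoothTransition (sig (act M y) - s0) = 1 := by
      filter_upwards [hcont.eventually (lt_mem_nhds h1)] with y hy
      exact Real.smoothTransition.one_of_one_le hy.le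
    refine ⟨((JB.const (1 : ℝ)).congr ?_).mono (by linarith), (hpsi.congr ?_).mono (by linarith)⟩
    · filter_upwards [he] with y hy using hy.symm
    · filter_upwards [he] with y hy
      rw [hy, one_mul]
  have hε1 := fjb_eps_le_one hx 0
  have hs := hCc M 0 fjbK K hM (hK _ (norm_lt_one_of_mem hx 0))
  set ε := Real.sqrt ((1 - nsq (act M 0)) / (1 - ‖act M 0 0‖ ^ 2)) with hε
  have hε0 : 0 ≤ ε := Real.sqrt_nonneg _
  have hs' : JB (fun y => sig (act M y) - s0) 0 (ε * (Cc * K)) := by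
    rw [mul_comm ε]
    exact hs.add_const (-s0)
  have hT : JB (fun y => Real.smoothTransition (sig (act M y) - s0)) 0 (C2 * ε) := by
    refine (JB.comp (g := Real.smoothTransition) (f := fun y => sig (act M y) - s0) (p := 0)
      (hCT _ ⟨h0, h1⟩) hs').mono ?_
    have h3 := mul_le_mul_of_nonneg_left (fjb_max_le hCK hε0 hε1)
      (mul_nonneg (by norm_num : (0 : ℝ) ≤ 24) hCT0)
    refine h3.trans (le_of_eq ?_)
    rw [hC2]
    ring
  have hC2ε : C2 * ε ≤ C2 := mul_le_of_le_one_right hC20 hε1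
  refine ⟨hT.mono (by linarith), ?_⟩
  set t := psi (act M 0) - sig (act M 0) with ht
  have ht0 : 0 ≤ t := sub_nonneg.mpr (sig_le_psi hx)
  have hεt : ε = Real.exp (-(t / 2)) := by
    have q1 : 0 < 1 - nsq (act M 0) := sub_pos.mpr hx
    have q2 : 0 < 1 - ‖act M 0 0‖ ^ 2 := by
      nlinarith [norm_nonneg (act M 0 0), norm_lt_one_of_mem hx 0]
    rw [hε, Real.sqrt_eq_iff_mul_self_eq (by positivity) (Real.exp_pos _).le, ← Real.exp_add]
    have : -(t / 2) + -(t / 2) = Real.log (1 - nsq (act M 0)) - Real.log (1 - ‖act M 0 0‖ ^ 2) := by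
      rw [ht]
      unfold psi sig
      ring
    rw [this, Real.exp_sub, Real.exp_log q1, Real.exp_log q2]
  have hεb : ε * (t + 1) ≤ 2 := by
    rw [hεt, Real.exp_neg, inv_mul_le_iff₀ (Real.exp_pos _)]
    have := Real.add_one_le_exp (t / 2)
    linarith
  have hm := JB.mul hT hpsi (A0 := 1) (B0 := t + 1) (by
    rw [abs_of_nonneg (Real.smoothTransition.nonneg _)]
    exact Real.smoothTransition.le_one _) (by
    rw [abs_le]
    constructor <;> linarith)
  refine hm.mono ?_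
  have b1 : C2 * ε * (t + 1) ≤ C2 * 2 := by
    rw [mul_assoc]
    exact mul_le_mul_of_nonneg_left hεb hC20
  have b2 : C2 * ε * Cp ≤ C2 * Cp := mul_le_mul_of_nonneg_right hC2ε (by linarith)
  linarith

end
end Crest.Agent.R245
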