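import Crest.Agent.R245.Pull
import Crest.Agent.R245.Fibre
import Crest.Agent.R245.Ball

/-! Row 245: the domain with three modified caps, its potential and its parametrisation. -/

open Complex Filter Topology Set Metric Matrix
open scoped ComplexConjugate ContDiff

namespace Crest.Agent.R245
noncomputable section
namespace Glue

/-- cyclic permutations of the coordinates -/
def cy (j : Fin 3) : E3 ≃L[ℂ] E3 :=
  (LinearEquiv.funCongrLeft ℂ ℂ (Equiv.addRight j)).toContinuousLinearEquiv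

theorem cy_apply (j : Fin 3) (z : E3) (i : Fin 3) : cy j z i = z (i + j) := rfl

theorem cy_zero (z : E3) : cy 0 z = z := by
  funext i; rw [cy_apply, add_zero]

theorem cy_cy (a b : Fin 3) (z : E3) : cy a (cy b z) = cy (a + b) z := by
  funext i; simp only [cy_apply, add_assoc]

theorem cy_one_vec (a b c : ℂ) : cy 1 ![a, b, c] = ![b, c, a] := by
  funext i; fin_cases i <;> rfl

theorem cy_two_vec (a b c : ℂ) : cy 2 ![a, b, c] = ![c, a, b] := by
  funext i; fin_cases i <;> rfl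

theorem contDiff_cy (j : Fin 3) : ContDiff ℝ ∞ (cy j) :=
  contDiff_pi.2 fun i => contDiff_apply ℝ ℂ (i + j)

theorem nsq_cy (j : Fin 3) (z : E3) : nsq (cy j z) = nsq z :=
  Equiv.sum_comp (Equiv.addRight j) fun i => ‖z i‖ ^ 2

theorem nsq_pr (z : E3) : nsq (pr z) = ‖z 0‖ ^ 2 + ‖z 1‖ ^ 2 := by
  rw [nsq_two]; rfl

/-- the region over which the ball is modified -/
def RR : Set E3 := {z | 4 / 5 < ‖z 0‖ ^ 2 ∧ ‖z 0‖ ^ 2 + ‖z 1‖ ^ 2 < 1}

theorem isOpen_RR : IsOpen RR :=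
  IsOpen.and (isOpen_lt (by fun_prop) (by fun_prop)) (isOpen_lt (by fun_prop) (by fun_prop))

theorem RR_unique {z : E3} {j j' : Fin 3} (h : cy j z ∈ RR) (h' : cy j' z ∈ RR) : j = j' := by
  obtain ⟨h1, h2⟩ := h
  obtain ⟨h3, h4⟩ := h'
  simp only [cy_apply] at h1 h2 h3 h4
  fin_cases j <;> fin_cases j' <;> first | rfl | (exfalso; simp at h1 h2 h3 h4; linarith)

def core : Set E3 := {z | nsq z < 1 ∧ ∀ i, ‖z i‖ ^ 2 < 9 / 10}

theorem isOpen_core : IsOpen core := by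
  refine (isOpen_lt continuous_nsq continuous_const).inter ?_
  have : {z : E3 | ∀ i, ‖z i‖ ^ 2 < 9 / 10} = ⋂ i, {z : E3 | ‖z i‖ ^ 2 < 9 / 10} := by
    ext z; simp
  change IsOpen {z : E3 | ∀ i, ‖z i‖ ^ 2 < 9 / 10}
  rw [this]
  exact isOpen_iInter_of_finite fun i => isOpen_lt (by fun_prop) (by fun_prop)

theorem cy_mem_core {z : E3} (h : z ∈ core) (j : Fin 3) : cy j z ∈ core :=
  ⟨by rw [nsq_cy]; exact h.1, fun i => h.2 _⟩

variable (P : BaseData)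

/-- the domain -/
def UU : Set E3 := {z | ∃ j, cy j z ∈ RR ∩ dom P.u} ∪ core

theorem isOpen_UU : IsOpen (UU P) := by
  refine IsOpen.union ?_ isOpen_core
  have : {z : E3 | ∃ j, cy j z ∈ RR ∩ dom P.u} = ⋃ j, cy j ⁻¹' (RR ∩ dom P.u) := by
    ext z; simp
  rw [this]
  exact isOpen_iUnion fun j =>
    (isOpen_RR.inter (isOpen_dom fun z hz => (P.sm z hz).2.2)).preimage (cy j).continuous

theorem cy_mem_UU {z : E3} (h : z ∈ UU P) (j : Fin 3) : cy j z ∈ UU P := by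
  rcases h with ⟨j', h⟩ | h
  · left
    refine ⟨j' - j, ?_⟩
    rwa [cy_cy, sub_add_cancel]
  · exact Or.inr (cy_mem_core h j)

theorem pr_mem_B2 {z : E3} (h : nsq z < 1) : pr z ∈ B2 := by
  change nsq (pr z) < 1
  rw [nsq_three] at h
  rw [nsq_pr]
  linarith [sq_nonneg ‖z 2‖]

theorem tt_eq {z : E3} (h : pr z ∈ B2) (h0 : ‖z 0‖ ^ 2 < 19 / 20) : tt P.u z = tt psi z := by
  unfold tt
  rw [(P.core _ h h0).2.2]

theorem mem_dom_iff {z : E3} (h0 : ‖z 0‖ ^ 2 < 19 / 20) : z ∈ dom P.u ↔ nsq z < 1 := by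
  rw [← mem_dom_psi]
  exact and_congr_right fun h => by rw [tt_eq P h h0]

theorem pot_eq {z : E3} (h : nsq z < 1) (h0 : ‖z 0‖ ^ 2 < 19 / 20) :
    pot P.b P.d P.u z = -Real.log (1 - nsq z) := by
  rw [← pot_psi h]
  have h1 := P.core _ (pr_mem_B2 h) h0
  unfold pot
  rw [tt_eq P (pr_mem_B2 h) h0, h1.1, h1.2.1]

open Classical in
/-- the potential -/
def Phi (z : E3) : ℝ :=
  if h : ∃ j, cy j z ∈ RR then pot P.b P.d P.u (cy h.choose z) else pot P.b P.d P.u z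

theorem Phi_of_mem {z : E3} {j : Fin 3} (h : cy j z ∈ RR) :
    Phi P z = pot P.b P.d P.u (cy j z) := by
  have h' : ∃ j, cy j z ∈ RR := ⟨j, h⟩
  unfold Phi
  rw [dif_pos h', RR_unique h'.choose_spec h]

theorem Phi_core {z : E3} (h : nsq z < 1) (h0 : ∀ i, ‖z i‖ ^ 2 < 19 / 20) :
    Phi P z = -Real.log (1 - nsq z) := by
  unfold Phi
  split_ifs with h'
  · rw [pot_eq P (z := cy h'.choose z) (by rwa [nsq_cy]) (h0 _), nsq_cy]
  · exact pot_eq P h (h0 _)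

theorem Phi_eventually {p : E3} {j : Fin 3} (h : cy j p ∈ RR) :
    (fun q => pot P.b P.d P.u (cy j q)) =ᶠ[𝓝 p] Phi P := by
  filter_upwards [(isOpen_RR.preimage (cy j).continuous).mem_nhds h] with q hq
  exact (Phi_of_mem P hq).symm

theorem good_Phi {p : E3} (hp : p ∈ UU P) : Good (Phi P) p P.c P.L := by
  rcases hp with ⟨j, h⟩ | h
  · exact (Good.comp_equiv (cy j) (P.good _ h.2)).congr (Phi_eventually P h.1)
  · have h0 : ∀ q ∈ core, ∀ i, ‖q i‖ ^ 2 < 19 / 20 := fun q hq i => by linarith [hq.2 i]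
    refine (P.good p ((mem_dom_iff P (h0 p h 0)).2 h.1)).congr ?_
    filter_upwards [isOpen_core.mem_nhds h] with q hq
    rw [pot_eq P hq.1 (h0 q hq 0), Phi_core P hq.1 (h0 q hq)]

theorem very_Phi (B : ℝ) : ∃ p ∈ UU P, Very (Phi P) p B := by
  obtain ⟨p, hp, h0, hv⟩ := P.very B
  have hR : cy 0 p ∈ RR := by
    rw [cy_zero]
    exact ⟨by linarith, by rw [← nsq_pr]; exact hp.1⟩
  refine ⟨p, Or.inl ⟨0, hR, by rwa [cy_zero]⟩, hv.congr ?_⟩
  have := Phi_eventually P hR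
  simpa only [cy_zero] using this

theorem mem_UU_cases {p : E3} (hp : p ∈ UU P) :
    (∃ j, cy j p ∈ RR ∩ dom P.u ∧ 17 / 20 ≤ ‖cy j p 0‖ ^ 2) ∨
      (nsq p < 1 ∧ ∀ i, ‖p i‖ ^ 2 ≤ 17 / 20) := by
  rcases hp with ⟨j, h⟩ | h
  · by_cases h0 : 17 / 20 ≤ ‖cy j p 0‖ ^ 2
    · exact Or.inl ⟨j, h, h0⟩
    · right
      push Not at h0
      have h1 := (mem_dom_iff P (z := cy j p) (by linarith)).1 h.2
      refine ⟨by rwa [nsq_cy] at h1, fun i => ?_⟩
      have h2 : ∀ i, ‖cy j p i‖ ^ 2 ≤ 17 / 20 := by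
        intro i
        rw [nsq_three] at h1
        have := h.1.1
        have a1 := sq_nonneg ‖cy j p 1‖
        have a2 := sq_nonneg ‖cy j p 2‖
        fin_cases i
        · exact h0.le
        · change ‖cy j p 1‖ ^ 2 ≤ _; linarith
        · change ‖cy j p 2‖ ^ 2 ≤ _; linarith
      have h3 := h2 (i - j)
      rwa [cy_apply, sub_add_cancel] at h3
  · by_cases h0 : ∃ j, 17 / 20 ≤ ‖p j‖ ^ 2
    · obtain ⟨j, hj⟩ := h0
      have h1 := cy_mem_core h j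
      have h2 : 17 / 20 ≤ ‖cy j p 0‖ ^ 2 := by rwa [cy_apply, zero_add]
      refine Or.inl ⟨j, ⟨⟨by linarith, ?_⟩, (mem_dom_iff P (by linarith [h1.2 0])).2 h1.1⟩, h2⟩
      rw [← nsq_pr]
      exact pr_mem_B2 h1.1
    · push Not at h0
      exact Or.inr ⟨h.1, fun i => (h0 i).le⟩

theorem proper_Phi (c : ℝ) :
    ∃ K, IsCompact K ∧ K ⊆ UU P ∧ ∀ p ∈ UU P, Phi P p ≤ c → p ∈ K := by
  obtain ⟨r, t, hr, ht, h⟩ := P.proper c
  have hK0 := isCompact_sub (u := P.u) (fun z hz => (P.sm z hz).2.2) (t := t) hr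
  have hK1 : IsCompact ({p : E3 | nsq (pr p) ≤ r ∧ tt P.u p ≤ t} ∩ {p | 17 / 20 ≤ ‖p 0‖ ^ 2}) :=
    hK0.inter_right (isClosed_le (by fun_prop) (by fun_prop))
  have hK2 : IsCompact {p : E3 | nsq p ≤ 1 - Real.exp (-c) ∧ ∀ i, ‖p i‖ ^ 2 ≤ 17 / 20} := by
    refine (isCompact_closedBall (0 : E3) 1).of_isClosed_subset ?_ ?_
    · refine (isClosed_le continuous_nsq continuous_const).inter ?_
      have : {z : E3 | ∀ i, ‖z i‖ ^ 2 ≤ 17 / 20} = ⋂ i, {z : E3 | ‖z i‖ ^ 2 ≤ 17 / 20} := by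
        ext z; simp
      change IsClosed {z : E3 | ∀ i, ‖z i‖ ^ 2 ≤ 17 / 20}
      rw [this]
      exact isClosed_iInter fun i => isClosed_le (by fun_prop) (by fun_prop)
    · intro p hp
      rw [mem_closedBall_zero_iff, pi_norm_le_iff_of_nonneg zero_le_one]
      intro i
      have := hp.2 i
      nlinarith [norm_nonneg (p i)]
  refine ⟨(⋃ j, cy j ⁻¹' ({p : E3 | nsq (pr p) ≤ r ∧ tt P.u p ≤ t} ∩ {p | 17 / 20 ≤ ‖p 0‖ ^ 2})) ∪
    {p : E3 | nsq p ≤ 1 - Real.exp (-c) ∧ ∀ i, ‖p i‖ ^ 2 ≤ 17 / 20},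
    (isCompact_iUnion fun j => (cy j).toHomeomorph.isCompact_preimage.2 hK1).union hK2, ?_, ?_⟩
  · rintro p (hp | hp)
    · obtain ⟨j, ⟨h1, h2⟩, h3⟩ := mem_iUnion.1 hp
      have h4 : nsq (pr (cy j p)) < 1 := h1.trans_lt hr
      refine Or.inl ⟨j, ⟨?_, by rwa [← nsq_pr]⟩, h4, h2.trans_lt ht⟩
      have h5 : 17 / 20 ≤ ‖cy j p 0‖ ^ 2 := h3
      linarith
    · exact Or.inr ⟨by linarith [hp.1, Real.exp_pos (-c)], fun i => by linarith [hp.2 i]⟩
  · intro p hp hc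
    rcases mem_UU_cases P hp with ⟨j, h1, h2⟩ | ⟨h1, h2⟩
    · rw [Phi_of_mem P h1.1] at hc
      exact Or.inl (mem_iUnion.2 ⟨j, h _ h1.2 hc, h2⟩)
    · rw [Phi_core P h1 fun i => by linarith [h2 i]] at hc
      refine Or.inr ⟨?_, h2⟩
      have h3 : -c ≤ Real.log (1 - nsq p) := by linarith
      have h4 := (Real.le_log_iff_exp_le (by linarith)).1 h3
      linarith

open Classical in
/-- the deviation of the weight from the one of the ball -/
def VV (z : E2) : ℝ := if 4 / 5 < ‖z 0‖ ^ 2 ∧ nsq z < 1 then P.u z - psi z else 0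

theorem VV_eq_zero {z : E2} (h : ‖z 0‖ ^ 2 < 19 / 20 ∨ 1 / 5 < ‖z 1‖ ^ 2) : VV P z = 0 := by
  unfold VV
  split_ifs with h'
  · rcases h with h | h
    · rw [(P.core z h'.2 h).2.2, sub_self]
    · exfalso
      have := h'.2
      rw [nsq_two] at this
      linarith [h'.1]
  · rfl

theorem sm_psi {z : E2} (hz : z ∈ B2) : Sm psi z := by
  refine Sm.of_forall (fun q hq => ?_) isOpen_B2 hz
  have h1 : nsq q < 1 := hq
  exact ((contDiff_const.sub contDiff_nsq).contDiffAt.log (by linarith)).neg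

theorem sm_VV {z : E2} (h : z ∈ B2 ∨ ‖z 0‖ ^ 2 < 19 / 20 ∨ 1 / 5 < ‖z 1‖ ^ 2) : Sm (VV P) z := by
  by_cases h' : ‖z 0‖ ^ 2 < 19 / 20 ∨ 1 / 5 < ‖z 1‖ ^ 2
  · refine (Sm.const (0 : ℝ)).congr ?_
    have ho : IsOpen {z : E2 | ‖z 0‖ ^ 2 < 19 / 20 ∨ 1 / 5 < ‖z 1‖ ^ 2} :=
      IsOpen.union (s₁ := {z : E2 | ‖z 0‖ ^ 2 < 19 / 20}) (s₂ := {z : E2 | 1 / 5 < ‖z 1‖ ^ 2})
        (isOpen_lt (by fun_prop) (by fun_prop)) (isOpen_lt (by fun_prop) (by fun_prop))
    filter_upwards [ho.mem_nhds h'] with q hq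
    exact (VV_eq_zero P hq).symm
  · have hz := h.resolve_right h'
    push Not at h'
    refine ((P.sm z hz).2.2.sub (sm_psi hz)).congr ?_
    have ho : IsOpen {z : E2 | 4 / 5 < ‖z 0‖ ^ 2 ∧ nsq z < 1} :=
      IsOpen.and (isOpen_lt (by fun_prop) (by fun_prop)) (isOpen_lt continuous_nsq continuous_const)
    filter_upwards [ho.mem_nhds ⟨by linarith [h'.1], hz⟩] with q hq
    exact (if_pos hq).symm

theorem VV_pr_of_not_mem {z : E3} (h : z ∉ RR) : VV P (pr z) = 0 := by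
  unfold VV
  rw [if_neg]
  rw [nsq_pr]
  exact h

theorem VV_pr_of_mem {z : E3} (h : z ∈ RR) : VV P (pr z) = P.u (pr z) - psi (pr z) := by
  unfold VV
  rw [if_pos]
  rw [nsq_pr]
  exact h

/-- rescaling of the fibre coordinates -/
def SS (σ : ℝ) (z : E3) : E3 := fun i => Real.exp (σ * VV P (pr (cy (i + 1) z)) / 2) • z i

theorem cy_SS (σ : ℝ) (j : Fin 3) (z : E3) : cy j (SS P σ z) = SS P σ (cy j z) := by
  funext i
  simp only [cy_apply, SS, cy_cy]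
  rw [add_right_comm i j 1]

theorem SS_of_mem (σ : ℝ) {z : E3} (h : z ∈ RR) :
    SS P σ z = mk3 (pr z) (Real.exp (σ * VV P (pr z) / 2) • z 2) := by
  have h0 : cy 0 z ∈ RR := by rwa [cy_zero]
  have h1 : cy 1 z ∉ RR := fun h1 => absurd (RR_unique h0 h1) (by decide)
  have h2 : cy 2 z ∉ RR := fun h1 => absurd (RR_unique h0 h1) (by decide)
  funext i
  fin_cases i
  · change Real.exp (σ * VV P (pr (cy 1 z)) / 2) • z 0 = z 0
    rw [VV_pr_of_not_mem P h1]; simp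
  · change Real.exp (σ * VV P (pr (cy 2 z)) / 2) • z 1 = z 1
    rw [VV_pr_of_not_mem P h2]; simp
  · change Real.exp (σ * VV P (pr (cy 0 z)) / 2) • z 2 = Real.exp (σ * VV P (pr z) / 2) • z 2
    rw [cy_zero]

theorem SS_of_not_mem (σ : ℝ) {z : E3} (h : ∀ j, cy j z ∉ RR) : SS P σ z = z := by
  funext i
  unfold SS
  rw [VV_pr_of_not_mem P (h _)]; simp

theorem SS_mem_RR (σ : ℝ) {z : E3} (h : z ∈ RR) : SS P σ z ∈ RR := by
  rw [SS_of_mem P σ h]; exact h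

theorem pr_SS (σ : ℝ) {z : E3} (h : z ∈ RR) : pr (SS P σ z) = pr z := by
  rw [SS_of_mem P σ h, pr_mk3]

theorem SS_two (σ : ℝ) {z : E3} (h : z ∈ RR) :
    SS P σ z 2 = Real.exp (σ * VV P (pr z) / 2) • z 2 := by
  rw [SS_of_mem P σ h]; rfl

theorem SS_SS (σ : ℝ) (z : E3) : SS P (-σ) (SS P σ z) = z := by
  by_cases h : ∃ j, cy j z ∈ RR
  · obtain ⟨j, h⟩ := h
    apply (cy j).injective
    rw [cy_SS, cy_SS, SS_of_mem P _ (SS_mem_RR P σ h), pr_SS P σ h, SS_two P σ h, smul_smul,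
      ← Real.exp_add]
    have : -σ * VV P (pr (cy j z)) / 2 + σ * VV P (pr (cy j z)) / 2 = 0 := by ring
    rw [this, Real.exp_zero, one_smul, mk3_pr]
  · push Not at h
    rw [SS_of_not_mem P σ h, SS_of_not_mem P _ h]

theorem tt_SS (σ : ℝ) (u : E2 → ℝ) {z : E3} (h : z ∈ RR) :
    tt u (SS P σ z) = ‖z 2‖ ^ 2 * Real.exp (σ * VV P (pr z) + u (pr z)) := by
  unfold tt
  rw [pr_SS P σ h, SS_two P σ h, norm_smul, Real.norm_eq_abs, abs_of_pos (Real.exp_pos _), mul_pow,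
    ← Real.exp_nat_mul, Real.exp_add]
  have : ((2 : ℕ) : ℝ) * (σ * VV P (pr z) / 2) = σ * VV P (pr z) := by push_cast; ring
  rw [this]; ring

theorem SS_mem_UU {z : E3} (h : nsq z < 1) : SS P (-1) z ∈ UU P := by
  by_cases h' : ∃ j, cy j z ∈ RR
  · obtain ⟨j, h'⟩ := h'
    have h1 : cy j z ∈ dom psi := mem_dom_psi.2 (by rwa [nsq_cy])
    refine Or.inl ⟨j, ?_⟩
    rw [cy_SS]
    refine ⟨SS_mem_RR P _ h', by rw [pr_SS P _ h']; exact h1.1, ?_⟩
    rw [tt_SS P _ _ h', VV_pr_of_mem P h']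
    have h2 := h1.2
    unfold tt at h2
    convert h2 using 3; ring
  · push Not at h'
    rw [SS_of_not_mem P _ h']
    refine Or.inr ⟨h, fun i => ?_⟩
    by_contra hc
    push Not at hc
    refine h' i ⟨by rw [cy_apply, zero_add]; linarith, ?_⟩
    rw [← nsq_pr]
    exact pr_mem_B2 (by rwa [nsq_cy])

theorem nsq_SS_lt {p : E3} (h : p ∈ UU P) : nsq (SS P 1 p) < 1 := by
  have key : ∀ j, cy j p ∈ RR ∩ dom P.u → nsq (SS P 1 p) < 1 := by
    intro j hj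
    rw [← nsq_cy j, cy_SS, ← mem_dom_psi]
    refine ⟨by rw [pr_SS P _ hj.1]; exact hj.2.1, ?_⟩
    rw [tt_SS P _ _ hj.1, VV_pr_of_mem P hj.1]
    have h2 := hj.2.2
    unfold tt at h2
    convert h2 using 3; ring
  rcases h with ⟨j, h⟩ | h
  · exact key j h
  · by_cases h' : ∃ j, cy j p ∈ RR
    · obtain ⟨j, h'⟩ := h'
      have h1 := cy_mem_core h j
      exact key j ⟨h', (mem_dom_iff P (by linarith [h1.2 0])).2 h1.1⟩
    · push Not at h'
      rw [SS_of_not_mem P _ h']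
      exact h.1

theorem contDiffAt_SS (σ : ℝ) {p : E3} (h : ∀ j, Sm (VV P) (pr (cy j p))) :
    ContDiffAt ℝ ∞ (SS P σ) p := by
  refine contDiffAt_pi.2 fun i => ?_
  have h1 : ContDiffAt ℝ ∞ (fun z : E3 => VV P (pr (cy (i + 1) z))) p :=
    ContDiffAt.comp (g := VV P) (f := fun z : E3 => pr (cy (i + 1) z)) p (h (i + 1)).contDiffAt
      (contDiff_pr.comp (contDiff_cy (i + 1))).contDiffAt
  exact ((contDiffAt_const.mul h1).div_const 2).exp.smul (contDiff_apply ℝ ℂ i).contDiffAt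

theorem sm_VV_ball {p : E3} (h : nsq p < 1) (j : Fin 3) : Sm (VV P) (pr (cy j p)) :=
  sm_VV P (Or.inl (pr_mem_B2 (by rwa [nsq_cy])))

theorem sm_VV_UU {p : E3} (h : p ∈ UU P) (j : Fin 3) : Sm (VV P) (pr (cy j p)) := by
  rcases h with ⟨j', h⟩ | h
  · have key : ∀ q ∈ RR, ∀ i, Sm (VV P) (pr (cy i q)) := by
      intro q hq i
      have h1 := hq.1
      have h2 := hq.2
      refine sm_VV P ?_
      fin_cases i
      · left
        change nsq (pr (cy 0 q)) < 1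
        rwa [cy_zero, nsq_pr]
      · right; left
        change ‖q 1‖ ^ 2 < 19 / 20
        linarith
      · right; right
        change 1 / 5 < ‖q 0‖ ^ 2
        linarith
    have := key _ h.1 (j - j')
    rwa [cy_cy, sub_add_cancel] at this
  · exact sm_VV_ball P h.1 j

theorem exists_param_UU : ∃ Θ Ψ : E3 → E3, ContDiff ℝ ∞ Θ ∧ ContDiffOn ℝ ∞ Ψ (UU P) ∧
    Set.range Θ = UU P ∧ ∀ x, Ψ (Θ x) = x := by
  refine ⟨fun x => SS P (-1) (toBall x), fun p => ofBall (SS P 1 p), ?_, ?_, ?_, fun x => ?_⟩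
  · exact contDiff_iff_contDiffAt.2 fun x =>
      (contDiffAt_SS P _ (sm_VV_ball P (nsq_toBall_lt x))).comp x contDiff_toBall.contDiffAt
  · exact contDiffOn_ofBall.comp (fun p hp => (contDiffAt_SS P _ (sm_VV_UU P hp)).contDiffWithinAt)
      fun p hp => nsq_SS_lt P hp
  · ext p
    constructor
    · rintro ⟨x, rfl⟩
      exact SS_mem_UU P (nsq_toBall_lt x)
    · intro hp
      refine ⟨ofBall (SS P 1 p), ?_⟩
      simp only
      rw [toBall_ofBall (nsq_SS_lt P hp), SS_SS]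
  · have := SS_SS P (-1) (toBall x)
    rw [neg_neg] at this
    simp only
    rw [this, ofBall_toBall]

theorem vec_mem_core {a b c : ℂ} (ha : ‖a‖ < 1 / 2) (hb : ‖b‖ < 1 / 2) (hc : ‖c‖ < 1 / 2) :
    (![a, b, c] : E3) ∈ core := by
  have h : ∀ x : ℂ, ‖x‖ < 1 / 2 → ‖x‖ ^ 2 < 1 / 4 := fun x hx => by nlinarith [norm_nonneg x]
  refine ⟨?_, fun i => ?_⟩
  · rw [nsq_three]
    change ‖a‖ ^ 2 + ‖b‖ ^ 2 + ‖c‖ ^ 2 < 1
    linarith [h a ha, h b hb, h c hc]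
  · fin_cases i
    · change ‖a‖ ^ 2 < _; linarith [h a ha]
    · change ‖b‖ ^ 2 < _; linarith [h b hb]
    · change ‖c‖ ^ 2 < _; linarith [h c hc]

theorem mk3_mem_UU {z : E2} (hz : z ∈ B2) (h0 : 4 / 5 < ‖z 0‖ ^ 2) {w : ℂ}
    (hw : ‖w‖ ^ 2 * Real.exp (P.u z) < 1) : mk3 z w ∈ UU P := by
  refine Or.inl ⟨0, ?_⟩
  rw [cy_zero]
  refine ⟨⟨h0, ?_⟩, by rwa [pr_mk3], ?_⟩
  · have : nsq z < 1 := hz
    rwa [nsq_two] at this
  · unfold tt
    rw [pr_mk3]
    exact hw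

/-- a bounded holomorphic function does not depend on the last coordinate near the origin -/
theorem indep_last {f : E3 → ℂ} (hf : DifferentiableOn ℂ f (UU P)) {C : ℝ}
    (hC : ∀ p ∈ UU P, ‖f p‖ ≤ C) {a b c : ℂ} (ha : ‖a‖ < 1 / 2) (hb : ‖b‖ < 1 / 2)
    (hc : ‖c‖ < 1 / 2) : f ![a, b, c] = f ![a, b, 0] := by
  set Ω : Set E2 := {z | z ∈ B2 ∧ ‖z 1‖ < 1 / 2} with hΩ
  have hΩo : IsOpen Ω := IsOpen.and isOpen_B2 (isOpen_lt (by fun_prop) (by fun_prop))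
  have hΩc : Convex ℝ Ω := by
    have := convex_B2.inter ((convex_ball (0 : ℂ) (1 / 2)).linear_preimage
      (LinearMap.proj (R := ℝ) (φ := fun _ : Fin 2 => ℂ) 1))
    convert this using 1
    ext z
    simp [hΩ]
  have hΩU : ∀ z ∈ Ω, mk3 z 0 ∈ UU P := by
    intro z hz
    by_cases h0 : 4 / 5 < ‖z 0‖ ^ 2
    · exact mk3_mem_UU P hz.1 h0 (by simp)
    · push Not at h0
      refine Or.inr ⟨?_, fun i => ?_⟩
      · have : nsq z < 1 := hz.1
        rw [nsq_two] at this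
        rw [nsq_three]
        change ‖z 0‖ ^ 2 + ‖z 1‖ ^ 2 + ‖(0 : ℂ)‖ ^ 2 < 1
        simpa using this
      · fin_cases i
        · change ‖z 0‖ ^ 2 < _; linarith
        · change ‖z 1‖ ^ 2 < _; nlinarith [hz.2, norm_nonneg (z 1)]
        · change ‖(0 : ℂ)‖ ^ 2 < _; norm_num
  have hzero : ∀ k, 1 ≤ k → ∀ z ∈ Ω, coef f k z = 0 := by
    intro k hk
    have hH : Hol (coef f k) Ω := hol_coef (isOpen_UU P) hf hΩU k
    obtain ⟨z0, hz0, h0⟩ := P.kill k (k.factorial * C * 2 ^ k) (coef f k) hk hH (fun z hz h9 => by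
      have h1 := norm_coef_le hf hC (z := z) (r := Real.exp (-P.u z / 2)) (Real.exp_pos _)
        (fun w hw => mk3_mem_UU P hz (by linarith) (by
          have h2 : ‖w‖ ^ 2 < Real.exp (-P.u z / 2) ^ 2 :=
            pow_lt_pow_left₀ hw (norm_nonneg _) two_ne_zero
          have h3 : Real.exp (-P.u z / 2) ^ 2 * Real.exp (P.u z) = 1 := by
            rw [← Real.exp_nat_mul, ← Real.exp_add, Real.exp_eq_one_iff]; push_cast; ring
          rw [← h3]
          exact mul_lt_mul_of_pos_right h2 (Real.exp_pos _))) k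
      rw [← Real.exp_nat_mul, div_eq_mul_inv, ← Real.exp_neg] at h1
      convert h1 using 3; ring)
    exact hH.eq_zero hΩo hΩc hz0 h0
  have hz : (![a, b] : E2) ∈ Ω := ⟨pr_mem_B2 (vec_mem_core ha hb hc).1, hb⟩
  exact eq_of_coef_zero hf (z := ![a, b]) (r := 1 / 2)
    (fun w hw => Or.inr (vec_mem_core ha hb hw)) (fun k hk => hzero k hk _ hz) c hc

theorem liouville {f : E3 → ℂ} (hf : DifferentiableOn ℂ f (UU P))
    (hb : Bornology.IsBounded (f '' UU P)) : ∀ p ∈ UU P, ∀ q ∈ UU P, f p = f q := by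
  obtain ⟨C, hC⟩ := hb.exists_norm_le
  have key : ∀ j, ∀ a b c : ℂ, ‖a‖ < 1 / 2 → ‖b‖ < 1 / 2 → ‖c‖ < 1 / 2 →
      f (cy j ![a, b, c]) = f (cy j ![a, b, 0]) := fun j a b c ha hb hc =>
    indep_last P (f := fun p => f (cy j p))
      (hf.comp (cy j).differentiableOn fun p hp => cy_mem_UU P hp j)
      (fun p hp => hC _ ⟨_, cy_mem_UU P hp j, rfl⟩) ha hb hc
  have h0 : ‖(0 : ℂ)‖ < 1 / 2 := by norm_num
  have h0U : (0 : E3) ∈ UU P := by
    have : (0 : E3) = ![0, 0, 0] := by funext i; fin_cases i <;> rfl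
    rw [this]
    exact Or.inr (vec_mem_core h0 h0 h0)
  obtain ⟨Θ, Ψ, hΘ, -, hr, -⟩ := exists_param_UU P
  have hc : IsPreconnected (UU P) := hr ▸ isPreconnected_range hΘ.continuous
  have hall := const_of_eventually_const (isOpen_UU P) hc hf h0U (by
    filter_upwards [ball_mem_nhds (0 : E3) (show (0 : ℝ) < 1 / 2 by norm_num)] with q hq
    rw [mem_ball_zero_iff] at hq
    have hq' : ∀ i, ‖q i‖ < 1 / 2 := fun i => (norm_le_pi_norm q i).trans_lt hq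
    have e1 := key 0 (q 0) (q 1) (q 2) (hq' 0) (hq' 1) (hq' 2)
    have e2 := key 1 0 (q 0) (q 1) h0 (hq' 0) (hq' 1)
    have e3 := key 2 0 0 (q 0) h0 h0 (hq' 0)
    rw [cy_zero, cy_zero] at e1
    rw [cy_one_vec, cy_one_vec] at e2
    rw [cy_two_vec, cy_two_vec] at e3
    have e4 : q = ![q 0, q 1, q 2] := by funext i; fin_cases i <;> rfl
    have e5 : (0 : E3) = ![0, 0, 0] := by funext i; fin_cases i <;> rfl
    rw [e4, e5, e1, e2, e3])
  intro p hp q hq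
  rw [hall p hp, hall q hq]

end Glue
end
end Crest.Agent.R245
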