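import Crest.Agent.R245.Metric
import Crest.Agent.R245.Complete
import Crest.Agent.R245.Pull
import Crest.Agent.R245.Fibre
import Crest.Agent.R245.Ball
import Crest.Agent.R245.GlueAux

/-! Row 245: three modified caps of the ball. -/

open Complex Filter Topology Set Metric Matrix
open scoped ComplexConjugate ContDiff

namespace Crest.Agent.R245
noncomputable section

open Crest.GeometryTopology

theorem glue (P : BaseData) : ∃ U : Set (Fin 3 → ℂ), IsOpen U ∧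
      (∃ Φ Ψ : (Fin 3 → ℂ) → (Fin 3 → ℂ), ContDiff ℝ ∞ Φ ∧ ContDiffOn ℝ ∞ Ψ U ∧
        Set.range Φ = U ∧ ∀ x, Ψ (Φ x) = x) ∧
      ∃ g : HermitianMetricOn 3 U, g.IsKahler ∧ g.IsComplete ∧
        (∀ p ∈ U, ∀ X Y : (Fin 3 → ℂ), g.riem p X X * g.riem p Y Y - g.riem p X Y ^ 2 ≠ 0 →
          g.sectional p X Y ≤ -1) ∧
        (∀ B : ℝ, ∃ p ∈ U, ∃ X Y : (Fin 3 → ℂ),
          g.riem p X X * g.riem p Y Y - g.riem p X Y ^ 2 ≠ 0 ∧ g.sectional p X Y < B) ∧
        ∀ f : (Fin 3 → ℂ) → ℂ, DifferentiableOn ℂ f U → Bornology.IsBounded (f '' U) →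
          ∀ p ∈ U, ∀ q ∈ U, f p = f q := by
  have hc := P.c_pos
  have hU := Glue.isOpen_UU P
  have hgood : ∀ p ∈ Glue.UU P, Good (fun q => P.c * Glue.Phi P q) p 1 (P.L * Real.sqrt P.c) := by
    intro p hp
    have := (Glue.good_Phi P hp).const_mul hc
    rwa [div_self hc.ne'] at this
  obtain ⟨g, hK, hriem, hneg, -, hvery⟩ :=
    exists_metric' hU (fun p hp => (hgood p hp).sm) (fun p hp => (hgood p hp).pos)
  obtain ⟨Θ, Ψ, hΘ, hΨ, hr, hi⟩ := Glue.exists_param_UU P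
  refine ⟨Glue.UU P, hU, ⟨Θ, Ψ, hΘ, hΨ, hr, hi⟩, g, hK, ?_,
    fun p hp X Y h => hneg p hp 1 (hgood p hp).neg X Y h, fun B => ?_,
    fun f hf hb => Glue.liouville P hf hb⟩
  · refine isComplete_of g hU (fun q => P.c * Glue.Phi P q) (fun p hp => (hgood p hp).sm)
      (2 * (P.L * Real.sqrt P.c)) (fun p hp X => ?_) (fun c => ?_) Θ hΘ hr
    · rw [fderiv_eq_J1 (hgood p hp).sm, hriem p hp, abs_mul, abs_two, mul_assoc]
      exact mul_le_mul_of_nonneg_left ((abs_re_le_norm _).trans ((hgood p hp).grad X)) zero_le_two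
    · obtain ⟨K, h1, h2, h3⟩ := Glue.proper_Phi P (c / P.c)
      exact ⟨K, h1, h2, fun p hp h => h3 p hp (by rwa [le_div_iff₀' hc])⟩
  · obtain ⟨p, hp, hv⟩ := Glue.very_Phi P (P.c * (1 - B))
    have h1 := hv.const_mul (Glue.good_Phi P hp).sm hc
    rw [mul_div_cancel_left₀ _ hc.ne'] at h1
    obtain ⟨X, Y, h2, h3⟩ := hvery p hp _ h1
    exact ⟨p, hp, X, Y, h2, by linarith⟩

end
end Crest.Agent.R245
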