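import Crest.Agent.R245.FrameJB
import Crest.Agent.R245.AlgW
import Crest.Agent.R245.AlgT

/-! Row 245: the curvature estimates at an arbitrary point of the disc bundle. -/

open Complex Filter Topology Set Metric Matrix
open scoped ComplexConjugate ContDiff

namespace Crest.Agent.R245
noncomputable section

/-- a quadratic polynomial -/
def nrmQ (c a0 a1 a00 a01 a11 : ℂ) (y : E2) : ℂ :=
  c + (a0 * y 0 + a1 * y 1) + (a00 * (y 0 * y 0) + a01 * (y 0 * y 1) + a11 * (y 1 * y 1))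

theorem nrm_analytic (c a0 a1 a00 a01 a11 : ℂ) (y : E2) :
    AnalyticAt ℂ (nrmQ c a0 a1 a00 a01 a11) y :=
  (analyticAt_const.add ((analyticAt_const.mul (fjb_an 0 y)).add
    (analyticAt_const.mul (fjb_an 1 y)))).add
    (((analyticAt_const.mul ((fjb_an 0 y).mul (fjb_an 0 y))).add
      (analyticAt_const.mul ((fjb_an 0 y).mul (fjb_an 1 y)))).add
      (analyticAt_const.mul ((fjb_an 1 y).mul (fjb_an 1 y))))

theorem nrm_fderiv (c a0 a1 a00 a01 a11 : ℂ) (y Z : E2) :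
    fderiv ℂ (nrmQ c a0 a1 a00 a01 a11) y Z =
      nrmQ (a0 * Z 0 + a1 * Z 1) (2 * a00 * Z 0 + a01 * Z 1) (a01 * Z 0 + 2 * a11 * Z 1) 0 0 0 y := by
  have h0 := hasFDerivAt_apply (𝕜 := ℂ) (F' := fun _ : Fin 2 => ℂ) 0 y
  have h1 := hasFDerivAt_apply (𝕜 := ℂ) (F' := fun _ : Fin 2 => ℂ) 1 y
  have h := (((h0.const_mul a0).add (h1.const_mul a1)).const_add c).add
    ((((h0.mul h0).const_mul a00).add ((h0.mul h1).const_mul a01)).add ((h1.mul h1).const_mul a11))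
  have h' : HasFDerivAt (nrmQ c a0 a1 a00 a01 a11) _ y := h
  rw [h'.fderiv]
  simp [nrmQ]
  ring

theorem nrm_decomp (X : E2) : X = X 0 • (Pi.single 0 1 : E2) + X 1 • (Pi.single 1 1 : E2) := by
  funext i
  fin_cases i <;> simp

theorem nrm_an3 (i : Fin 3) (q : E3) : AnalyticAt ℂ (fun q : E3 => q i) q :=
  (ContinuousLinearMap.proj (R := ℂ) (φ := fun _ : Fin 3 => ℂ) i).analyticAt q

theorem nrm_an_pr (q : E3) : AnalyticAt ℂ pr q := by
  refine analyticAt_pi_iff.mpr fun i => ?_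
  fin_cases i
  · exact nrm_an3 0 q
  · exact nrm_an3 1 q

/-- normalisation: a holomorphic map sending `(0,w)` to `p` in which the weight is normalised -/
theorem exists_normal {b d u : E2 → ℝ} {p : E3} {G : M3} (hG : IsU G) (hp0 : act G 0 = pr p)
    (hp : p ∈ dom u) (hu : Sm u (pr p)) :
    ∃ (φ : E3 → E3) (u' : E2 → ℝ) (w : ℂ), ‖w‖ < 1 ∧ AnalyticAt ℂ φ (mk3 0 w) ∧ φ (mk3 0 w) = p ∧
      Sm u' 0 ∧ u' 0 = 0 ∧ (∀ X, J1 u' 0 X = 0) ∧ (∀ X Z, J20 u' 0 X Z = 0) ∧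
      jetsOf u' 0 = jetsOf (fun y => u (act G y)) 0 ∧
      (fun q => pot b d u (φ q)) = pot (fun y => b (act G y)) (fun y => d (act G y)) u' := by
  set U : E2 → ℝ := fun y => u (act G y) with hU
  have hUs : Sm U 0 := Sm.comp (g := u) (f := act G) (hp0 ▸ hu) (hG.sm_act zero_mem_B2)
  set e0 : E2 := Pi.single 0 1 with he0
  set e1 : E2 := Pi.single 1 1 with he1
  set h : E2 → ℂ := nrmQ (-(U 0 : ℂ)) (-(2 * J1 U 0 e0)) (-(2 * J1 U 0 e1)) (-J20 U 0 e0 e0)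
    (-(2 * J20 U 0 e0 e1)) (-J20 U 0 e1 e1) with hh
  have han : ∀ y, AnalyticAt ℂ h y := fun y => nrm_analytic _ _ _ _ _ _ y
  have hre : Sm (fun y => (h y).re) (0 : E2) := (Sm.of_analyticAt (han 0)).re
  have h0 : h 0 = -(U 0 : ℂ) := by simp [hh, nrmQ]
  have hnorm : ∀ (z : ℂ) (y : E2), ‖z * Complex.exp (h y / 2)‖ ^ 2 = ‖z‖ ^ 2 * Real.exp (h y).re := by
    intro z y
    rw [norm_mul, mul_pow, Complex.norm_exp, sq (Real.exp _), ← Real.exp_add]
    congr 2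
    simp
  refine ⟨fun q => mk3 (act G (pr q)) (q 2 * Complex.exp (h (pr q) / 2)),
    fun y => U y + (h y).re, p 2 * Complex.exp (-(h 0 / 2)), ?_, ?_, ?_, hUs.add hre, ?_, ?_, ?_,
    ?_, ?_⟩
  · have h1 : ‖p 2 * Complex.exp (-(h 0 / 2))‖ ^ 2 = tt u p := by
      rw [norm_mul, mul_pow, Complex.norm_exp, sq (Real.exp _), ← Real.exp_add, h0]
      unfold tt
      congr 2
      simp [hU, hp0]
      ring
    have h2 : tt u p < 1 := hp.2
    rw [← h1] at h2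
    exact (sq_lt_one_iff₀ (norm_nonneg _)).mp h2
  · have ha : AnalyticAt ℂ (fun q : E3 => act G (pr q)) (mk3 0 (p 2 * Complex.exp (-(h 0 / 2)))) := by
      refine AnalyticAt.comp (g := act G) (f := pr) ?_ (nrm_an_pr _)
      rw [pr_mk3]
      exact hG.analyticAt zero_mem_B2
    refine analyticAt_pi_iff.mpr fun i => ?_
    fin_cases i
    · exact analyticAt_pi_iff.mp ha 0
    · exact analyticAt_pi_iff.mp ha 1
    · exact (nrm_an3 2 _).mul (((han _).comp (nrm_an_pr _)).div_const).cexp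
  · simp only [pr_mk3]
    rw [hp0]
    have : mk3 (0 : E2) (p 2 * Complex.exp (-(h 0 / 2))) 2 * Complex.exp (h 0 / 2) = p 2 := by
      change p 2 * Complex.exp (-(h 0 / 2)) * Complex.exp (h 0 / 2) = p 2
      rw [mul_assoc, ← Complex.exp_add]
      simp
    rw [this, mk3_pr]
  · simp [h0]
  · intro X
    rw [J1_add hUs hre, J1_re (han 0), hh, nrm_fderiv]
    conv_lhs => rw [nrm_decomp X]
    rw [J1_add_vec, J1_smul_vec, J1_smul_vec]
    simp [nrmQ, he0, he1]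
    ring
  · intro X Z
    rw [J20_add hUs hre, J20_re (han 0), hh]
    simp only [nrm_fderiv]
    have e : J20 U 0 X Z = X 0 * (Z 0 * J20 U 0 e0 e0 + Z 1 * J20 U 0 e0 e1) +
        X 1 * (Z 0 * J20 U 0 e0 e1 + Z 1 * J20 U 0 e1 e1) := by
      conv_lhs => rw [nrm_decomp X]
      rw [J20_add_vec, J20_smul_vec, J20_smul_vec, J20_symm hUs e0 Z, J20_symm hUs e1 Z]
      conv_lhs => rw [nrm_decomp Z]
      rw [J20_add_vec, J20_smul_vec, J20_smul_vec, J20_add_vec, J20_smul_vec, J20_smul_vec,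
        J20_symm hUs e1 e0]
    rw [e]
    simp [nrmQ]
    ring
  · unfold jetsOf
    congr 1
    · funext X Y
      rw [Lv_add hUs hre, Lv_re (han 0), add_zero]
    · funext X Z Y
      rw [T3_add hUs hre, T3_re (han 0), add_zero]
    · funext X Z Y W
      rw [Q4_add hUs hre, Q4_re (han 0), add_zero]
  · funext q
    unfold pot tt
    simp only [pr_mk3]
    have : mk3 (act G (pr q)) (q 2 * Complex.exp (h (pr q) / 2)) 2 =
      q 2 * Complex.exp (h (pr q) / 2) := rfl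
    rw [this, hnorm, Real.exp_add]
    congr 4
    ring

/-- the reduction to the algebraic statements -/
theorem nrm_setup {b d u : E2 → ℝ} {p : E3} {G : M3} (hG : IsU G) (hp0 : act G 0 = pr p)
    (hp : p ∈ dom u) (hb : Sm b (pr p)) (hd : Sm d (pr p)) (hu : Sm u (pr p)) {B U : BJ} {Dj : DJ}
    (eB : jetsOf (fun y => b (act G y)) 0 = B) (eU : jetsOf (fun y => u (act G y)) 0 = U)
    (eD : djetsOf (fun y => d (act G y)) 0 = Dj) :
    ∃ w : ℂ, ‖w‖ < 1 ∧ IsJet (totH w B U Dj) (totT w B U Dj) (totQ w B U Dj) ∧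
      (∀ c L, PosF (totH w B U Dj) → NegF (totH w B U Dj) (totT w B U Dj) (totQ w B U Dj) c →
        (∀ X, ‖J1 (fun y => b (act G y)) 0 (pr X) + Dj.d1 (pr X) * F0 w + Dj.d0 * F1 w X‖ ≤
          L * Real.sqrt (totH w B U Dj X X).re) → Good (pot b d u) p c L) ∧
      (∀ c, PosF (totH w B U Dj) → LowF (totH w B U Dj) (totT w B U Dj) (totQ w B U Dj) c →
        Low (pot b d u) p c) ∧
      (∀ c, PosF (totH w B U Dj) → VeryF (totH w B U Dj) (totT w B U Dj) (totQ w B U Dj) c →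
        Very (pot b d u) p c) := by
  obtain ⟨φ, u', w, hw, hφ, hφp, hu', h0, h1, h2, hj, hpot⟩ :=
    exists_normal (b := b) (d := d) hG hp0 hp hu
  have hb' : Sm (fun y => b (act G y)) 0 :=
    Sm.comp (g := b) (f := act G) (hp0 ▸ hb) (hG.sm_act zero_mem_B2)
  have hd' : Sm (fun y => d (act G y)) 0 :=
    Sm.comp (g := d) (f := act G) (hp0 ▸ hd) (hG.sm_act zero_mem_B2)
  obtain ⟨j1, j2, j3, j4⟩ := pot_jets hb' hd' hu' h0 h1 h2 hw
  rw [hj, eB, eU, eD] at j2 j3 j4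
  have hsm : Sm (pot b d u) (φ (mk3 0 w)) := by
    rw [hφp]
    exact sm_pot hb hd hu hp.2
  have hsm' : Sm (pot (fun y => b (act G y)) (fun y => d (act G y)) u') (mk3 0 w) := by
    rw [← hpot]
    exact Sm.comp (g := pot b d u) (f := φ) hsm (Sm.of_analyticAt hφ)
  have hJ := isJet_of_sm hsm'
  rw [j2, j3, j4] at hJ
  refine ⟨w, hw, hJ, fun c L hpos hneg hgrad => ?_, fun c hpos hlow => ?_, fun c hpos hv => ?_⟩
  · rw [← hφp]
    refine Good.of_pull hφ hsm ?_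
    rw [hpot]
    refine ⟨hsm', by rw [j2]; exact hpos, by rw [j2, j3, j4]; exact hneg, fun X => ?_⟩
    rw [j1, j2]
    subst eD
    exact hgrad X
  · rw [← hφp]
    refine Low.of_pull hφ hsm ?_ ?_
    · rw [hpot, j2]
      exact hpos
    · rw [hpot]
      unfold Low
      rw [j2, j3, j4]
      exact hlow
  · rw [← hφp]
    refine Very.of_pull hφ hsm ?_ ?_
    · rw [hpot, j2]
      exact hpos
    · rw [hpot]
      unfold Very
      rw [j2, j3, j4]
      exact hv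

theorem nrm_pull {α : Type*} {f g : E2 → α} {G : M3} {x : E2} (hG : IsU G) (hx : act G 0 = x)
    (h : f =ᶠ[𝓝 x] g) : (fun y => f (act G y)) =ᶠ[𝓝 0] fun y => g (act G y) := by
  have hc : Tendsto (act G) (𝓝 0) (𝓝 x) := hx ▸ (hG.sm_act zero_mem_B2).continuousAt
  exact hc.eventually h

theorem nrm_jetsOf_congr {f g : E2 → ℝ} {x : E2} (h : f =ᶠ[𝓝 x] g) : jetsOf f x = jetsOf g x := by
  unfold jetsOf
  rw [Lv_congr h, T3_congr h, Q4_congr h]

theorem nrm_sm_psi {G : M3} (hG : IsU G) : Sm (fun y => psi (act G y)) 0 :=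
  Sm.comp (g := psi) (f := act G) (sm_psi (hG.act_mem zero_mem_B2)) (hG.sm_act zero_mem_B2)

theorem nrm_sm_model {G : M3} (hG : IsU G) (μ C0 : ℝ) : Sm (fun y => μ * psi (act G y) + C0) 0 :=
  ((Sm.const μ).mul (nrm_sm_psi hG)).add (Sm.const C0)

theorem nrm_jetsOf_model {G : M3} (hG : IsU G) (μ C0 : ℝ) :
    jetsOf (fun y => μ * psi (act G y) + C0) 0 = std μ := by
  have h := hG.jetsOf_psi
  have hs := nrm_sm_psi hG
  have hs' : Sm (fun y => μ * psi (act G y)) 0 := (Sm.const μ).mul hs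
  have h1 : Lv (fun y => psi (act G y)) 0 = (std 1).H := congrArg BJ.H h
  have h2 : T3 (fun y => psi (act G y)) 0 = (std 1).T := congrArg BJ.T h
  have h3 : Q4 (fun y => psi (act G y)) 0 = (std 1).Q := congrArg BJ.Q h
  unfold jetsOf std
  congr 1
  · funext X Y
    rw [Lv_add hs' (Sm.const C0), Lv_const_mul hs, Lv_const, h1]
    simp [std]
  · funext X Z Y
    rw [T3_add hs' (Sm.const C0), T3_const_mul hs, T3_const, h2]
    simp [std]
  · funext X Z Y W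
    rw [Q4_add hs' (Sm.const C0), Q4_const_mul hs, Q4_const, h3]
    simp [std]

theorem nrm_djetsOf_const {d : E2 → ℝ} {δ : ℝ} (h : d =ᶠ[𝓝 0] fun _ => δ) :
    djetsOf d 0 = DJ.const δ := by
  unfold djetsOf DJ.const jetsOf
  rw [J1_congr h, J20_congr h, Lv_congr h, T3_congr h, Q4_congr h, h.eq_of_nhds]
  congr 1
  · funext X
    exact J1_const _ _ _
  · funext X Z
    exact J20_const _ _ _ _
  · congr 1
    · funext X Y
      exact Lv_const _ _ _ _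
    · funext X Z Y
      exact T3_const _ _ _ _ _
    · funext X Z Y W
      exact Q4_const _ _ _ _ _ _

/-- the jets of the model plus a perturbation -/
theorem nrm_near {G : M3} (hG : IsU G) (μ C0 : ℝ) {v : E2 → ℝ} {M : ℝ} (hv : JB v 0 M) :
    (jetsOf (fun y => μ * psi (act G y) + C0 + v y) 0).Near (std μ) M ∧
    ∀ X, ((jetsOf (fun y => μ * psi (act G y) + C0 + v y) 0).H X X).re =
      μ * nsq X + (Lv v 0 X X).re := by
  have h := nrm_jetsOf_model hG μ C0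
  have hs := nrm_sm_model hG μ C0
  have h1 : Lv (fun y => μ * psi (act G y) + C0) 0 = (std μ).H := congrArg BJ.H h
  have h2 : T3 (fun y => μ * psi (act G y) + C0) 0 = (std μ).T := congrArg BJ.T h
  have h3 : Q4 (fun y => μ * psi (act G y) + C0) 0 = (std μ).Q := congrArg BJ.Q h
  obtain ⟨n1, n2, n3⟩ := hv.near_zero
  refine ⟨⟨fun X Y => ?_, fun X Z Y => ?_, fun X Z Y W => ?_⟩, fun X => ?_⟩
  · have := n1 X Y
    simp only [jetsOf] at this ⊢
    rw [Lv_add hs hv.sm, h1]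
    simpa [std] using this
  · have := n2 X Z Y
    simp only [jetsOf] at this ⊢
    rw [T3_add hs hv.sm, h2]
    simpa [std] using this
  · have := n3 X Z Y W
    simp only [jetsOf] at this ⊢
    rw [Q4_add hs hv.sm, h3]
    simpa [std] using this
  · simp only [jetsOf]
    rw [Lv_add hs hv.sm, h1]
    simp [std, ip_self]

theorem nrm_negF_mono {V : Type*} [AddCommGroup V] [Module ℂ V] {H : V → V → ℂ}
    {T : V → V → V → ℂ} {Q : V → V → V → V → ℂ} (h : IsJet H T Q) (hp : PosF H) {c c' : ℝ}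
    (hc : c' ≤ c) (hn : NegF H T Q c) : NegF H T Q c' := by
  intro X Y G1 G2 G3 hs
  refine (hn X Y G1 G2 G3 hs).trans ?_
  exact mul_le_mul_of_nonneg_right (by linarith) (h.den_nonneg hp X Y)

theorem nrm_J1_model {G : M3} {μ : ℝ} (hμ : 0 ≤ μ) (C0 : ℝ) {C : ℝ}
    (hC : JB (fun y => psi (act G y)) 0 C) : JB (fun y => μ * psi (act G y) + C0) 0 (C * μ) := by
  have := (hC.const_mul μ).add_const C0
  rwa [abs_of_nonneg hμ, mul_comm] at this

theorem nrm_norm_J1 {f : E2 → ℝ} {C : ℝ} (h : JB f 0 C) (X : E2) : ‖J1 f 0 X‖ ≤ C * nr X :=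
  (h.norm_J1 X).trans (mul_le_mul_of_nonneg_left (norm_le_nr X) h.nonneg)

/-- the data common to the wild estimates -/
theorem nrm_wild {μ δ M C0 : ℝ} {b d u v : E2 → ℝ} {p : E3} {G : M3} (hG : IsU G)
    (hp0 : act G 0 = pr p) (hp : p ∈ dom u)
    (hb : b =ᶠ[𝓝 (pr p)] fun z => μ * psi z + C0) (hd : d =ᶠ[𝓝 (pr p)] fun _ => δ)
    (hu : u =ᶠ[𝓝 (pr p)] fun z => b z + v z) (hv : Sm v (pr p))
    (hvM : JB (fun y => v (act G y)) 0 M) (hpsh : ∀ X, 0 ≤ (Lv (fun y => v (act G y)) 0 X X).re) :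
    Sm b (pr p) ∧ Sm d (pr p) ∧ Sm u (pr p) ∧ jetsOf (fun y => b (act G y)) 0 = std μ ∧
      djetsOf (fun y => d (act G y)) 0 = DJ.const δ ∧
      ∃ U : BJ, jetsOf (fun y => u (act G y)) 0 = U ∧ IsJet U.H U.T U.Q ∧
        (∀ X, μ * nsq X ≤ (U.H X X).re) ∧ U.Near (std μ) M := by
  have sb : Sm b (pr p) := (((Sm.const μ).mul (sm_psi hp.1)).add (Sm.const C0)).congr hb.symm
  have sd : Sm d (pr p) := (Sm.const δ).congr hd.symm
  have su : Sm u (pr p) := (sb.add hv).congr hu.symm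
  have eb := nrm_pull hG hp0 hb
  have eu : (fun y => u (act G y)) =ᶠ[𝓝 0] fun y => μ * psi (act G y) + C0 + v (act G y) := by
    filter_upwards [nrm_pull hG hp0 hu, eb] with y h1 h2
    rw [h1, h2]
  obtain ⟨n1, n2⟩ := nrm_near hG μ C0 hvM
  rw [← nrm_jetsOf_congr eu] at n1 n2
  refine ⟨sb, sd, su, (nrm_jetsOf_congr eb).trans (nrm_jetsOf_model hG μ C0),
    nrm_djetsOf_const (nrm_pull hG hp0 hd), _, rfl, ?_, fun X => ?_, n1⟩
  · exact isJet_of_sm (Sm.comp (g := u) (f := act G) (hp0 ▸ su) (hG.sm_act zero_mem_B2))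
  · rw [n2]
    linarith [hpsh X]

theorem nrm_pos {μ δ : ℝ} {w : ℂ} {U : BJ} (hμ : 0 < μ) (hδ : 0 < δ) (hw : ‖w‖ < 1)
    (hpos : ∀ X, μ * nsq X ≤ (U.H X X).re) : PosF (totH w (std μ) U (DJ.const δ)) :=
  fun X hX => (nu2_pos hμ hδ hw hX).trans_le (nu2_le_totH hδ hw hpos X)

theorem exists_good : ∃ L cT : ℝ, 0 < cT ∧ cT ≤ 1 ∧
    (∀ (μ δ M C0 : ℝ) (b d u v : E2 → ℝ) (p : E3) (G : M3), IsU G → act G 0 = pr p → p ∈ dom u →
      0 < μ → μ ≤ 1 → 0 ≤ M → 0 < δ → δ ≤ μ ^ 7 / (10 ^ 12 * (1 + M) ^ 6) →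
      (b =ᶠ[𝓝 (pr p)] fun z => μ * psi z + C0) → (d =ᶠ[𝓝 (pr p)] fun _ => δ) →
      (u =ᶠ[𝓝 (pr p)] fun z => b z + v z) → Sm v (pr p) → JB (fun y => v (act G y)) 0 M →
      (∀ X, 0 ≤ (Lv (fun y => v (act G y)) 0 X X).re) → Good (pot b d u) p (1 / 64) L) ∧
    (∀ (μ κ C0 : ℝ) (b d u e : E2 → ℝ) (p : E3) (G : M3), IsU G → act G 0 = pr p → p ∈ dom u →
      0 < μ → μ ≤ 1 → 0 < d (pr p) → d (pr p) ≤ 1 → 0 ≤ κ → κ ≤ cT * (μ * d (pr p)) ^ 5 →
      (b =ᶠ[𝓝 (pr p)] fun z => μ * psi z + C0 + e z) → (u =ᶠ[𝓝 (pr p)] b) →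
      Sm e (pr p) → Sm d (pr p) → JB (fun y => e (act G y)) 0 κ → JB (fun y => d (act G y)) 0 κ →
      Good (pot b d u) p (1 / 64) L) := by
  obtain ⟨C, hC1, hC⟩ := exists_jb_psi
  obtain ⟨cT, hcT, hcT1, hT⟩ := algT
  refine ⟨2 * (C + 4), cT, hcT, hcT1, ?_, ?_⟩
  · intro μ δ M C0 b d u v p G hG hp0 hp hμ hμ1 hM hδ hδ1 hb hd hu hv hvM hpsh
    obtain ⟨sb, sd, su, eB, eD, U, eU, hU, hpos, hnear⟩ := nrm_wild hG hp0 hp hb hd hu hv hvM hpsh
    obtain ⟨w, hw, hJ, hgood, -, -⟩ := nrm_setup hG hp0 hp sb sd su eB eU eD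
    have hP := nrm_pos hμ hδ hw hpos
    have hδ2 : δ ≤ 1 := by
      refine hδ1.trans ?_
      have h1 : (1 : ℝ) ≤ (1 + M) ^ 6 := one_le_pow₀ (by linarith)
      rw [div_le_one (by positivity)]
      have h2 : μ ^ 7 ≤ 1 := pow_le_one₀ hμ.le hμ1
      nlinarith
    refine hgood _ _ hP
      (nrm_negF_mono hJ hP (by norm_num) (algW hμ hμ1 hM hδ hδ1 hw hU hpos hnear)) fun X => ?_
    have hb1 : ‖J1 (fun y => b (act G y)) 0 (pr X)‖ ≤ C * μ * nr (pr X) :=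
      nrm_norm_J1 ((nrm_J1_model hμ.le C0 (hC G hG)).congr (nrm_pull hG hp0 hb).symm) _
    have h1 := algGrad (κ := 0) (d1 := 0) hμ hμ1 hδ hδ2 le_rfl (by positivity) (by linarith) hw X
      hb1 (by simp)
    refine h1.trans ?_
    exact mul_le_mul (by linarith) (Real.sqrt_le_sqrt (nu2_le_totH hδ hw hpos X))
      (Real.sqrt_nonneg _) (by linarith)
  · intro μ κ C0 b d u e p G hG hp0 hp hμ hμ1 hd0 hd1 hκ hκ1 hb hu se sd hje hjd
    have sb : Sm b (pr p) :=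
      ((((Sm.const μ).mul (sm_psi hp.1)).add (Sm.const C0)).add se).congr hb.symm
    have su : Sm u (pr p) := sb.congr hu.symm
    have eb := nrm_pull hG hp0 hb
    obtain ⟨w, hw, hJ, hgood, -, -⟩ := nrm_setup hG hp0 hp sb sd su rfl
      (nrm_jetsOf_congr (nrm_pull hG hp0 hu)) rfl
    have n1 := (nrm_near hG μ C0 hje).1
    rw [← nrm_jetsOf_congr eb] at n1
    have e0 : (djetsOf (fun y => d (act G y)) 0).d0 = d (pr p) := by
      change d (act G 0) = _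
      rw [hp0]
    obtain ⟨hneg, hle⟩ := hT μ κ w _ (djetsOf (fun y => d (act G y)) 0) hμ hμ1 (e0 ▸ hd0)
      (e0 ▸ hd1) hκ (e0 ▸ hκ1) hw hJ n1 hjd.small
    rw [e0] at hle
    have hμd : μ * d (pr p) ≤ 1 := mul_le_one₀ hμ1 hd0.le hd1
    have hκ2 : κ ≤ μ * d (pr p) := by
      refine hκ1.trans ?_
      have h0 : 0 ≤ μ * d (pr p) := by positivity
      exact (mul_le_of_le_one_left (by positivity) hcT1).trans
        (pow_le_of_le_one h0 hμd (by norm_num))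
    have hκ3 : κ ≤ μ := hκ2.trans (mul_le_of_le_one_right hμ.le hd1)
    refine hgood _ _ (fun X hX => lt_of_lt_of_le (half_pos (nu2_pos hμ hd0 hw hX)) (hle X)) hneg
      fun X => ?_
    have hb1 : ‖J1 (fun y => b (act G y)) 0 (pr X)‖ ≤ (C + 1) * μ * nr (pr X) :=
      nrm_norm_J1 ((((nrm_J1_model hμ.le C0 (hC G hG)).add hje).congr eb.symm).mono
        (by linarith)) _
    have h1 := algGrad hμ hμ1 hd0 hd1 hκ hκ2 (by linarith) hw X hb1 (hjd.small.1 (pr X))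
    rw [e0]
    refine h1.trans ?_
    have h2 := hle X
    have h3 := nu2_nonneg hμ hd0 hw X
    have h4 : Real.sqrt (nu2 μ (d (pr p)) w X) ≤ 2 * Real.sqrt
        (totH w (jetsOf (fun y => b (act G y)) 0) (jetsOf (fun y => b (act G y)) 0)
          (djetsOf (fun y => d (act G y)) 0) X X).re := by
      rw [Real.sqrt_le_left (by positivity), mul_pow, Real.sq_sqrt (by linarith)]
      linarith
    have h5 := mul_le_mul_of_nonneg_left h4 (by linarith : 0 ≤ C + 1 + 3)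
    linarith

theorem exists_low {μ δ M : ℝ} (hμ : 0 < μ) (hμ1 : μ ≤ 1) (hM : 0 ≤ M) (hδ : 0 < δ) (hδ1 : δ ≤ 1) :
    ∃ B : ℝ, 0 ≤ B ∧ ∀ (C0 : ℝ) (b d u v : E2 → ℝ) (p : E3) (G : M3), IsU G → act G 0 = pr p →
      p ∈ dom u → (b =ᶠ[𝓝 (pr p)] fun z => μ * psi z + C0) → (d =ᶠ[𝓝 (pr p)] fun _ => δ) →
      (u =ᶠ[𝓝 (pr p)] fun z => b z + v z) → Sm v (pr p) → JB (fun y => v (act G y)) 0 M →
      (∀ X, 0 ≤ (Lv (fun y => v (act G y)) 0 X X).re) → Low (pot b d u) p B := by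
  obtain ⟨B, hB0, hB⟩ := algLow hμ hμ1 hM hδ hδ1
  refine ⟨B, hB0, ?_⟩
  intro C0 b d u v p G hG hp0 hp hb hd hu hv hvM hpsh
  obtain ⟨sb, sd, su, eB, eD, U, eU, hU, hpos, hnear⟩ := nrm_wild hG hp0 hp hb hd hu hv hvM hpsh
  obtain ⟨w, hw, -, -, hlow, -⟩ := nrm_setup hG hp0 hp sb sd su eB eU eD
  exact hlow _ (nrm_pos hμ hδ hw hpos) (hB w U hw hU hpos hnear)

theorem very_model {μ δ C0 : ℝ} {b d u : E2 → ℝ} {p : E3} (hμ : 0 < μ) (hδ : 0 < δ)
    (hp : p ∈ dom u) (hb : b =ᶠ[𝓝 (pr p)] fun z => μ * psi z + C0)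
    (hd : d =ᶠ[𝓝 (pr p)] fun _ => δ) (hu : u =ᶠ[𝓝 (pr p)] b) : Very (pot b d u) p (4 / δ) := by
  obtain ⟨G, hG, hp0⟩ := exists_frame hp.1
  have sb : Sm b (pr p) := (((Sm.const μ).mul (sm_psi hp.1)).add (Sm.const C0)).congr hb.symm
  have sd : Sm d (pr p) := (Sm.const δ).congr hd.symm
  have su : Sm u (pr p) := sb.congr hu.symm
  have eB := (nrm_jetsOf_congr (nrm_pull hG hp0 hb)).trans (nrm_jetsOf_model hG μ C0)
  have eU := (nrm_jetsOf_congr (nrm_pull hG hp0 hu)).trans eB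
  obtain ⟨w, hw, -, -, -, hv⟩ := nrm_setup hG hp0 hp sb sd su eB eU
    (nrm_djetsOf_const (nrm_pull hG hp0 hd))
  refine hv _ (nrm_pos hμ hδ hw fun X => ?_) (algVery hδ hw)
  simp [std, ip_self]

end
end Crest.Agent.R245
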