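import Crest.Agent.R245.Metric
import Crest.Agent.R245.Complete
import Crest.Agent.R245.Normal
import Crest.Agent.R245.TreeData
import Crest.Agent.R245.Fibre
import Crest.Agent.R245.Ball

/-! Row 245: S0378. -/

open Complex Filter Topology Set Metric Matrix
open scoped ComplexConjugate ContDiff

namespace Crest.Agent.R245
noncomputable section

open Crest.GeometryTopology

theorem main1 :
    ∃ U : Set (Fin 3 → ℂ), IsOpen U ∧ IsConnected U ∧ ContractibleSpace U ∧
      ∃ g : HermitianMetricOn 3 U, g.IsKahler ∧ g.IsComplete ∧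
        (∃ A B : ℝ, 0 < A ∧ A ≤ B ∧ ∀ p ∈ U, ∀ X Y : (Fin 3 → ℂ),
          g.riem p X X * g.riem p Y Y - g.riem p X Y ^ 2 ≠ 0 →
            -B ≤ g.sectional p X Y ∧ g.sectional p X Y ≤ -A) ∧
        ∀ F : (Fin 3 → ℂ) → (Fin 3 → ℂ), DifferentiableOn ℂ F U → Bornology.IsBounded (F '' U) →
          ∃ p ∈ U, (fderiv ℂ F p).det = 0 := by
  obtain ⟨T⟩ := exists_treeData (J := 1) le_rfl
  obtain ⟨L, cT, -, -, hW, -⟩ := exists_good
  have hM := T.M_nonneg
  set μ : ℝ := min T.μ0 1 with hμdef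
  have hμ : 0 < μ := lt_min T.μ0_pos one_pos
  have hμ1 : μ ≤ 1 := min_le_right _ _
  have hμ0 : μ ≤ T.μ0 := min_le_left _ _
  set δ : ℝ := μ ^ 7 / (10 ^ 12 * (1 + T.M) ^ 6) with hδdef
  have hδ : 0 < δ := by positivity
  have hδ1 : δ ≤ 1 := by
    rw [hδdef, div_le_one (by positivity)]
    have h1 : μ ^ 7 ≤ 1 := pow_le_one₀ hμ.le hμ1
    have h2 : (1 : ℝ) ≤ (1 + T.M) ^ 6 := one_le_pow₀ (by linarith)
    nlinarith
  obtain ⟨B, hB0, hLow⟩ := exists_low hμ hμ1 hM hδ hδ1
  let b : E2 → ℝ := fun z => μ * psi z + 0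
  let d : E2 → ℝ := fun _ => δ
  let u : E2 → ℝ := fun z => b z + T.v z
  have hb : ∀ z ∈ B2, Sm b z := fun z hz => ((Sm.const μ).mul (sm_psi hz)).add (Sm.const 0)
  have hu : ∀ z ∈ B2, Sm u z := fun z hz => (hb z hz).add (T.sm z hz)
  have hgood : ∀ p ∈ dom u, Good (pot b d u) p (1 / 64) L := by
    intro p hp
    obtain ⟨G, hG, hG0⟩ := exists_frame hp.1
    exact hW μ δ T.M 0 b d u T.v p G hG hG0 hp hμ hμ1 hM hδ le_rfl EventuallyEq.rfl
      EventuallyEq.rfl EventuallyEq.rfl (T.sm _ hp.1) (T.jb G hG) (T.psh G hG)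
  have hlow : ∀ p ∈ dom u, Low (pot b d u) p B := by
    intro p hp
    obtain ⟨G, hG, hG0⟩ := exists_frame hp.1
    exact hLow 0 b d u T.v p G hG hG0 hp EventuallyEq.rfl EventuallyEq.rfl EventuallyEq.rfl
      (T.sm _ hp.1) (T.jb G hG) (T.psh G hG)
  have hU : IsOpen (dom u) := isOpen_dom hu
  obtain ⟨Θ, Ψ, hΘ, hΨ, hr, hi⟩ := exists_param hu
  obtain ⟨hconn, hcontr⟩ := contractible_of_param hΘ.continuous hΨ.continuousOn hr hi
  obtain ⟨g, hK, hriem, hneg, hlo, -⟩ := exists_metric' hU (Φ := pot b d u)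
    (fun p hp => (hgood p hp).sm) (fun p hp => (hgood p hp).pos)
  refine ⟨dom u, hU, hconn, hcontr, g, hK, ?_, ⟨1 / 64, max B (1 / 64), by norm_num,
    le_max_right _ _, fun p hp X Y hXY => ⟨?_, hneg p hp _ (hgood p hp).neg X Y hXY⟩⟩, ?_⟩
  · refine isComplete_of g hU (pot b d u) (fun p hp => (hgood p hp).sm) (2 * L) ?_ ?_ Θ hΘ hr
    · intro p hp X
      rw [fderiv_eq_J1 (hgood p hp).sm, hriem p hp, abs_mul, abs_two, mul_assoc]
      exact mul_le_mul_of_nonneg_left ((Complex.abs_re_le_norm _).trans ((hgood p hp).grad X))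
        zero_le_two
    · intro c
      have hr1 : 1 - Real.exp (-(c / μ)) < 1 := by linarith [Real.exp_pos (-(c / μ))]
      have ht1 : 1 - Real.exp (-(c / δ)) < 1 := by linarith [Real.exp_pos (-(c / δ))]
      refine ⟨_, isCompact_sub hu (r := 1 - Real.exp (-(c / μ))) (t := 1 - Real.exp (-(c / δ))) hr1,
        fun p hp => ⟨hp.1.trans_lt hr1, hp.2.trans_lt ht1⟩, fun p hp hc => ?_⟩
      have h1 : nsq (pr p) < 1 := hp.1
      have h2 : tt u p < 1 := hp.2
      have h3 : 0 ≤ tt u p := mul_nonneg (sq_nonneg _) (Real.exp_pos _).le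
      have h4 : Real.log (1 - nsq (pr p)) ≤ 0 :=
        Real.log_nonpos (by linarith) (by linarith [nsq_nonneg (pr p)])
      have h5 : Real.log (1 - tt u p) ≤ 0 := Real.log_nonpos (by linarith) (by linarith)
      have hc' : μ * (-Real.log (1 - nsq (pr p))) + 0 + δ * (-Real.log (1 - tt u p)) ≤ c := hc
      have h6 : -(c / μ) ≤ Real.log (1 - nsq (pr p)) := by
        rw [neg_le, le_div_iff₀ hμ]
        nlinarith
      have h7 : -(c / δ) ≤ Real.log (1 - tt u p) := by
        rw [neg_le, le_div_iff₀ hδ]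
        nlinarith
      rw [Real.le_log_iff_exp_le (by linarith)] at h6 h7
      exact ⟨by linarith, by linarith⟩
  · exact (neg_le_neg (le_max_left _ _)).trans (hlo p hp B (hlow p hp) X Y hXY)
  · intro F hF hbd
    obtain ⟨C, hC⟩ := hbd.exists_norm_le
    have hzero : ∀ z ∈ B2, mk3 z 0 ∈ dom u := by
      intro z hz
      refine ⟨by rwa [pr_mk3], ?_⟩
      simp [tt, mk3]
    have h0 := hzero 0 zero_mem_B2
    refine ⟨mk3 0 0, h0, ?_⟩
    have hFd : DifferentiableAt ℂ F (mk3 0 0) := hF.differentiableAt (hU.mem_nhds h0)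
    have key : fderiv ℂ F (mk3 0 0) (mk3 0 1) = 0 := by
      funext i
      have hFi : DifferentiableOn ℂ (fun p => F p i) (dom u) := differentiableOn_pi.1 hF i
      have hCi : ∀ p ∈ dom u, ‖F p i‖ ≤ C := fun p hp =>
        (norm_le_pi_norm (F p) i).trans (hC _ (mem_image_of_mem F hp))
      have hhol : Hol (coef (fun p => F p i) 1) (Wset T.s) :=
        hol_coef hU hFi (fun z hz => hzero z hz.1) 1
      have hk := T.kill μ (1 / 2) (2 * C) _ hμ.le hμ0 le_rfl (by norm_num) hhol fun z hz => by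
        have h1 := norm_coef_le hFi hCi (z := z) (r := Real.exp (-(u z / 2))) (Real.exp_pos _)
          (fun w hw => by
            refine ⟨by rw [pr_mk3]; exact hz.1, ?_⟩
            have e : tt u (mk3 z w) = ‖w‖ ^ 2 * Real.exp (u z) := by
              rw [tt, pr_mk3]
              simp [mk3]
            have h2 : ‖w‖ ^ 2 < Real.exp (-(u z / 2)) ^ 2 :=
              pow_lt_pow_left₀ hw (norm_nonneg _) two_ne_zero
            have h3 : Real.exp (-(u z / 2)) ^ 2 * Real.exp (u z) = 1 := by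
              rw [← Real.exp_nat_mul, ← Real.exp_add]
              simp only [Nat.cast_ofNat, Real.exp_eq_one_iff]
              ring
            rw [e, ← h3]
            exact mul_lt_mul_of_pos_right h2 (Real.exp_pos _)) 1
        refine h1.trans (le_of_eq ?_)
        have e : 1 / 2 * (μ * psi z + T.v z) = u z / 2 := by
          simp only [u, b]
          ring
        rw [e, Real.exp_neg]
        simp only [Nat.factorial_one, Nat.cast_one, pow_one, div_inv_eq_mul]
        ring
      have h2 := hk.self_of_nhds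
      rw [coef_one (differentiableAt_pi.1 hFd i), fderiv_apply hFd] at h2
      simpa using h2
    by_contra hdet
    have hinj : Function.Injective (fderiv ℂ F (mk3 0 0)) :=
      (LinearMap.equivOfDetNeZero _ hdet).injective
    have h3 : mk3 0 1 = 0 := hinj (by rw [key, map_zero])
    have := congrFun h3 2
    simp [mk3] at this

end
end Crest.Agent.R245
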