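import Crest.Agent.R245.Wirt
import Crest.Agent.R245.Alg0

/-! Row 245: the Kähler metric of a potential and its sectional curvature. -/

open Complex Filter Topology Set Metric Matrix
open scoped ComplexConjugate ContDiff

namespace Crest.Agent.R245
noncomputable section

open Crest.GeometryTopology

theorem met_lin {n : ℕ} (φ : (Fin n → ℂ) → ℂ) (hadd : ∀ X X', φ (X + X') = φ X + φ X')
    (hsmul : ∀ (c : ℂ) X, φ (c • X) = c * φ X) (X : Fin n → ℂ) :
    φ X = ∑ i, X i * φ (stdVec i) := by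
  let f : (Fin n → ℂ) →ₗ[ℂ] ℂ := ⟨⟨φ, hadd⟩, hsmul⟩
  have h : f X = ∑ i, X i * f (stdVec i) := by
    conv_lhs => rw [pi_eq_sum_univ' X, map_sum]
    exact Finset.sum_congr rfl fun i _ => hsmul _ _
  exact h

theorem met_alin {n : ℕ} (φ : (Fin n → ℂ) → ℂ) (hadd : ∀ X X', φ (X + X') = φ X + φ X')
    (hsmul : ∀ (c : ℂ) X, φ (c • X) = conj c * φ X) (X : Fin n → ℂ) :
    φ X = ∑ i, conj (X i) * φ (stdVec i) := by
  have h := met_lin (fun X => conj (φ X)) (fun X X' => by simp [hadd])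
    (fun c X => by simp [hsmul]) X
  simpa [map_sum] using congrArg conj h

theorem met_herm {n : ℕ} {H : (Fin n → ℂ) → (Fin n → ℂ) → ℂ} {T Q} (h : IsJet H T Q)
    (X Y : Fin n → ℂ) : ∑ i, ∑ j, H (stdVec i) (stdVec j) * X i * conj (Y j) = H X Y := by
  rw [met_lin (fun X => H X Y) (fun _ _ => h.H_add _ _ _) (fun _ _ => h.H_smul _ _ _) X]
  refine Finset.sum_congr rfl fun i _ => ?_
  rw [met_alin (H (stdVec i)) (h.H_add_right _) (fun _ _ => h.H_smul_right _ _ _) Y,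
    Finset.mul_sum]
  exact Finset.sum_congr rfl fun j _ => by ring

theorem met_diff_det {E : Type*} [NormedAddCommGroup E] [NormedSpace ℝ E] {n : ℕ}
    {A : E → Matrix (Fin n) (Fin n) ℂ} {p : E}
    (h : ∀ i j, DifferentiableAt ℝ (fun q => A q i j) p) :
    DifferentiableAt ℝ (fun q => (A q).det) p := by
  simp only [Matrix.det_apply']
  exact DifferentiableAt.fun_sum fun σ _ => (differentiableAt_const _).mul
    (HasFDerivAt.finsetProd fun i _ => (h (σ i) i).hasFDerivAt).differentiableAt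

theorem met_diff_inv {E : Type*} [NormedAddCommGroup E] [NormedSpace ℝ E] {n : ℕ}
    {A : E → Matrix (Fin n) (Fin n) ℂ} {p : E}
    (h : ∀ i j, DifferentiableAt ℝ (fun q => A q i j) p) (hd : (A p).det ≠ 0) (i j : Fin n) :
    DifferentiableAt ℝ (fun q => (A q)⁻¹ i j) p := by
  simp only [Matrix.inv_def, Ring.inverse_eq_inv', Matrix.smul_apply, smul_eq_mul,
    Matrix.adjugate_apply]
  refine ((met_diff_det h).inv hd).mul (met_diff_det fun a b => ?_)
  simp only [Matrix.updateRow_apply]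
  split_ifs
  · exact differentiableAt_const _
  · exact h _ _

theorem met_fderiv_Lv {E : Type*} [NormedAddCommGroup E] [NormedSpace ℝ E] [NormedSpace ℂ E]
    [IsScalarTower ℝ ℂ E] {Φ : E → ℝ} {p : E} (h : Sm Φ p) (X Y Z : E) :
    fderiv ℝ (D Y (Db Z (cx Φ))) p X = T3 Φ p X Y Z + conj (T3 Φ p Z X Y) := by
  rw [fderiv_eq_D_add_Db, ← j12_cx h]
  rfl

section
variable {n : ℕ} {U : Set (Fin n → ℂ)} {Φ : (Fin n → ℂ) → ℝ} {g : HermitianMetricOn n U}
  (hU : IsOpen U) (hs : ∀ p ∈ U, Sm Φ p) (hp : ∀ p ∈ U, PosF (Lv Φ p))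
  (hg : ∀ i j, g.h i j = D (stdVec i) (Db (stdVec j) (cx Φ)))
include hs hg

theorem met_herm_eq {p : Fin n → ℂ} (h : p ∈ U) (X Y : Fin n → ℂ) :
    g.herm p X Y = Lv Φ p X Y := by
  rw [← met_herm (isJet_of_sm (hs p h))]
  simp only [HermitianMetricOn.herm, hg]
  rfl

include hU

theorem met_dRiem {p : Fin n → ℂ} (h : p ∈ U) (X Y Z : Fin n → ℂ) :
    g.dRiem p X Y Z = (T3 Φ p X Y Z).re + (T3 Φ p Z X Y).re := by
  have h1 : (fun q => g.riem q Y Z) =ᶠ[𝓝 p] reCLM ∘ D Y (Db Z (cx Φ)) := by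
    filter_upwards [hU.mem_nhds h] with q hq
    rw [HermitianMetricOn.riem, met_herm_eq hs hg hq]
    rfl
  have h2 := ((((hs p h).cx.Db Z).D Y).differentiableAt).hasFDerivAt
  rw [HermitianMetricOn.dRiem, h1.fderiv_eq, (reCLM.hasFDerivAt.comp p h2).fderiv]
  simp [met_fderiv_Lv (hs p h)]

theorem met_chr {p : Fin n → ℂ} (h : p ∈ U) (X Y : Fin n → ℂ) :
    g.christoffel p X Y = (Matrix.of fun i j => D (stdVec j) (Db (stdVec i) (cx Φ)) p)⁻¹ *ᵥ
      fun i => D X (D Y (Db (stdVec i) (cx Φ))) p := by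
  have hj := isJet_of_sm (hs p h)
  have h1 : ∀ Z, (g.dRiem p X Y Z + g.dRiem p Y X Z - g.dRiem p Z X Y) / 2 = (T3 Φ p X Y Z).re := by
    intro Z
    simp only [met_dRiem hU hs hg h]
    rw [hj.T_symm Y X Z, hj.T_symm Y Z X]
    ring
  simp only [HermitianMetricOn.christoffel, HermitianMetricOn.raise, h1, hg]
  congr 1
  funext i
  rw [hj.T_smul3]
  change _ = T3 Φ p X Y (stdVec i)
  apply Complex.ext <;> simp

include hp

omit hU hg in
theorem met_det {p : Fin n → ℂ} (h : p ∈ U) :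
    (Matrix.of fun i j => D (stdVec j) (Db (stdVec i) (cx Φ)) p).det ≠ 0 := by
  have hj := isJet_of_sm (hs p h)
  intro h0
  obtain ⟨v, hv, hv0⟩ := Matrix.exists_mulVec_eq_zero_iff.2 h0
  have h1 := hp p h v hv
  rw [← met_herm hj, Finset.sum_comm, Finset.sum_eq_zero] at h1
  · simp at h1
  · intro j _
    rw [← Finset.sum_mul]
    exact mul_eq_zero_of_left (congrFun hv0 j) _

theorem met_chr_spec {p : Fin n → ℂ} (h : p ∈ U) (X Y W : Fin n → ℂ) :
    Lv Φ p (g.christoffel p X Y) W = T3 Φ p X Y W := by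
  have hj := isJet_of_sm (hs p h)
  have h1 : (Matrix.of fun i j => D (stdVec j) (Db (stdVec i) (cx Φ)) p) *ᵥ g.christoffel p X Y =
      fun i => D X (D Y (Db (stdVec i) (cx Φ))) p := by
    rw [met_chr hU hs hg h, Matrix.mulVec_mulVec,
      Matrix.mul_nonsing_inv _ (met_det hs hp h).isUnit, Matrix.one_mulVec]
  rw [← met_herm hj, Finset.sum_comm,
    met_alin (T3 Φ p X Y) (hj.T_add3 _ _) (fun _ _ => hj.T_smul3 _ _ _ _) W]
  refine Finset.sum_congr rfl fun j _ => ?_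
  rw [← Finset.sum_mul, mul_comm]
  exact congrArg _ (congrFun h1 j)

theorem met_chr_diff {p : Fin n → ℂ} (h : p ∈ U) (X Y : Fin n → ℂ) :
    DifferentiableAt ℝ (fun q => g.christoffel q X Y) p := by
  have h1 : (fun q => g.christoffel q X Y) =ᶠ[𝓝 p] fun q =>
      (Matrix.of fun i j => D (stdVec j) (Db (stdVec i) (cx Φ)) q)⁻¹ *ᵥ
        fun i => D X (D Y (Db (stdVec i) (cx Φ))) q := by
    filter_upwards [hU.mem_nhds h] with q hq using met_chr hU hs hg hq X Y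
  refine DifferentiableAt.congr_of_eventuallyEq ?_ h1
  refine differentiableAt_pi.2 fun i => ?_
  simp only [Matrix.mulVec, dotProduct]
  exact DifferentiableAt.fun_sum fun j _ => (met_diff_inv
    (A := fun q => Matrix.of fun i j => D (stdVec j) (Db (stdVec i) (cx Φ)) q)
    (fun a b => (((hs p h).cx.Db _).D _).differentiableAt) (met_det hs hp h) i j).mul
    ((((hs p h).cx.Db _).D _).D _).differentiableAt

theorem met_chr_fderiv {p : Fin n → ℂ} (h : p ∈ U) (X Y Z W : Fin n → ℂ) :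
    Lv Φ p (fderiv ℝ (fun q => g.christoffel q Y Z) p X) W + T3 Φ p X (g.christoffel p Y Z) W +
      conj (T3 Φ p W X (g.christoffel p Y Z)) =
      D X (D Y (D Z (Db W (cx Φ)))) p + Q4 Φ p Y Z W X := by
  have hj := isJet_of_sm (hs p h)
  have h1 : D Y (D Z (Db W (cx Φ))) =ᶠ[𝓝 p] fun q =>
      ∑ i, g.christoffel q Y Z i * D (stdVec i) (Db W (cx Φ)) q := by
    filter_upwards [hU.mem_nhds h] with q hq
    have hq' := isJet_of_sm (hs q hq)
    exact (met_chr_spec hU hs hp hg hq Y Z W).symm.trans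
      (met_lin (fun X => Lv Φ q X W) (fun _ _ => hq'.H_add _ _ _) (fun _ _ => hq'.H_smul _ _ _) _)
  have h2 := (met_chr_diff hU hs hp hg h Y Z).hasFDerivAt
  have h3 := HasFDerivAt.fun_sum (u := Finset.univ) fun i _ => (hasFDerivAt_pi'.1 h2 i).mul
    ((((hs p h).cx.Db W).D (stdVec i)).differentiableAt).hasFDerivAt
  have h4 : fderiv ℝ (D Y (D Z (Db W (cx Φ)))) p X =
      D X (D Y (D Z (Db W (cx Φ)))) p + Q4 Φ p Y Z W X := fderiv_eq_D_add_Db _ _ _
  rw [← h4, h1.fderiv_eq]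
  erw [h3.fderiv]
  rw [met_lin (fun X => Lv Φ p X W) (fun _ _ => hj.H_add _ _ _) (fun _ _ => hj.H_smul _ _ _),
    hj.T_symm X,
    met_lin (fun Z => T3 Φ p Z X W) (fun _ _ => hj.T_add1 _ _ _ _) (fun _ _ => hj.T_smul1 _ _ _ _),
    met_alin (T3 Φ p W X) (hj.T_add3 _ _) (fun _ _ => hj.T_smul3 _ _ _ _), map_sum,
    ContinuousLinearMap.sum_apply, ← Finset.sum_add_distrib, ← Finset.sum_add_distrib]
  refine Finset.sum_congr rfl fun i _ => ?_
  simp only [ContinuousLinearMap.add_apply, ContinuousLinearMap.smul_apply, smul_eq_mul,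
    met_fderiv_Lv (hs p h), ContinuousLinearMap.comp_apply, ContinuousLinearMap.proj_apply, map_mul,
    conj_conj, hj.T_symm X (stdVec i)]
  change _ = _ + Lv Φ p (stdVec i) W * _
  ring

theorem met_curv {p : Fin n → ℂ} (h : p ∈ U) {X Y G1 G2 G3 : Fin n → ℂ}
    (hG : Solves (Lv Φ p) (T3 Φ p) X Y G1 G2 G3) :
    g.riem p (g.curvature p X Y Y) X = num (Lv Φ p) (Q4 Φ p) X Y G1 G2 G3 := by
  have hj := isJet_of_sm (hs p h)
  have e1 : g.christoffel p X Y = G1 := hj.solve_unique (hp p h) fun W => by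
    rw [met_chr_spec hU hs hp hg h, hG.1]
  have e3 : g.christoffel p Y Y = G3 := hj.solve_unique (hp p h) fun W => by
    rw [met_chr_spec hU hs hp hg h, hG.2.2]
  have a1 := met_chr_fderiv hU hs hp hg h X Y Y X
  have a2 := met_chr_fderiv hU hs hp hg h Y X Y X
  have a3 := (D_D_comm (((hs p h).cx.Db X).D Y) X Y).eq_of_nhds
  have hsub : ∀ A B W, Lv Φ p (A - B) W = Lv Φ p A W - Lv Φ p B W := by
    intro A B W
    rw [eq_sub_iff_add_eq, ← hj.H_add, sub_add_cancel]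
  rw [e3, ← hG.2.1, ← hj.H_symm] at a1
  rw [e1, hj.T_symm X Y G1, hj.T_symm Y X G1, ← hG.1 G1, ← hj.H_symm] at a2
  rw [HermitianMetricOn.riem, met_herm_eq hs hg h, HermitianMetricOn.curvature, hsub, hj.H_add,
    hsub, met_chr_spec hU hs hp hg h, met_chr_spec hU hs hp hg h, e1, e3, num]
  congr 1
  linear_combination a1 - a2 + a3

end

theorem exists_metric {n : ℕ} {U : Set (Fin n → ℂ)} (hU : IsOpen U) {Φ : (Fin n → ℂ) → ℝ}
    (hs : ∀ p ∈ U, Sm Φ p) (hp : ∀ p ∈ U, PosF (Lv Φ p)) :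
    ∃ g : HermitianMetricOn n U, g.IsKahler ∧ (∀ p ∈ U, ∀ X Y, g.herm p X Y = Lv Φ p X Y) ∧
      ∀ p ∈ U, ∀ X Y G1 G2 G3, Solves (Lv Φ p) (T3 Φ p) X Y G1 G2 G3 →
        g.riem p (g.curvature p X Y Y) X = num (Lv Φ p) (Q4 Φ p) X Y G1 G2 G3 := by
  let g : HermitianMetricOn n U :=
    { h := fun i j => D (stdVec i) (Db (stdVec j) (cx Φ))
      hermitian := fun p h i j => (isJet_of_sm (hs p h)).H_symm _ _
      posDef := fun p h X hX => by
        have := hp p h X hX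
        rwa [← met_herm (isJet_of_sm (hs p h))] at this
      smooth := fun i j p h => (((hs p h).cx.Db _).D _).contDiffAt.contDiffWithinAt }
  have hg : ∀ i j, g.h i j = D (stdVec i) (Db (stdVec j) (cx Φ)) := fun _ _ => rfl
  exact ⟨g, fun p h i j k => (isJet_of_sm (hs p h)).T_symm _ _ _,
    fun p h => met_herm_eq hs hg h, fun p h X Y G1 G2 G3 => met_curv hU hs hp hg h⟩

/-- the form used by the final theorems -/
theorem exists_metric' {n : ℕ} {U : Set (Fin n → ℂ)} (hU : IsOpen U) {Φ : (Fin n → ℂ) → ℝ}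
    (hs : ∀ p ∈ U, Sm Φ p) (hp : ∀ p ∈ U, PosF (Lv Φ p)) :
    ∃ g : HermitianMetricOn n U, g.IsKahler ∧ (∀ p ∈ U, ∀ X Y, g.riem p X Y = (Lv Φ p X Y).re) ∧
      (∀ p ∈ U, ∀ c : ℝ, NegF (Lv Φ p) (T3 Φ p) (Q4 Φ p) c → ∀ X Y,
        g.riem p X X * g.riem p Y Y - g.riem p X Y ^ 2 ≠ 0 → g.sectional p X Y ≤ -c) ∧
      (∀ p ∈ U, ∀ B : ℝ, Low Φ p B → ∀ X Y,
        g.riem p X X * g.riem p Y Y - g.riem p X Y ^ 2 ≠ 0 → -B ≤ g.sectional p X Y) ∧
      (∀ p ∈ U, ∀ B : ℝ, Very Φ p B → ∃ X Y,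
        g.riem p X X * g.riem p Y Y - g.riem p X Y ^ 2 ≠ 0 ∧ g.sectional p X Y ≤ -B) := by
  obtain ⟨g, hK, hH, hR⟩ := exists_metric hU hs hp
  have hr : ∀ p ∈ U, ∀ X Y, g.riem p X Y = (Lv Φ p X Y).re := fun p h X Y => by
    rw [HermitianMetricOn.riem, hH p h]
  have hd : ∀ p ∈ U, ∀ X Y, g.riem p X X * g.riem p Y Y - g.riem p X Y ^ 2 = den (Lv Φ p) X Y :=
    fun p h X Y => by simp only [hr p h, den]
  refine ⟨g, hK, hr, fun p h c hc X Y h0 => ?_, fun p h B hB X Y h0 => ?_, fun p h B hB => ?_⟩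
  · have hj := isJet_of_sm (hs p h)
    obtain ⟨G1, G2, G3, hG⟩ := hj.exists_solves (hp p h) X Y
    rw [hd p h] at h0
    rw [HermitianMetricOn.sectional, hR p h X Y G1 G2 G3 hG, hd p h,
      div_le_iff₀ (lt_of_le_of_ne (hj.den_nonneg (hp p h) X Y) h0.symm)]
    exact hc X Y G1 G2 G3 hG
  · have hj := isJet_of_sm (hs p h)
    obtain ⟨G1, G2, G3, hG⟩ := hj.exists_solves (hp p h) X Y
    rw [hd p h] at h0
    rw [HermitianMetricOn.sectional, hR p h X Y G1 G2 G3 hG, hd p h,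
      le_div_iff₀ (lt_of_le_of_ne (hj.den_nonneg (hp p h) X Y) h0.symm)]
    exact hB X Y G1 G2 G3 hG
  · obtain ⟨X, Y, G1, G2, G3, hG, h0, h1⟩ := hB
    refine ⟨X, Y, by rw [hd p h]; exact h0.ne', ?_⟩
    rw [HermitianMetricOn.sectional, hR p h X Y G1 G2 G3 hG, hd p h, div_le_iff₀ h0]
    exact h1

end
end Crest.Agent.R245
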