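import Crest.Agent.R245.Defs

/-! Row 245: basic Wirtinger calculus. -/

open Complex Filter Topology Set Metric Matrix
open scoped ComplexConjugate ContDiff

set_option linter.unusedSectionVars false

namespace Crest.Agent.R245
noncomputable section

section Smooth
variable {E G G' : Type*} [NormedAddCommGroup E] [NormedSpace ℝ E]
  [NormedAddCommGroup G] [NormedSpace ℝ G] [NormedAddCommGroup G'] [NormedSpace ℝ G']
  {p : E}

theorem Sm.contDiffAt {F : E → G} (h : Sm F p) : ContDiffAt ℝ ∞ F p :=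
  Filter.Eventually.self_of_nhds h
theorem Sm.differentiableAt {F : E → G} (h : Sm F p) : DifferentiableAt ℝ F p :=
  h.contDiffAt.differentiableAt (by simp)
theorem Sm.continuousAt {F : E → G} (h : Sm F p) : ContinuousAt F p :=
  h.contDiffAt.continuousAt
theorem Sm.eventually {F : E → G} (h : Sm F p) : ∀ᶠ q in 𝓝 p, Sm F q :=
  Filter.Eventually.eventually_nhds h
theorem Sm.congr {F F' : E → G} (h : Sm F p) (he : F =ᶠ[𝓝 p] F') : Sm F' p := by
  have h1 : ∀ᶠ q in 𝓝 p, ContDiffAt ℝ ∞ F q := h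
  filter_upwards [h1, he.eventuallyEq_nhds] with q hq hq'
  exact hq.congr_of_eventuallyEq hq'.symm
theorem Sm.of_contDiff {F : E → G} (h : ContDiff ℝ ∞ F) : Sm F p :=
  Filter.Eventually.of_forall fun _ => h.contDiffAt
theorem Sm.of_contDiffOn {F : E → G} {s : Set E} (h : ContDiffOn ℝ ∞ F s) (hs : IsOpen s)
    (hp : p ∈ s) : Sm F p := by
  filter_upwards [hs.mem_nhds hp] with q hq
  exact h.contDiffAt (hs.mem_nhds hq)
theorem Sm.of_forall {F : E → G} {s : Set E} (h : ∀ q ∈ s, ContDiffAt ℝ ∞ F q) (hs : IsOpen s)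
    (hp : p ∈ s) : Sm F p := by
  filter_upwards [hs.mem_nhds hp] with q hq
  exact h q hq
theorem Sm.const (c : G) : Sm (fun _ : E => c) p :=
  Sm.of_contDiff contDiff_const
theorem Sm.add {F F' : E → G} (h : Sm F p) (h' : Sm F' p) : Sm (fun q => F q + F' q) p := by
  have h1 : ∀ᶠ q in 𝓝 p, ContDiffAt ℝ ∞ F q := h
  have h2 : ∀ᶠ q in 𝓝 p, ContDiffAt ℝ ∞ F' q := h'
  filter_upwards [h1, h2] with q hq hq'
  exact hq.add hq'
theorem Sm.sub {F F' : E → G} (h : Sm F p) (h' : Sm F' p) : Sm (fun q => F q - F' q) p := by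
  have h1 : ∀ᶠ q in 𝓝 p, ContDiffAt ℝ ∞ F q := h
  have h2 : ∀ᶠ q in 𝓝 p, ContDiffAt ℝ ∞ F' q := h'
  filter_upwards [h1, h2] with q hq hq'
  exact hq.sub hq'
theorem Sm.neg {F : E → G} (h : Sm F p) : Sm (fun q => -F q) p := by
  have h1 : ∀ᶠ q in 𝓝 p, ContDiffAt ℝ ∞ F q := h
  filter_upwards [h1] with q hq
  exact hq.neg
theorem Sm.mul {A : Type*} [NormedRing A] [NormedAlgebra ℝ A] {F F' : E → A} (h : Sm F p)
    (h' : Sm F' p) : Sm (fun q => F q * F' q) p := by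
  have h1 : ∀ᶠ q in 𝓝 p, ContDiffAt ℝ ∞ F q := h
  have h2 : ∀ᶠ q in 𝓝 p, ContDiffAt ℝ ∞ F' q := h'
  filter_upwards [h1, h2] with q hq hq'
  exact hq.mul hq'
theorem Sm.comp {g : G → G'} {f : E → G} (hg : Sm g (f p)) (hf : Sm f p) :
    Sm (fun q => g (f q)) p := by
  have h1 : ∀ᶠ q in 𝓝 p, ContDiffAt ℝ ∞ f q := hf
  have h2 : ∀ᶠ q in 𝓝 p, ContDiffAt ℝ ∞ g (f q) := hf.continuousAt.tendsto.eventually hg
  filter_upwards [h1, h2] with q hq hq'
  exact hq'.comp q hq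
theorem Sm.cx {Φ : E → ℝ} (h : Sm Φ p) : Sm (cx Φ) p :=
  Sm.comp (g := fun x : ℝ => (x : ℂ)) (Sm.of_contDiff Complex.ofRealCLM.contDiff) h
theorem Sm.conj {F : E → ℂ} (h : Sm F p) : Sm (fun q => conj (F q)) p :=
  Sm.comp (g := fun x : ℂ => conj x) (Sm.of_contDiff Complex.conjCLE.contDiff) h
theorem Sm.re {F : E → ℂ} (h : Sm F p) : Sm (fun q => (F q).re) p :=
  Sm.comp (g := fun x : ℂ => x.re) (Sm.of_contDiff Complex.reCLM.contDiff) h
/-- a germ that is smooth near `p` is the germ of a globally smooth function -/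
theorem Sm.exists_global [FiniteDimensional ℝ E] {F : E → G} (h : Sm F p) :
    ∃ F' : E → G, ContDiff ℝ ∞ F' ∧ F =ᶠ[𝓝 p] F' := by
  have h1 : ∀ᶠ q in 𝓝 p, ContDiffAt ℝ ∞ F q := h
  obtain ⟨R, hR, hRs⟩ := Metric.eventually_nhds_iff_ball.1 h1
  let f : ContDiffBump p := ⟨R / 4, R / 2, by positivity, by linarith⟩
  refine ⟨fun q => f q • F q, ?_, ?_⟩
  · rw [contDiff_iff_contDiffAt]
    intro q
    by_cases hq : q ∈ ball p R
    · exact f.contDiff.contDiffAt.smul (hRs q hq)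
    · have hq' : q ∈ (closedBall p (R / 2))ᶜ := by
        intro hc
        exact hq (closedBall_subset_ball (by linarith) hc)
      have he : (fun q => f q • F q) =ᶠ[𝓝 q] fun _ => 0 := by
        filter_upwards [isClosed_closedBall.isOpen_compl.mem_nhds hq'] with y hy
        have : f y = 0 := by
          apply f.zero_of_le_dist
          have : ¬ dist y p ≤ R / 2 := hy
          exact (not_le.1 this).le
        simp [this]
      exact contDiffAt_const.congr_of_eventuallyEq he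
  · filter_upwards [f.eventuallyEq_one] with q hq
    simp [hq]

end Smooth

section Calc
variable {E : Type*} [NormedAddCommGroup E] [NormedSpace ℝ E] [NormedSpace ℂ E]
  [IsScalarTower ℝ ℂ E] {p : E} {F F' : E → ℂ} {Φ Φ' : E → ℝ}

theorem Sm.of_analyticAt {G : Type*} [NormedAddCommGroup G] [NormedSpace ℝ G] [NormedSpace ℂ G]
    [IsScalarTower ℝ ℂ G] [CompleteSpace G] {f : E → G} (h : AnalyticAt ℂ f p) : Sm f p := by
  filter_upwards [h.eventually_analyticAt] with q hq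
  exact (hq.contDiffAt (n := ∞)).restrict_scalars ℝ

theorem Wt.contDiffAt_fderiv_apply_aux (h : ContDiffAt ℝ ∞ F p) (X : E) :
    ContDiffAt ℝ ∞ (fun q => fderiv ℝ F q X) p :=
  (h.fderiv_right (m := ∞) (by simp)).clm_apply contDiffAt_const

theorem Wt.contDiffAt_D_aux (h : ContDiffAt ℝ ∞ F p) (X : E) : ContDiffAt ℝ ∞ (D X F) p :=
  ((Wt.contDiffAt_fderiv_apply_aux h X).sub
    (contDiffAt_const.mul (Wt.contDiffAt_fderiv_apply_aux h (I • X)))).div_const 2

theorem Wt.contDiffAt_Db_aux (h : ContDiffAt ℝ ∞ F p) (X : E) : ContDiffAt ℝ ∞ (Db X F) p :=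
  ((Wt.contDiffAt_fderiv_apply_aux h X).add
    (contDiffAt_const.mul (Wt.contDiffAt_fderiv_apply_aux h (I • X)))).div_const 2

theorem Wt.fderiv_conj_aux (F : E → ℂ) (q X : E) :
    fderiv ℝ (fun q => conj (F q)) q X = conj (fderiv ℝ F q X) := by
  have := Complex.conjCLE.comp_fderiv (f := F) (x := q)
  have h2 : (fun q => conj (F q)) = Complex.conjCLE ∘ F := rfl
  rw [h2, this]
  rfl

theorem Wt.fderiv_cx_aux (h : DifferentiableAt ℝ Φ p) (X : E) :
    fderiv ℝ (cx Φ) p X = (fderiv ℝ Φ p X : ℝ) := by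
  have h1 : HasFDerivAt (cx Φ) (Complex.ofRealCLM.comp (fderiv ℝ Φ p)) p :=
    Complex.ofRealCLM.hasFDerivAt.comp p h.hasFDerivAt
  rw [h1.fderiv]
  rfl

theorem Wt.fderiv_comp_real_aux {k : ℝ → ℝ} (hk : DifferentiableAt ℝ k (Φ p))
    (h : DifferentiableAt ℝ Φ p) (X : E) :
    fderiv ℝ (cx fun q => k (Φ q)) p X = (deriv k (Φ p) : ℝ) * fderiv ℝ (cx Φ) p X := by
  have h1 : HasFDerivAt (fun q => k (Φ q)) (deriv k (Φ p) • fderiv ℝ Φ p) p :=
    hk.hasDerivAt.comp_hasFDerivAt p h.hasFDerivAt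
  rw [Wt.fderiv_cx_aux h1.differentiableAt, Wt.fderiv_cx_aux h, h1.fderiv]
  simp

theorem Wt.coe_smul_aux (r : ℝ) (X : E) : (r : ℂ) • X = r • X := by
  rw [show (r : ℂ) = r • (1 : ℂ) by simp, smul_assoc, one_smul]

theorem Wt.I_smul_I_smul_aux (X : E) : I • I • X = -X := by
  rw [smul_smul, I_mul_I, neg_smul, one_smul]

theorem Wt.clm_smul_aux (L : E →L[ℝ] ℂ) (c : ℂ) (X : E) :
    L (c • X) = c.re * L X + c.im * L (I • X) := by
  conv_lhs => rw [← re_add_im c, add_smul, mul_smul, Wt.coe_smul_aux, Wt.coe_smul_aux]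
  simp

theorem Sm.symm_aux (h : Sm F p) (X Y : E) :
    fderiv ℝ (fderiv ℝ F) p X Y = fderiv ℝ (fderiv ℝ F) p Y X :=
  h.contDiffAt.isSymmSndFDerivAt
    (by rw [minSmoothness_of_isRCLikeNormedField]; exact WithTop.coe_le_coe.2 le_top) X Y

theorem Wt.hasFDerivAt_fderiv_apply_aux (h : Sm F p) (Z : E) :
    HasFDerivAt (fun q => fderiv ℝ F q Z)
      ((ContinuousLinearMap.apply ℝ ℂ Z).comp (fderiv ℝ (fderiv ℝ F) p)) p := by
  have h1 : DifferentiableAt ℝ (fderiv ℝ F) p :=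
    (h.contDiffAt.fderiv_right (m := ∞) (by simp)).differentiableAt (by simp)
  exact (ContinuousLinearMap.apply ℝ ℂ Z).hasFDerivAt.comp p h1.hasFDerivAt

theorem Wt.fderiv_D_aux (h : Sm F p) (Z X : E) :
    fderiv ℝ (D Z F) p X =
      (fderiv ℝ (fderiv ℝ F) p X Z - I * fderiv ℝ (fderiv ℝ F) p X (I • Z)) / 2 := by
  have h1 := ((Wt.hasFDerivAt_fderiv_apply_aux h Z).sub
    ((Wt.hasFDerivAt_fderiv_apply_aux h (I • Z)).const_mul I)).mul_const (2 : ℂ)⁻¹
  have h2 : D Z F = fun q => (fderiv ℝ F q Z - I * fderiv ℝ F q (I • Z)) * (2 : ℂ)⁻¹ := by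
    funext q; simp only [D, div_eq_mul_inv]
  rw [h2]
  erw [h1.fderiv]
  simp
  ring

theorem Wt.fderiv_Db_aux (h : Sm F p) (Z X : E) :
    fderiv ℝ (Db Z F) p X =
      (fderiv ℝ (fderiv ℝ F) p X Z + I * fderiv ℝ (fderiv ℝ F) p X (I • Z)) / 2 := by
  have h1 := ((Wt.hasFDerivAt_fderiv_apply_aux h Z).add
    ((Wt.hasFDerivAt_fderiv_apply_aux h (I • Z)).const_mul I)).mul_const (2 : ℂ)⁻¹
  have h2 : Db Z F = fun q => (fderiv ℝ F q Z + I * fderiv ℝ F q (I • Z)) * (2 : ℂ)⁻¹ := by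
    funext q; simp only [Db, div_eq_mul_inv]
  rw [h2]
  erw [h1.fderiv]
  simp
  ring

theorem Sm.D (h : Sm F p) (X : E) : Sm (D X F) p := by
  have h1 : ∀ᶠ q in 𝓝 p, ContDiffAt ℝ ∞ F q := h
  filter_upwards [h1] with q hq
  exact Wt.contDiffAt_D_aux hq X
theorem Sm.Db (h : Sm F p) (X : E) : Sm (Db X F) p := by
  have h1 : ∀ᶠ q in 𝓝 p, ContDiffAt ℝ ∞ F q := h
  filter_upwards [h1] with q hq
  exact Wt.contDiffAt_Db_aux hq X
theorem contDiff_D (h : ContDiff ℝ ∞ F) (X : E) : ContDiff ℝ ∞ (D X F) :=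
  contDiff_iff_contDiffAt.2 fun _ => Wt.contDiffAt_D_aux h.contDiffAt X
theorem contDiff_Db (h : ContDiff ℝ ∞ F) (X : E) : ContDiff ℝ ∞ (Db X F) :=
  contDiff_iff_contDiffAt.2 fun _ => Wt.contDiffAt_Db_aux h.contDiffAt X

theorem D_congr (he : F =ᶠ[𝓝 p] F') (X : E) : D X F =ᶠ[𝓝 p] D X F' := by
  filter_upwards [he.fderiv (𝕜 := ℝ)] with q hq
  simp only [D, hq]
theorem Db_congr (he : F =ᶠ[𝓝 p] F') (X : E) : Db X F =ᶠ[𝓝 p] Db X F' := by
  filter_upwards [he.fderiv (𝕜 := ℝ)] with q hq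
  simp only [Db, hq]

/-! pointwise rules -/
theorem D_add_apply (h : DifferentiableAt ℝ F p) (h' : DifferentiableAt ℝ F' p) (X : E) :
    D X (fun q => F q + F' q) p = D X F p + D X F' p := by
  simp only [D, fderiv_fun_add h h', _root_.add_apply]
  ring
theorem Db_add_apply (h : DifferentiableAt ℝ F p) (h' : DifferentiableAt ℝ F' p) (X : E) :
    Db X (fun q => F q + F' q) p = Db X F p + Db X F' p := by
  simp only [Db, fderiv_fun_add h h', _root_.add_apply]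
  ring
theorem D_mul_apply (h : DifferentiableAt ℝ F p) (h' : DifferentiableAt ℝ F' p) (X : E) :
    D X (fun q => F q * F' q) p = D X F p * F' p + F p * D X F' p := by
  simp only [D, fderiv_fun_mul h h', _root_.add_apply,
    _root_.smul_apply, smul_eq_mul]
  ring
theorem Db_mul_apply (h : DifferentiableAt ℝ F p) (h' : DifferentiableAt ℝ F' p) (X : E) :
    Db X (fun q => F q * F' q) p = Db X F p * F' p + F p * Db X F' p := by
  simp only [Db, fderiv_fun_mul h h', _root_.add_apply,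
    _root_.smul_apply, smul_eq_mul]
  ring
theorem D_const (c : ℂ) (X : E) : D X (fun _ : E => c) = fun _ => 0 := by
  funext q
  simp [D]
theorem Db_const (c : ℂ) (X : E) : Db X (fun _ : E => c) = fun _ => 0 := by
  funext q
  simp [Db]
theorem D_conj (F : E → ℂ) (X : E) :
    D X (fun q => conj (F q)) = fun q => conj (Db X F q) := by
  funext q
  simp only [D, Db, Wt.fderiv_conj_aux, map_div₀, map_add, map_mul, conj_I, map_ofNat]
  ring
theorem Db_conj (F : E → ℂ) (X : E) :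
    Db X (fun q => conj (F q)) = fun q => conj (D X F q) := by
  funext q
  simp only [D, Db, Wt.fderiv_conj_aux, map_div₀, map_sub, map_mul, conj_I, map_ofNat]
  ring
theorem D_holo (h : DifferentiableAt ℂ F p) (X : E) : D X F p = fderiv ℂ F p X := by
  simp only [D, h.fderiv_restrictScalars ℝ, ContinuousLinearMap.coe_restrictScalars', map_smul,
    smul_eq_mul]
  linear_combination (-(fderiv ℂ F p X) / 2) * I_mul_I
theorem Db_holo (h : DifferentiableAt ℂ F p) (X : E) : Db X F p = 0 := by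
  simp only [Db, h.fderiv_restrictScalars ℝ, ContinuousLinearMap.coe_restrictScalars', map_smul,
    smul_eq_mul]
  linear_combination ((fderiv ℂ F p X) / 2) * I_mul_I
/-- chain rule with a real outer function -/
theorem D_comp_real {k : ℝ → ℝ} (hk : DifferentiableAt ℝ k (Φ p)) (h : DifferentiableAt ℝ Φ p)
    (X : E) : D X (cx fun q => k (Φ q)) p = (deriv k (Φ p) : ℝ) * D X (cx Φ) p := by
  simp only [D, Wt.fderiv_comp_real_aux hk h]
  ring
theorem Db_comp_real {k : ℝ → ℝ} (hk : DifferentiableAt ℝ k (Φ p)) (h : DifferentiableAt ℝ Φ p)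
    (X : E) : Db X (cx fun q => k (Φ q)) p = (deriv k (Φ p) : ℝ) * Db X (cx Φ) p := by
  simp only [Db, Wt.fderiv_comp_real_aux hk h]
  ring
theorem D_add_vec (F : E → ℂ) (X X' : E) : D (X + X') F = fun q => D X F q + D X' F q := by
  funext q
  simp only [D, smul_add, map_add]
  ring
theorem D_smul_vec (F : E → ℂ) (c : ℂ) (X : E) : D (c • X) F = fun q => c * D X F q := by
  funext q
  simp only [D]
  rw [smul_comm I c X, Wt.clm_smul_aux _ c X, Wt.clm_smul_aux _ c (I • X), Wt.I_smul_I_smul_aux, map_neg]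
  conv_rhs => rw [← re_add_im c]
  linear_combination ((c.im : ℂ) * fderiv ℝ F q (I • X) / 2) * I_mul_I
theorem Db_add_vec (F : E → ℂ) (X X' : E) : Db (X + X') F = fun q => Db X F q + Db X' F q := by
  funext q
  simp only [Db, smul_add, map_add]
  ring
theorem Db_smul_vec (F : E → ℂ) (c : ℂ) (X : E) :
    Db (c • X) F = fun q => conj c * Db X F q := by
  funext q
  simp only [Db]
  rw [smul_comm I c X, Wt.clm_smul_aux _ c X, Wt.clm_smul_aux _ c (I • X), Wt.I_smul_I_smul_aux, map_neg]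
  conv_rhs => rw [← re_add_im c]
  simp only [map_add, map_mul, conj_ofReal, conj_I]
  linear_combination ((c.im : ℂ) * fderiv ℝ F q (I • X) / 2) * I_mul_I
theorem fderiv_eq_D_add_Db (F : E → ℂ) (p X : E) : fderiv ℝ F p X = D X F p + Db X F p := by
  simp only [D, Db]
  ring

/-! commutation -/
theorem D_D_comm (h : Sm F p) (X Z : E) : D X (D Z F) =ᶠ[𝓝 p] D Z (D X F) := by
  filter_upwards [h.eventually] with q hq
  have hs := hq.symm_aux
  simp only [D, Wt.fderiv_D_aux hq]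
  rw [hs X Z, hs X (I • Z), hs (I • X) Z, hs (I • X) (I • Z)]
  ring
theorem D_Db_comm (h : Sm F p) (X Y : E) : D X (Db Y F) =ᶠ[𝓝 p] Db Y (D X F) := by
  filter_upwards [h.eventually] with q hq
  have hs := hq.symm_aux
  rw [D, Db]
  simp only [Wt.fderiv_D_aux hq, Wt.fderiv_Db_aux hq]
  rw [hs X Y, hs X (I • Y), hs (I • X) Y, hs (I • X) (I • Y)]
  ring
theorem Db_Db_comm (h : Sm F p) (Y W : E) : Db Y (Db W F) =ᶠ[𝓝 p] Db W (Db Y F) := by
  filter_upwards [h.eventually] with q hq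
  have hs := hq.symm_aux
  simp only [Db, Wt.fderiv_Db_aux hq]
  rw [hs Y W, hs Y (I • W), hs (I • Y) W, hs (I • Y) (I • W)]
  ring

/-! jets of real functions -/
theorem Wt.D_const_mul_apply (h : DifferentiableAt ℝ F p) (c : ℂ) (X : E) :
    D X (fun q => c * F q) p = c * D X F p := by
  rw [D_mul_apply (differentiableAt_const c) h, D_const]
  simp
theorem Wt.Db_const_mul_apply (h : DifferentiableAt ℝ F p) (c : ℂ) (X : E) :
    Db X (fun q => c * F q) p = c * Db X F p := by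
  rw [Db_mul_apply (differentiableAt_const c) h, Db_const]
  simp
theorem Wt.D_add_ev (h : Sm F p) (h' : Sm F' p) (X : E) :
    D X (fun q => F q + F' q) =ᶠ[𝓝 p] fun q => D X F q + D X F' q := by
  filter_upwards [h.eventually, h'.eventually] with q hq hq'
  exact D_add_apply hq.differentiableAt hq'.differentiableAt X
theorem Wt.Db_add_ev (h : Sm F p) (h' : Sm F' p) (X : E) :
    Db X (fun q => F q + F' q) =ᶠ[𝓝 p] fun q => Db X F q + Db X F' q := by
  filter_upwards [h.eventually, h'.eventually] with q hq hq'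
  exact Db_add_apply hq.differentiableAt hq'.differentiableAt X
theorem Wt.D_mul_ev (h : Sm F p) (h' : Sm F' p) (X : E) :
    D X (fun q => F q * F' q) =ᶠ[𝓝 p] fun q => D X F q * F' q + F q * D X F' q := by
  filter_upwards [h.eventually, h'.eventually] with q hq hq'
  exact D_mul_apply hq.differentiableAt hq'.differentiableAt X
theorem Wt.Db_mul_ev (h : Sm F p) (h' : Sm F' p) (X : E) :
    Db X (fun q => F q * F' q) =ᶠ[𝓝 p] fun q => Db X F q * F' q + F q * Db X F' q := by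
  filter_upwards [h.eventually, h'.eventually] with q hq hq'
  exact Db_mul_apply hq.differentiableAt hq'.differentiableAt X
theorem Wt.D_const_mul_ev (h : Sm F p) (c : ℂ) (X : E) :
    D X (fun q => c * F q) =ᶠ[𝓝 p] fun q => c * D X F q := by
  filter_upwards [h.eventually] with q hq
  exact Wt.D_const_mul_apply hq.differentiableAt c X
theorem Wt.Db_const_mul_ev (h : Sm F p) (c : ℂ) (X : E) :
    Db X (fun q => c * F q) =ᶠ[𝓝 p] fun q => c * Db X F q := by
  filter_upwards [h.eventually] with q hq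
  exact Wt.Db_const_mul_apply hq.differentiableAt c X
theorem Wt.conj_D (F : E → ℂ) (X q : E) : conj (D X F q) = Db X (fun q => conj (F q)) q := by
  rw [Db_conj]
theorem Wt.conj_Db (F : E → ℂ) (X q : E) : conj (Db X F q) = D X (fun q => conj (F q)) q := by
  rw [D_conj]
theorem Wt.conj_D_fun (F : E → ℂ) (X : E) :
    (fun q => conj (D X F q)) = Db X (fun q => conj (F q)) := (Db_conj F X).symm
theorem Wt.conj_Db_fun (F : E → ℂ) (X : E) :
    (fun q => conj (Db X F q)) = D X (fun q => conj (F q)) := (D_conj F X).symm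
theorem Wt.conj_cx {α : Type*} (Φ : α → ℝ) : (fun q => conj (cx Φ q)) = cx Φ := by
  funext q; simp [cx]
theorem Wt.cx_congr {α : Type*} {l : Filter α} {Φ Φ' : α → ℝ} (he : Φ =ᶠ[l] Φ') :
    cx Φ =ᶠ[l] cx Φ' := by
  filter_upwards [he] with q hq
  simp only [cx, hq]
theorem Wt.cx_add {α : Type*} (Φ Φ' : α → ℝ) :
    cx (fun q => Φ q + Φ' q) = fun q => cx Φ q + cx Φ' q := by
  funext q; simp [cx]
theorem Wt.cx_mul {α : Type*} (Φ Φ' : α → ℝ) :
    cx (fun q => Φ q * Φ' q) = fun q => cx Φ q * cx Φ' q := by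
  funext q; simp [cx]
theorem Wt.cx_const_mul {α : Type*} (a : ℝ) (Φ : α → ℝ) :
    cx (fun q => a * Φ q) = fun q => (a : ℂ) * cx Φ q := by
  funext q; simp [cx]
theorem Wt.cx_const {α : Type*} (a : ℝ) : cx (fun _ : α => a) = fun _ => (a : ℂ) := rfl

theorem J1_congr (he : Φ =ᶠ[𝓝 p] Φ') : J1 Φ p = J1 Φ' p := by
  funext X
  exact (D_congr (Wt.cx_congr he) X).eq_of_nhds
theorem J20_congr (he : Φ =ᶠ[𝓝 p] Φ') : J20 Φ p = J20 Φ' p := by
  funext X Z
  exact (D_congr (D_congr (Wt.cx_congr he) Z) X).eq_of_nhds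
theorem Lv_congr (he : Φ =ᶠ[𝓝 p] Φ') : Lv Φ p = Lv Φ' p := by
  funext X Y
  exact (D_congr (Db_congr (Wt.cx_congr he) Y) X).eq_of_nhds
theorem T3_congr (he : Φ =ᶠ[𝓝 p] Φ') : T3 Φ p = T3 Φ' p := by
  funext X Z Y
  exact (D_congr (D_congr (Db_congr (Wt.cx_congr he) Y) Z) X).eq_of_nhds
theorem Q4_congr (he : Φ =ᶠ[𝓝 p] Φ') : Q4 Φ p = Q4 Φ' p := by
  funext X Z Y W
  exact (Db_congr (D_congr (D_congr (Db_congr (Wt.cx_congr he) Y) Z) X) W).eq_of_nhds
theorem Good.congr {c L : ℝ} (h : Good Φ p c L) (he : Φ =ᶠ[𝓝 p] Φ') : Good Φ' p c L := by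
  obtain ⟨h1, h2, h3, h4⟩ := h
  rw [Lv_congr he] at h2 h3 h4
  rw [T3_congr he, Q4_congr he] at h3
  rw [J1_congr he] at h4
  exact ⟨h1.congr he, h2, h3, h4⟩
theorem Low.congr {B : ℝ} (h : Low Φ p B) (he : Φ =ᶠ[𝓝 p] Φ') : Low Φ' p B := by
  unfold Low at h ⊢
  rwa [Lv_congr he, T3_congr he, Q4_congr he] at h
theorem Very.congr {B : ℝ} (h : Very Φ p B) (he : Φ =ᶠ[𝓝 p] Φ') : Very Φ' p B := by
  unfold Very at h ⊢
  rwa [Lv_congr he, T3_congr he, Q4_congr he] at h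

theorem isJet_of_sm (h : Sm Φ p) : IsJet (Lv Φ p) (T3 Φ p) (Q4 Φ p) := by
  have hF : Sm (cx Φ) p := h.cx
  refine ⟨?_, ?_, ?_, ?_, ?_, ?_, ?_, ?_, ?_, ?_, ?_, ?_⟩
  · intro X X' Y
    simp only [Lv, j11, D_add_vec]
  · intro c X Y
    simp only [Lv, j11, D_smul_vec]
  · intro X Y
    simp only [Lv, j11]
    rw [Wt.conj_D, Wt.conj_Db_fun, Wt.conj_cx]
    exact (D_Db_comm hF Y X).eq_of_nhds
  · intro X X' Z Y
    simp only [T3, j21, D_add_vec]
  · intro c X Z Y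
    simp only [T3, j21, D_smul_vec]
  · intro X Z Y
    exact (D_D_comm (hF.Db Y) X Z).eq_of_nhds
  · intro X Z Y Y'
    simp only [T3, j21, Db_add_vec]
    rw [(D_congr (Wt.D_add_ev (hF.Db Y) (hF.Db Y') Z) X).eq_of_nhds]
    exact D_add_apply ((hF.Db Y).D Z).differentiableAt ((hF.Db Y').D Z).differentiableAt X
  · intro c X Z Y
    simp only [T3, j21, Db_smul_vec]
    rw [(D_congr (Wt.D_const_mul_ev (hF.Db Y) (conj c) Z) X).eq_of_nhds]
    exact Wt.D_const_mul_apply ((hF.Db Y).D Z).differentiableAt _ X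
  · intro X X' Z Y W
    simp only [Q4, j22, D_add_vec]
    exact Db_add_apply (((hF.Db Y).D Z).D X).differentiableAt
      (((hF.Db Y).D Z).D X').differentiableAt W
  · intro c X Z Y W
    simp only [Q4, j22, D_smul_vec]
    exact Wt.Db_const_mul_apply (((hF.Db Y).D Z).D X).differentiableAt c W
  · intro X Z Y W
    exact (Db_congr (D_D_comm (hF.Db Y) X Z) W).eq_of_nhds
  · intro X Z Y W
    simp only [Q4, j22]
    rw [Wt.conj_Db, Wt.conj_D_fun, Wt.conj_D_fun, Wt.conj_Db_fun, Wt.conj_cx]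
    symm
    calc D W (Db X (Db Z (D Y (cx Φ)))) p = D W (Db Z (Db X (D Y (cx Φ)))) p :=
          (D_congr (Db_Db_comm (hF.D Y) X Z) W).eq_of_nhds
      _ = Db Z (D W (Db X (D Y (cx Φ)))) p := (D_Db_comm ((hF.D Y).Db X) W Z).eq_of_nhds
      _ = Db Z (D W (D Y (Db X (cx Φ)))) p :=
          (Db_congr (D_congr (D_Db_comm hF Y X).symm W) Z).eq_of_nhds
      _ = Db Z (D Y (D W (Db X (cx Φ)))) p :=
          (Db_congr (D_D_comm (hF.Db X) W Y) Z).eq_of_nhds
theorem J1_add_vec (Φ : E → ℝ) (p X X' : E) : J1 Φ p (X + X') = J1 Φ p X + J1 Φ p X' := by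
  simp only [J1, j1, D_add_vec]
theorem J1_smul_vec (Φ : E → ℝ) (p : E) (c : ℂ) (X : E) : J1 Φ p (c • X) = c * J1 Φ p X := by
  simp only [J1, j1, D_smul_vec]
theorem J20_add_vec (Φ : E → ℝ) (p X X' Z : E) :
    J20 Φ p (X + X') Z = J20 Φ p X Z + J20 Φ p X' Z := by
  simp only [J20, j20, D_add_vec]
theorem J20_smul_vec (Φ : E → ℝ) (p : E) (c : ℂ) (X Z : E) :
    J20 Φ p (c • X) Z = c * J20 Φ p X Z := by
  simp only [J20, j20, D_smul_vec]
theorem J20_symm (h : Sm Φ p) (X Z : E) : J20 Φ p X Z = J20 Φ p Z X :=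
  (D_D_comm h.cx X Z).eq_of_nhds
theorem jb_cx (Φ : E → ℝ) (p Y : E) : jb (cx Φ) p Y = conj (J1 Φ p Y) := by
  simp only [jb, J1, j1]
  rw [Wt.conj_D, Wt.conj_cx]
theorem j02_cx (h : Sm Φ p) (Y W : E) : j02 (cx Φ) p Y W = conj (J20 Φ p Y W) := by
  simp only [j02, J20, j20]
  rw [Wt.conj_D, Wt.conj_D_fun, Wt.conj_cx]
  exact (Db_Db_comm h.cx W Y).eq_of_nhds
theorem j12_cx (h : Sm Φ p) (X Y W : E) : j12 (cx Φ) p X Y W = conj (T3 Φ p Y W X) := by
  simp only [j12, T3, j21]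
  rw [Wt.conj_D, Wt.conj_D_fun, Wt.conj_Db_fun, Wt.conj_cx]
  calc Db W (D X (Db Y (cx Φ))) p = Db W (Db Y (D X (cx Φ))) p :=
        (Db_congr (D_Db_comm h.cx X Y) W).eq_of_nhds
    _ = Db Y (Db W (D X (cx Φ))) p := (Db_Db_comm (h.cx.D X) W Y).eq_of_nhds
theorem fderiv_eq_J1 (h : Sm Φ p) (X : E) : fderiv ℝ Φ p X = 2 * (J1 Φ p X).re := by
  have h1 := fderiv_eq_D_add_Db (cx Φ) p X
  have h2 : Db X (cx Φ) p = conj (J1 Φ p X) := jb_cx Φ p X
  have h3 : D X (cx Φ) p = J1 Φ p X := rfl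
  rw [Wt.fderiv_cx_aux h.differentiableAt, h2, h3, add_conj] at h1
  exact_mod_cast h1

theorem J1_add (h : Sm Φ p) (h' : Sm Φ' p) (X : E) :
    J1 (fun q => Φ q + Φ' q) p X = J1 Φ p X + J1 Φ' p X := by
  simp only [J1, j1, Wt.cx_add]
  exact D_add_apply h.cx.differentiableAt h'.cx.differentiableAt X
theorem J20_add (h : Sm Φ p) (h' : Sm Φ' p) (X Z : E) :
    J20 (fun q => Φ q + Φ' q) p X Z = J20 Φ p X Z + J20 Φ' p X Z := by
  simp only [J20, j20, Wt.cx_add]
  rw [(D_congr (Wt.D_add_ev h.cx h'.cx Z) X).eq_of_nhds]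
  exact D_add_apply (h.cx.D Z).differentiableAt (h'.cx.D Z).differentiableAt X
theorem Lv_add (h : Sm Φ p) (h' : Sm Φ' p) (X Y : E) :
    Lv (fun q => Φ q + Φ' q) p X Y = Lv Φ p X Y + Lv Φ' p X Y := by
  simp only [Lv, j11, Wt.cx_add]
  rw [(D_congr (Wt.Db_add_ev h.cx h'.cx Y) X).eq_of_nhds]
  exact D_add_apply (h.cx.Db Y).differentiableAt (h'.cx.Db Y).differentiableAt X
theorem T3_add (h : Sm Φ p) (h' : Sm Φ' p) (X Z Y : E) :
    T3 (fun q => Φ q + Φ' q) p X Z Y = T3 Φ p X Z Y + T3 Φ' p X Z Y := by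
  simp only [T3, j21, Wt.cx_add]
  rw [(D_congr ((D_congr (Wt.Db_add_ev h.cx h'.cx Y) Z).trans
    (Wt.D_add_ev (h.cx.Db Y) (h'.cx.Db Y) Z)) X).eq_of_nhds]
  exact D_add_apply ((h.cx.Db Y).D Z).differentiableAt ((h'.cx.Db Y).D Z).differentiableAt X
theorem Q4_add (h : Sm Φ p) (h' : Sm Φ' p) (X Z Y W : E) :
    Q4 (fun q => Φ q + Φ' q) p X Z Y W = Q4 Φ p X Z Y W + Q4 Φ' p X Z Y W := by
  simp only [Q4, j22, Wt.cx_add]
  rw [(Db_congr ((D_congr ((D_congr (Wt.Db_add_ev h.cx h'.cx Y) Z).trans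
    (Wt.D_add_ev (h.cx.Db Y) (h'.cx.Db Y) Z)) X).trans
    (Wt.D_add_ev ((h.cx.Db Y).D Z) ((h'.cx.Db Y).D Z) X)) W).eq_of_nhds]
  exact Db_add_apply (((h.cx.Db Y).D Z).D X).differentiableAt
    (((h'.cx.Db Y).D Z).D X).differentiableAt W
theorem J1_const_mul (h : Sm Φ p) (a : ℝ) (X : E) :
    J1 (fun q => a * Φ q) p X = a * J1 Φ p X := by
  simp only [J1, j1, Wt.cx_const_mul]
  exact Wt.D_const_mul_apply h.cx.differentiableAt _ X
theorem J20_const_mul (h : Sm Φ p) (a : ℝ) (X Z : E) :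
    J20 (fun q => a * Φ q) p X Z = a * J20 Φ p X Z := by
  simp only [J20, j20, Wt.cx_const_mul]
  rw [(D_congr (Wt.D_const_mul_ev h.cx _ Z) X).eq_of_nhds]
  exact Wt.D_const_mul_apply (h.cx.D Z).differentiableAt _ X
theorem Lv_const_mul (h : Sm Φ p) (a : ℝ) (X Y : E) :
    Lv (fun q => a * Φ q) p X Y = a * Lv Φ p X Y := by
  simp only [Lv, j11, Wt.cx_const_mul]
  rw [(D_congr (Wt.Db_const_mul_ev h.cx _ Y) X).eq_of_nhds]
  exact Wt.D_const_mul_apply (h.cx.Db Y).differentiableAt _ X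
theorem T3_const_mul (h : Sm Φ p) (a : ℝ) (X Z Y : E) :
    T3 (fun q => a * Φ q) p X Z Y = a * T3 Φ p X Z Y := by
  simp only [T3, j21, Wt.cx_const_mul]
  rw [(D_congr ((D_congr (Wt.Db_const_mul_ev h.cx _ Y) Z).trans
    (Wt.D_const_mul_ev (h.cx.Db Y) _ Z)) X).eq_of_nhds]
  exact Wt.D_const_mul_apply ((h.cx.Db Y).D Z).differentiableAt _ X
theorem Q4_const_mul (h : Sm Φ p) (a : ℝ) (X Z Y W : E) :
    Q4 (fun q => a * Φ q) p X Z Y W = a * Q4 Φ p X Z Y W := by
  simp only [Q4, j22, Wt.cx_const_mul]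
  rw [(Db_congr ((D_congr ((D_congr (Wt.Db_const_mul_ev h.cx _ Y) Z).trans
    (Wt.D_const_mul_ev (h.cx.Db Y) _ Z)) X).trans
    (Wt.D_const_mul_ev ((h.cx.Db Y).D Z) _ X)) W).eq_of_nhds]
  exact Wt.Db_const_mul_apply (((h.cx.Db Y).D Z).D X).differentiableAt _ W
theorem J1_const (a : ℝ) (p X : E) : J1 (fun _ => a) p X = 0 := by
  simp only [J1, j1, Wt.cx_const, D_const]
theorem J20_const (a : ℝ) (p X Z : E) : J20 (fun _ => a) p X Z = 0 := by
  simp only [J20, j20, Wt.cx_const, D_const]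
theorem Lv_const (a : ℝ) (p X Y : E) : Lv (fun _ => a) p X Y = 0 := by
  simp only [Lv, j11, Wt.cx_const, D_const, Db_const]
theorem T3_const (a : ℝ) (p X Z Y : E) : T3 (fun _ => a) p X Z Y = 0 := by
  simp only [T3, j21, Wt.cx_const, D_const, Db_const]
theorem Q4_const (a : ℝ) (p X Z Y W : E) : Q4 (fun _ => a) p X Z Y W = 0 := by
  simp only [Q4, j22, Wt.cx_const, D_const, Db_const]

/-! real parts of holomorphic functions -/
theorem Wt.cx_re {α : Type*} (h : α → ℂ) :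
    cx (fun q => (h q).re) = fun q => (2 : ℂ)⁻¹ * (h q + conj (h q)) := by
  funext q
  simp only [cx, add_conj]
  push_cast
  ring

theorem Wt.differentiableAt_conj_aux (h : DifferentiableAt ℝ F p) :
    DifferentiableAt ℝ (fun q => conj (F q)) p :=
  Complex.conjCLE.differentiableAt.comp p h

theorem Wt.D_cx_re {h : E → ℂ} (hh : DifferentiableAt ℂ h p) (X : E) :
    D X (cx fun q => (h q).re) p = fderiv ℂ h p X / 2 := by
  have h1 : DifferentiableAt ℝ h p := hh.restrictScalars ℝ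
  have h2 := Wt.differentiableAt_conj_aux h1
  rw [Wt.cx_re, Wt.D_const_mul_apply (h1.fun_add h2), D_add_apply h1 h2, D_conj, D_holo hh]
  simp only [Db_holo hh, map_zero]
  ring

theorem Wt.Db_cx_re {h : E → ℂ} (hh : DifferentiableAt ℂ h p) (X : E) :
    Db X (cx fun q => (h q).re) p = conj (fderiv ℂ h p X / 2) := by
  rw [← Wt.D_cx_re hh, Wt.conj_D, Wt.conj_cx]

theorem Wt.analyticAt_fderiv_apply {h : E → ℂ} (hh : AnalyticAt ℂ h p) (Z : E) :
    AnalyticAt ℂ (fun q => fderiv ℂ h q Z) p :=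
  ((ContinuousLinearMap.apply ℂ ℂ Z).analyticAt _).comp hh.fderiv

theorem Wt.D_cx_re_ev {h : E → ℂ} (hh : AnalyticAt ℂ h p) (X : E) :
    D X (cx fun q => (h q).re) =ᶠ[𝓝 p] fun q => fderiv ℂ h q X / 2 := by
  filter_upwards [hh.eventually_analyticAt] with q hq
  exact Wt.D_cx_re hq.differentiableAt X

theorem Wt.Db_cx_re_ev {h : E → ℂ} (hh : AnalyticAt ℂ h p) (X : E) :
    Db X (cx fun q => (h q).re) =ᶠ[𝓝 p] fun q => conj (fderiv ℂ h q X / 2) := by
  filter_upwards [hh.eventually_analyticAt] with q hq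
  exact Wt.Db_cx_re hq.differentiableAt X

theorem Wt.D_Db_cx_re_ev {h : E → ℂ} (hh : AnalyticAt ℂ h p) (X Y : E) :
    D X (Db Y (cx fun q => (h q).re)) =ᶠ[𝓝 p] fun _ => 0 := by
  refine (D_congr (Wt.Db_cx_re_ev hh Y) X).trans ?_
  filter_upwards [hh.eventually_analyticAt] with q hq
  have h1 : DifferentiableAt ℂ (fun q => fderiv ℂ h q Y / 2) q := by
    simp only [div_eq_mul_inv]
    exact (Wt.analyticAt_fderiv_apply hq Y).differentiableAt.mul_const _
  rw [D_conj]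
  simp only [Db_holo h1, map_zero]

theorem J1_re {h : E → ℂ} (hh : AnalyticAt ℂ h p) (X : E) :
    J1 (fun q => (h q).re) p X = fderiv ℂ h p X / 2 :=
  Wt.D_cx_re hh.differentiableAt X
theorem J20_re {h : E → ℂ} (hh : AnalyticAt ℂ h p) (X Z : E) :
    J20 (fun q => (h q).re) p X Z = fderiv ℂ (fun q => fderiv ℂ h q Z) p X / 2 := by
  have h1 : DifferentiableAt ℂ (fun q => fderiv ℂ h q Z) p :=
    (Wt.analyticAt_fderiv_apply hh Z).differentiableAt
  simp only [J20, j20]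
  rw [(D_congr (Wt.D_cx_re_ev hh Z) X).eq_of_nhds]
  simp only [div_eq_mul_inv]
  rw [D_holo (h1.mul_const _), fderiv_mul_const h1]
  simp [mul_comm]
theorem Lv_re {h : E → ℂ} (hh : AnalyticAt ℂ h p) (X Y : E) :
    Lv (fun q => (h q).re) p X Y = 0 :=
  (Wt.D_Db_cx_re_ev hh X Y).eq_of_nhds
theorem T3_re {h : E → ℂ} (hh : AnalyticAt ℂ h p) (X Z Y : E) :
    T3 (fun q => (h q).re) p X Z Y = 0 := by
  simp only [T3, j21]
  rw [(D_congr (Wt.D_Db_cx_re_ev hh Z Y) X).eq_of_nhds, D_const]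
theorem Q4_re {h : E → ℂ} (hh : AnalyticAt ℂ h p) (X Z Y W : E) :
    Q4 (fun q => (h q).re) p X Z Y W = 0 := by
  simp only [Q4, j22]
  rw [(Db_congr (D_congr (Wt.D_Db_cx_re_ev hh Z Y) X) W).eq_of_nhds, D_const, Db_const]

theorem Wt.num_scale {V : Type*} (a : ℝ) (H : V → V → ℂ) (Q : V → V → V → V → ℂ)
    (X Y G1 G2 G3 : V) :
    num (fun X Y => a * H X Y) (fun X Z Y W => a * Q X Z Y W) X Y G1 G2 G3 =
      a * num H Q X Y G1 G2 G3 := by
  simp only [num]
  rw [← re_ofReal_mul]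
  congr 1
  ring

theorem Wt.den_scale {V : Type*} (a : ℝ) (H : V → V → ℂ) (X Y : V) :
    den (fun X Y => a * H X Y) X Y = a ^ 2 * den H X Y := by
  simp only [den, re_ofReal_mul]
  ring

theorem Wt.solves_scale {V : Type*} {a : ℝ} (ha : a ≠ 0) {H : V → V → ℂ} {T : V → V → V → ℂ}
    {X Y G1 G2 G3 : V} :
    Solves (fun X Y => a * H X Y) (fun X Z Y => a * T X Z Y) X Y G1 G2 G3 ↔
      Solves H T X Y G1 G2 G3 := by
  have ha' : (a : ℂ) ≠ 0 := by exact_mod_cast ha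
  simp only [Solves, mul_right_inj' ha']

/-- scaling the potential -/
theorem Good.const_mul {c L a : ℝ} (h : Good Φ p c L) (ha : 0 < a) :
    Good (fun q => a * Φ q) p (c / a) (L * Real.sqrt a) := by
  obtain ⟨h1, h2, h3, h4⟩ := h
  have eL : Lv (fun q => a * Φ q) p = fun X Y => a * Lv Φ p X Y := by
    funext X Y; exact Lv_const_mul h1 a X Y
  have eT : T3 (fun q => a * Φ q) p = fun X Z Y => a * T3 Φ p X Z Y := by
    funext X Z Y; exact T3_const_mul h1 a X Z Y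
  have eQ : Q4 (fun q => a * Φ q) p = fun X Z Y W => a * Q4 Φ p X Z Y W := by
    funext X Z Y W; exact Q4_const_mul h1 a X Z Y W
  refine ⟨(Sm.const a).mul h1, ?_, ?_, ?_⟩
  · intro X hX
    rw [eL]
    simp only [re_ofReal_mul]
    exact mul_pos ha (h2 X hX)
  · intro X Y G1 G2 G3 hS
    rw [eL, eT] at hS
    rw [eL, eQ, Wt.num_scale, Wt.den_scale]
    have h5 := h3 X Y G1 G2 G3 ((Wt.solves_scale ha.ne').1 hS)
    have h6 := mul_le_mul_of_nonneg_left h5 ha.le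
    have h7 : -(c / a) * (a ^ 2 * den (Lv Φ p) X Y) = a * (-c * den (Lv Φ p) X Y) := by
      field_simp
    rw [h7]
    exact h6
  · intro X
    rw [J1_const_mul h1, eL]
    simp only [re_ofReal_mul, norm_mul, Complex.norm_real, Real.norm_eq_abs, abs_of_pos ha]
    rw [Real.sqrt_mul ha.le]
    have h5 := mul_le_mul_of_nonneg_left (h4 X) ha.le
    have h6 : L * √a * (√a * √(Lv Φ p X X).re) = a * (L * √(Lv Φ p X X).re) := by
      have := Real.mul_self_sqrt ha.le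
      linear_combination (L * √(Lv Φ p X X).re) * this
    rw [h6]
    exact h5
theorem Very.const_mul {B a : ℝ} (h : Very Φ p B) (hs : Sm Φ p) (ha : 0 < a) :
    Very (fun q => a * Φ q) p (B / a) := by
  have eL : Lv (fun q => a * Φ q) p = fun X Y => a * Lv Φ p X Y := by
    funext X Y; exact Lv_const_mul hs a X Y
  have eT : T3 (fun q => a * Φ q) p = fun X Z Y => a * T3 Φ p X Z Y := by
    funext X Z Y; exact T3_const_mul hs a X Z Y
  have eQ : Q4 (fun q => a * Φ q) p = fun X Z Y W => a * Q4 Φ p X Z Y W := by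
    funext X Z Y W; exact Q4_const_mul hs a X Z Y W
  obtain ⟨X, Y, G1, G2, G3, hS, hd, hn⟩ := h
  unfold Very
  rw [eL, eT, eQ]
  refine ⟨X, Y, G1, G2, G3, (Wt.solves_scale ha.ne').2 hS, ?_, ?_⟩
  · rw [Wt.den_scale]
    positivity
  · rw [Wt.num_scale, Wt.den_scale]
    have h6 := mul_le_mul_of_nonneg_left hn ha.le
    have h7 : -(B / a) * (a ^ 2 * den (Lv Φ p) X Y) = a * (-B * den (Lv Φ p) X Y) := by
      field_simp
    rw [h7]
    exact h6

end Calc

end
end Crest.Agent.R245
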